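import Crest.Agent.KN.ABSa

/-! Row 78, job ABS: the adiabatic estimate. -/

set_option autoImplicit false
set_option linter.deprecated false
universe u

namespace Crest.Agent.KN

open scoped InnerProductSpace BigOperators
open Filter Topology

namespace ABSx

variable {H E : Type u} [NormedAddCommGroup H] [InnerProductSpace ℂ H] [CompleteSpace H]
  [NormedAddCommGroup E] [InnerProductSpace ℂ E] [CompleteSpace E]

/-- the data of the estimate -/
structure Dat (Γ P : ℤ → E →L[ℂ] E) (D : ℤ → H →L[ℂ] H) (Θ : H →L[ℂ] E) (V : ℕ → H →L[ℂ] E) :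
    Prop where
  G0 : Γ 0 = 1
  Ga : ∀ m n, Γ (m + n) = Γ m * Γ n
  Gs : ∀ n, star (Γ n) = Γ (-n)
  D0 : D 0 = 1
  Da : ∀ m n, D (m + n) = D m * D n
  Ds : ∀ n, star (D n) = D (-n)
  Ps : ∀ m, IsSelfAdjoint (P m)
  Pm : ∀ m m', P m * P m' = if m = m' then P m else 0
  Pt : ∀ θ, HasSum (fun m => P m θ) θ
  GP : ∀ m k, Γ k * P m = P (m + k) * Γ k
  P0 : ∀ ξ, P 0 (Θ ξ) = Θ ξ
  nΘ : ∀ ξ, ‖Θ ξ‖ = ‖ξ‖
  hV : ∀ S ξ, V S ξ = ∑ m ∈ Finset.Icc (-(S : ℤ)) S, (tent S m : ℂ) • Γ m (Θ (D (-m) ξ))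

/-- `A_S = ∑ v j Γ j` -/
noncomputable def A (Γ : ℤ → E →L[ℂ] E) (S : ℕ) : E →L[ℂ] E :=
  ∑ m ∈ Finset.Icc (-(S : ℤ)) S, (tent S m : ℂ) • Γ m

variable {Γ P : ℤ → E →L[ℂ] E} {D : ℤ → H →L[ℂ] H} {Θ : H →L[ℂ] E} {V : ℕ → H →L[ℂ] E}

namespace Dat
variable (d : Dat Γ P D Θ V)
include d

theorem nG (n : ℤ) (θ : E) : ‖Γ n θ‖ = ‖θ‖ := rep_norm d.G0 d.Ga d.Gs n θ

theorem GG (m n : ℤ) (θ : E) : Γ m (Γ n θ) = Γ (m + n) θ := by rw [d.Ga]; rfl

theorem PP (m : ℤ) (θ : E) : P m (P m θ) = P m θ := by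
  have := d.Pm m m
  rw [if_pos rfl] at this
  exact DFunLike.congr_fun this θ

theorem sl_G {k : ℤ} {Z : E} (h : P k Z = Z) (j : ℤ) : P (k + j) (Γ j Z) = Γ j Z := by
  have := DFunLike.congr_fun (d.GP k j) Z
  simp only [ContinuousLinearMap.mul_apply, h] at this
  exact this.symm

theorem sl_ne {k l : ℤ} {Z : E} (h : P k Z = Z) (hn : l ≠ k) : P l Z = 0 := by
  have := DFunLike.congr_fun (d.Pm l k) Z
  simpa [h, hn] using this

theorem sl_orth {k l : ℤ} {Z W : E} (h : P k Z = Z) (h' : P l W = W) (hn : k ≠ l) :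
    ⟪Z, W⟫_ℂ = 0 := by
  rw [← h, ← (d.Ps k).adjoint_eq, ContinuousLinearMap.adjoint_inner_left, d.sl_ne h' hn,
    inner_zero_right]

theorem orth (k : ℤ) (w : ℤ → E) (hw : ∀ j, P (k + j) (w j) = w j) (F : Finset ℤ) :
    ‖∑ j ∈ F, w j‖ ^ 2 = ∑ j ∈ F, ‖w j‖ ^ 2 := by
  classical
  induction F using Finset.induction_on with
  | empty => simp
  | insert a F ha ih =>
    rw [Finset.sum_insert ha, Finset.sum_insert ha, ← ih, sq, sq, sq]
    refine norm_add_sq_eq_norm_sq_add_norm_sq_of_inner_eq_zero (𝕜 := ℂ) _ _ ?_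
    rw [inner_sum]
    exact Finset.sum_eq_zero fun j hj => d.sl_orth (hw a) (hw j) fun h =>
      ha (by rwa [add_left_cancel h])

theorem nV {S : ℕ} (hS : 1 ≤ S) (ξ : H) : ‖V S ξ‖ ≤ 5 * ‖ξ‖ := by
  have h0 : (1 : ℝ) ≤ S := by exact_mod_cast hS
  refine (sq_le_sq₀ (norm_nonneg _) (by positivity)).1 ?_
  rw [d.hV, d.orth 0 _ fun j => by rw [map_smul, d.sl_G (d.P0 _)]]
  refine (Finset.sum_le_card_nsmul _ _ (8 / S * ‖ξ‖ ^ 2) fun j _ => ?_).trans ?_
  · rw [norm_smul, d.nG, d.nΘ, rep_norm d.D0 d.Da d.Ds, mul_pow, Complex.norm_real,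
      Real.norm_eq_abs, sq_abs, tent_eq hS, mul_pow]
    refine mul_le_mul_of_nonneg_right ?_ (sq_nonneg _)
    have h1 : (0 : ℝ) ≤ T S j := by exact_mod_cast T_nonneg S j
    have h2 : (T S j : ℝ) ≤ S := by exact_mod_cast T_le S j
    calc lam S ^ 2 * (T S j : ℝ) ^ 2 ≤ 8 / (S : ℝ) ^ 3 * (S : ℝ) ^ 2 := by
          gcongr; exact lam_sq hS
      _ = 8 / (S : ℝ) := by field_simp
  · rw [card_F, nsmul_eq_mul, ← mul_assoc, mul_pow]
    refine mul_le_mul_of_nonneg_right ?_ (sq_nonneg _)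
    rw [← mul_div_assoc, div_le_iff₀ (by positivity)]
    push_cast; linarith

theorem nVa {S : ℕ} (hS : 1 ≤ S) (θ : E) :
    ‖ContinuousLinearMap.adjoint (V S) θ‖ ≤ 5 * ‖θ‖ := by
  refine ((ContinuousLinearMap.adjoint (V S)).le_opNorm θ).trans
    (mul_le_mul_of_nonneg_right ?_ (norm_nonneg _))
  rw [LinearIsometryEquiv.norm_map]
  exact ContinuousLinearMap.opNorm_le_bound _ (by norm_num) (d.nV hS)

theorem A_eq {S : ℕ} (hS : 1 ≤ S) (Z : E) : A Γ S (Γ 1 Z - Z) =
    ∑ j ∈ Finset.Icc (-(S : ℤ)) S, ((lam S * dT S j : ℝ) : ℂ) • Γ j Z := by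
  have s := sum_shift (fun j => ((lam S * T S j : ℝ) : ℂ) • Γ (j + 1) Z) (-1)
    (Finset.Icc (-(S : ℤ)) S) (Finset.Icc (-(S : ℤ)) S)
    (fun j hj => by rw [T_zero (by rw [Finset.mem_Icc] at hj; omega)]; simp)
    (fun j hj => by rw [T_zero (by rw [Finset.mem_Icc] at hj; omega)]; simp)
  simp only [← sub_eq_add_neg, sub_add_cancel] at s
  simp only [map_sub, A, ContinuousLinearMap.sum_apply, ContinuousLinearMap.smul_apply, d.GG,
    tent_eq hS]
  rw [s, ← Finset.sum_sub_distrib]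
  refine Finset.sum_congr rfl fun j _ => ?_
  rw [← sub_smul, dT]; congr 1; push_cast; ring

theorem A_le {S : ℕ} (hS : 1 ≤ S) {k : ℤ} {Z : E} (h : P k Z = Z) :
    ‖A Γ S (Γ 1 Z - Z)‖ ≤ 5 / S * ‖Z‖ := by
  have h0 : (1 : ℝ) ≤ S := by exact_mod_cast hS
  refine (sq_le_sq₀ (norm_nonneg _) (by positivity)).1 ?_
  rw [d.A_eq hS, d.orth k _ fun j => by rw [map_smul, d.sl_G h]]
  refine (Finset.sum_le_card_nsmul _ _ (8 / (S : ℝ) ^ 3 * ‖Z‖ ^ 2) fun j _ => ?_).trans ?_
  · rw [norm_smul, d.nG, mul_pow, Complex.norm_real, Real.norm_eq_abs, sq_abs, mul_pow]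
    refine mul_le_mul_of_nonneg_right ?_ (sq_nonneg _)
    have h1 : |(dT S j : ℝ)| ≤ 1 := by exact_mod_cast dT_abs S j
    have h2 : (dT S j : ℝ) ^ 2 ≤ 1 := (sq_le_one_iff_abs_le_one _).2 h1
    calc lam S ^ 2 * (dT S j : ℝ) ^ 2 ≤ 8 / (S : ℝ) ^ 3 * 1 := by
          gcongr; exact lam_sq hS
      _ = _ := mul_one _
  · rw [card_F, nsmul_eq_mul, ← mul_assoc, mul_pow]
    refine mul_le_mul_of_nonneg_right ?_ (sq_nonneg _)
    rw [← mul_div_assoc, div_pow, div_le_div_iff₀ (by positivity) (by positivity)]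
    push_cast; nlinarith [sq_nonneg (S : ℝ)]

theorem Va_G {S : ℕ} (hS : 1 ≤ S) {k : ℤ} {Z : E} (h : P k Z = Z) (j : ℤ) :
    ContinuousLinearMap.adjoint (V S) (Γ j Z) = ((lam S * T S (j + k) : ℝ) : ℂ) •
      D j (D k (ContinuousLinearMap.adjoint Θ (Γ (-k) Z))) := by
  refine ext_inner_left ℂ fun η => ?_
  rw [ContinuousLinearMap.adjoint_inner_right, d.hV, sum_inner, Finset.sum_eq_single (j + k)]
  · rw [inner_smul_left, inner_smul_right, tent_eq hS, Complex.conj_ofReal, rep_inner d.Gs, d.GG,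
      ← ContinuousLinearMap.adjoint_inner_right, rep_inner d.Ds, neg_neg, d.Da]
    rw [show -(j + k) + j = -k by ring]; rfl
  · intro m _ hm
    rw [inner_smul_left, d.sl_orth (d.sl_G (d.P0 _) m) (d.sl_G h j) (by omega), mul_zero]
  · intro hm
    rw [tent_eq hS, T_zero (by rw [Finset.mem_Icc] at hm; omega)]; simp

theorem lim_sl {k : ℤ} {Z : E} (h : P k Z = Z) : Tendsto (fun S : ℕ => (S : ℂ) •
    ContinuousLinearMap.adjoint (V S) (A Γ S (Γ 1 Z - Z))) atTop (𝓝 0) := by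
  refine (ergodic d.D0 d.Da d.Ds k (D k (ContinuousLinearMap.adjoint Θ (Γ (-k) Z)))).congr' ?_
  filter_upwards [eventually_ge_atTop 1] with S hS
  rw [d.A_eq hS, map_sum, Finset.smul_sum]
  refine Finset.sum_congr rfl fun j _ => ?_
  rw [map_smul, d.Va_G hS h, smul_smul, smul_smul]
  congr 1; push_cast; ring

theorem lim_one {Z : E} (h : Summable fun k => ‖P k Z‖) : Tendsto (fun S : ℕ => (S : ℂ) •
    ContinuousLinearMap.adjoint (V S) (A Γ S (Γ 1 Z - Z))) atTop (𝓝 0) := by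
  have := tendsto_tsum_of_dominated_convergence (𝓕 := atTop)
    (f := fun (S : ℕ) k => (S : ℂ) •
      ContinuousLinearMap.adjoint (V S) (A Γ S (Γ 1 (P k Z) - P k Z))) (g := fun _ => 0)
    (h.mul_left 25) (fun k => d.lim_sl (d.PP k Z)) (by
      filter_upwards [eventually_ge_atTop 1] with S hS k
      have h0 : (0 : ℝ) < S := by exact_mod_cast hS
      rw [norm_smul, Complex.norm_natCast]
      calc _ ≤ S * (5 * (5 / S * ‖P k Z‖)) := by
            gcongr; exact (d.nVa hS _).trans (by gcongr; exact d.A_le hS (d.PP k Z))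
        _ = _ := by field_simp; ring)
  rw [tsum_zero] at this
  refine this.congr fun S => ?_
  have h1 := ((Γ 1).hasSum (d.Pt Z)).sub (d.Pt Z)
  exact (((ContinuousLinearMap.adjoint (V S)).hasSum ((A Γ S).hasSum h1)).const_smul
    (S : ℂ)).tsum_eq

theorem sum_G {Z : E} (h : Summable fun k => ‖P k Z‖) (j : ℤ) :
    Summable fun k => ‖P k (Γ j Z)‖ := by
  refine ((Equiv.addRight j).summable_iff).1 (h.congr fun k => ?_)
  have := DFunLike.congr_fun (d.GP k j) Z
  simp only [ContinuousLinearMap.mul_apply] at this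
  simp only [Function.comp_apply, Equiv.coe_addRight, ← this, d.nG]

theorem lim_all {Z : E} (h : Summable fun k => ‖P k Z‖) (m : ℤ) :
    Tendsto (fun S : ℕ => (S : ℂ) •
      ContinuousLinearMap.adjoint (V S) (A Γ S (Γ m Z - Z))) atTop (𝓝 0) := by
  induction m using Int.induction_on with
  | zero => simp [d.G0]
  | succ i ih =>
    have := ih.add (d.lim_one (d.sum_G h i))
    rw [add_zero] at this
    refine this.congr fun S => ?_
    rw [← smul_add, ← map_add, ← map_add, d.GG, add_comm 1]; congr 3; abel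
  | pred i ih =>
    have := ih.sub (d.lim_one (d.sum_G h (-(i : ℤ) - 1)))
    rw [sub_zero] at this
    refine this.congr fun S => ?_
    rw [← smul_sub, ← map_sub, ← map_sub, d.GG, add_sub_cancel]; congr 3; abel

theorem A_all {S : ℕ} (hS : 1 ≤ S) {Z : E} (h : P 0 Z = Z) (m : ℤ) :
    ‖A Γ S (Γ m Z - Z)‖ ≤ 5 / S * (|(m : ℝ)| * ‖Z‖) := by
  induction m using Int.induction_on with
  | zero => simp [d.G0]
  | succ i ih =>
    have h1 := d.A_le hS (d.sl_G h i)
    have e : Γ (i + 1) Z - Z = (Γ i Z - Z) + (Γ 1 (Γ i Z) - Γ i Z) := by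
      rw [d.GG, add_comm 1]; abel
    rw [e, map_add]
    refine (norm_add_le _ _).trans ((add_le_add ih h1).trans (le_of_eq ?_))
    rw [d.nG]; push_cast
    rw [abs_of_nonneg (by positivity), abs_of_nonneg (by positivity)]; ring
  | pred i ih =>
    have h1 := d.A_le hS (d.sl_G h (-(i : ℤ) - 1))
    have e : Γ (-(i : ℤ) - 1) Z - Z =
        (Γ (-i) Z - Z) - (Γ 1 (Γ (-(i : ℤ) - 1) Z) - Γ (-(i : ℤ) - 1) Z) := by
      rw [d.GG, add_sub_cancel]; abel
    rw [e, map_sub]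
    refine (norm_sub_le _ _).trans ((add_le_add ih h1).trans (le_of_eq ?_))
    rw [d.nG]; push_cast
    have : (0 : ℝ) ≤ i := by positivity
    rw [abs_of_nonpos (by linarith), abs_of_nonpos (by linarith)]; ring

theorem band {y' : E →L[ℂ] E} {β : ℤ → ℝ} (hβ : Summable β)
    (hb : ∀ m m', ‖P m * y' * P m'‖ ≤ β (m - m')) {Z : E} (h : Summable fun k => ‖P k Z‖) :
    Summable fun k => ‖P k (y' Z)‖ := by
  have hβ0 : ∀ k, 0 ≤ β k := fun k => by simpa using (norm_nonneg _).trans (hb k 0)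
  have h1 := hβ.mul_of_nonneg h hβ0 fun _ => norm_nonneg _
  let e : ℤ × ℤ ≃ ℤ × ℤ :=
    ⟨fun p => (p.1 - p.2, p.2), fun p => (p.1 + p.2, p.2), fun p => by simp, fun p => by simp⟩
  have h2 : Summable fun p : ℤ × ℤ => β (p.1 - p.2) * ‖P p.2 Z‖ := e.summable_iff.2 h1
  refine Summable.of_nonneg_of_le (fun _ => norm_nonneg _) (fun k => ?_) h2.prod
  refine ((P k * y').hasSum (d.Pt Z)).norm_le_of_bounded (h2.prod_factor k).hasSum fun j => ?_
  rw [← d.PP j Z]
  refine ((P k * y' * P j).le_opNorm (P j Z)).trans ?_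
  rw [d.PP]
  exact mul_le_mul_of_nonneg_right (hb k j) (norm_nonneg _)

end Dat

end ABSx

open ABSx in
theorem jobABS : JobABS.{u} := by
  intro H E _ _ _ _ _ _ Γ P D Θ ζ y y' β G0 Ga Gs D0 Da Ds Dζ Ps Pm Pt GP P0 nΘ Gy Gy' _ Py hβ hb
    hsum V hV Ψ hΨ
  have d : Dat Γ P D Θ V := ⟨G0, Ga, Gs, D0, Da, Ds, Ps, Pm, Pt, GP, P0, nΘ, hV⟩
  have hβ0 : ∀ k, 0 ≤ β k := fun k => by simpa using (norm_nonneg _).trans (hb k 0)
  have hβ1 : Summable β := Summable.of_nonneg_of_le hβ0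
    (fun k => le_mul_of_one_le_left (hβ0 k) (by linarith [abs_nonneg (k : ℝ)])) hβ
  set Z₀ := (y - y') (Θ ζ) with hZ₀
  let a : ℤ → E := fun m => Γ (-m) (P m Z₀)
  have a0 : ∀ m, P 0 (a m) = a m := fun m => by simpa using d.sl_G (d.PP m Z₀) (-m)
  have a1 : HasSum a 0 := by
    have h1 := (Equiv.neg ℤ).hasSum_iff.2 (hsum 0)
    refine (funext fun m => ?_ : a = _) ▸ h1
    have := DFunLike.congr_fun (GP m (-m)) Z₀
    simpa using this
  have a2 : HasSum (fun m => Γ m (a m) - a m) Z₀ := by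
    have := (Pt Z₀).sub a1
    simpa [a, d.GG, G0] using this
  have a3 : Summable fun m : ℤ => |(m : ℝ)| * ‖a m‖ := by
    refine Summable.of_nonneg_of_le (fun _ => by positivity) (fun m => ?_) (hβ.mul_right ‖ζ‖)
    by_cases hm : m = 0
    · simp only [hm, Int.cast_zero, abs_zero, zero_mul]
      have := hβ0 0
      positivity
    have h1 : P m Z₀ = -(P m * y' * P 0) (Θ ζ) := by
      have := DFunLike.congr_fun (Py m).eq (Θ ζ)
      simp only [ContinuousLinearMap.mul_apply, d.sl_ne (P0 ζ) hm, map_zero] at this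
      simp [hZ₀, this, P0]
    have h2 : ‖a m‖ ≤ β m * ‖ζ‖ := by
      simp only [a]
      rw [d.nG, h1, norm_neg, ← nΘ ζ]
      refine ((P m * y' * P 0).le_opNorm _).trans
        (mul_le_mul_of_nonneg_right (by simpa using hb m 0) (norm_nonneg _))
    have := mul_nonneg (hβ0 m) (norm_nonneg ζ)
    nlinarith [abs_nonneg (m : ℝ)]
  have hX : ∀ S, (y - y') (V S ζ) = A Γ S Z₀ := by
    intro S
    simp only [hV, Dζ, A, map_sum, map_smul, ContinuousLinearMap.sum_apply,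
      ContinuousLinearMap.smul_apply]
    refine Finset.sum_congr rfl fun m _ => ?_
    congr 1
    exact (DFunLike.congr_fun ((Gy m).sub_right (Gy' m)).eq (Θ ζ)).symm
  set C := ∑' m : ℤ, |(m : ℝ)| * ‖a m‖
  have hC : ∀ S : ℕ, 1 ≤ S → ‖A Γ S Z₀‖ ≤ 5 / S * C := fun S hS =>
    ((A Γ S).hasSum a2).norm_le_of_bounded (a3.hasSum.mul_left _) fun m => d.A_all hS (a0 m) m
  simp only [hX]
  refine ⟨⟨‖Ψ‖ * (5 * C), fun S hS => (Ψ.le_opNorm _).trans ?_⟩, ?_⟩
  · rw [mul_div_assoc, mul_div_right_comm]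
    exact mul_le_mul_of_nonneg_left (hC S hS) (norm_nonneg _)
  have hcl := closed_null (fun (S : ℕ) (Ψ : E →L[ℂ] E) =>
    (S : ℂ) • ContinuousLinearMap.adjoint (V S) (Ψ (A Γ S Z₀))) (25 * C) fun S hS x x' => by
      have h0 : (0 : ℝ) < S := by exact_mod_cast hS
      rw [← smul_sub, ← map_sub, ← ContinuousLinearMap.sub_apply, norm_smul, Complex.norm_natCast]
      calc _ ≤ S * (5 * (‖x - x'‖ * (5 / S * C))) := by
            gcongr
            refine (d.nVa hS _).trans ?_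
            gcongr
            exact ((x - x').le_opNorm _).trans (by gcongr; exact hC S hS)
        _ = _ := by field_simp; ring
  have hadj : ∀ T ∈ Algebra.adjoin ℂ ({y, y'} : Set (E →L[ℂ] E)), (∀ k, Commute (Γ k) T) ∧
      ∀ Z, (Summable fun k => ‖P k Z‖) → Summable fun k => ‖P k (T Z)‖ := by
    intro T hT
    induction hT using Algebra.adjoin_induction with
    | mem x hx =>
      rcases hx with rfl | rfl
      · refine ⟨Gy, fun Z hZ => Summable.of_nonneg_of_le (fun _ => norm_nonneg _) (fun k => ?_)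
          (hZ.mul_left ‖x‖)⟩
        have := DFunLike.congr_fun (Py k).eq Z
        simp only [ContinuousLinearMap.mul_apply] at this
        rw [this]; exact x.le_opNorm _
      · exact ⟨Gy', fun Z hZ => d.band hβ1 hb hZ⟩
    | algebraMap r =>
      refine ⟨fun k => (Algebra.commutes r _).symm, fun Z hZ => ?_⟩
      simpa [Algebra.algebraMap_eq_smul_one, norm_smul] using hZ.mul_left ‖r‖
    | add x z _ _ hx hz =>
      refine ⟨fun k => (hx.1 k).add_right (hz.1 k), fun Z hZ => Summable.of_nonneg_of_le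
        (fun _ => norm_nonneg _) (fun k => ?_) ((hx.2 Z hZ).add (hz.2 Z hZ))⟩
      rw [ContinuousLinearMap.add_apply, map_add]; exact norm_add_le _ _
    | mul x z _ _ hx hz =>
      exact ⟨fun k => (hx.1 k).mul_right (hz.1 k), fun Z hZ => hx.2 _ (hz.2 Z hZ)⟩
  have hsub : (Algebra.adjoin ℂ ({y, y'} : Set (E →L[ℂ] E)) : Set (E →L[ℂ] E)) ⊆
      {Ψ | Tendsto (fun S : ℕ => (S : ℂ) • ContinuousLinearMap.adjoint (V S) (Ψ (A Γ S Z₀)))
        atTop (𝓝 0)} := by
    intro T hT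
    obtain ⟨t1, t2⟩ := hadj T hT
    have hTA : ∀ S m, T (A Γ S (Γ m (a m) - a m)) = A Γ S (Γ m (T (a m)) - T (a m)) := by
      intro S m
      have c : Commute (A Γ S * (Γ m - 1)) T :=
        (Commute.sum_left _ _ _ fun j _ => (t1 j).smul_left _).mul_left
          ((t1 m).sub_left (Commute.one_left T))
      exact (DFunLike.congr_fun c.eq (a m)).symm
    have := tendsto_tsum_of_dominated_convergence (𝓕 := atTop)
      (f := fun (S : ℕ) m => (S : ℂ) •
        ContinuousLinearMap.adjoint (V S) (T (A Γ S (Γ m (a m) - a m)))) (g := fun _ => 0)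
      (a3.mul_left (25 * ‖T‖)) (fun m => by
        simp only [hTA]
        refine d.lim_all (t2 _ (summable_of_ne_finset_zero (s := {0}) fun k hk => ?_)) m
        rw [d.sl_ne (a0 m) (by simpa using hk), norm_zero]) (by
        filter_upwards [eventually_ge_atTop 1] with S hS m
        have h0 : (0 : ℝ) < S := by exact_mod_cast hS
        rw [norm_smul, Complex.norm_natCast]
        calc _ ≤ S * (5 * (‖T‖ * (5 / S * (|(m : ℝ)| * ‖a m‖)))) := by
              gcongr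
              refine (d.nVa hS _).trans ?_
              gcongr
              exact (T.le_opNorm _).trans (by gcongr; exact d.A_all hS (a0 m) m)
          _ = _ := by field_simp; ring)
    rw [tsum_zero] at this
    refine this.congr fun S => ?_
    exact (((ContinuousLinearMap.adjoint (V S)).hasSum (T.hasSum ((A Γ S).hasSum a2))).const_smul
      (S : ℂ)).tsum_eq
  have := (closure_minimal hsub hcl hΨ).norm
  simpa [norm_smul] using this

end Crest.Agent.KN
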