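import Crest.Agent.KN.Defs2

/-! Row 78, job ABS: scalar estimates for the tent and a weighted ergodic lemma. -/

set_option autoImplicit false
set_option linter.deprecated false
universe u

namespace Crest.Agent.KN.ABSx

open scoped InnerProductSpace BigOperators
open Filter Topology Finset

theorem sum_shift {X : Type*} [AddCommMonoid X] (g : ℤ → X) (k : ℤ) (F G : Finset ℤ)
    (hF : ∀ j ∉ F, g j = 0) (hG : ∀ j ∉ G, g (j + k) = 0) :
    ∑ j ∈ F, g j = ∑ j ∈ G, g (j + k) := by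
  rw [← finsum_eq_sum_of_support_subset g (s := F) fun j hj => by_contra fun h => hj (hF j h),
    ← finsum_eq_sum_of_support_subset (fun j => g (j + k)) (s := G)
      fun j hj => by_contra fun h => hj (hG j h)]
  exact (finsum_comp_equiv (Equiv.addRight k)).symm

/-- integer tent -/
def T (S : ℕ) (j : ℤ) : ℤ := max 0 (S - max j (-j))

/-- its difference -/
def dT (S : ℕ) (j : ℤ) : ℤ := T S (j - 1) - T S j

/-- normalisation -/
noncomputable def lam (S : ℕ) : ℝ :=
  1 / (S * √(∑ k ∈ Finset.Icc (-(S : ℤ)) S, (max 0 (1 - |(k : ℝ)| / S)) ^ 2))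

theorem lam_nonneg (S : ℕ) : 0 ≤ lam S := by unfold lam; positivity

theorem tent_eq {S : ℕ} (hS : 1 ≤ S) (m : ℤ) : tent S m = lam S * T S m := by
  have h0 : (0 : ℝ) < S := by exact_mod_cast hS
  have : max 0 (1 - |(m : ℝ)| / S) = (T S m : ℝ) / S := by
    simp only [T, Int.cast_max, Int.cast_sub, Int.cast_natCast, Int.cast_neg, Int.cast_zero,
      ← abs_eq_max_neg, Int.cast_abs]
    rw [← max_div_div_right h0.le, zero_div, sub_div, div_self h0.ne']
  rw [tent, lam, this]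
  field_simp

theorem lam_sq {S : ℕ} (hS : 1 ≤ S) : lam S ^ 2 ≤ 8 / (S : ℝ) ^ 3 := by
  have h0 : (0 : ℝ) < S := by exact_mod_cast hS
  have h1 : (S : ℝ) / 8 ≤ ∑ k ∈ Finset.Icc (-(S : ℤ)) S, (max 0 (1 - |(k : ℝ)| / S)) ^ 2 := by
    have hs : Finset.Icc (0 : ℤ) (S / 2 : ℕ) ⊆ Finset.Icc (-(S : ℤ)) S :=
      Finset.Icc_subset_Icc (by omega) (by omega)
    refine le_trans ?_ (Finset.sum_le_sum_of_subset_of_nonneg hs fun _ _ _ => sq_nonneg _)
    refine le_trans ?_ (Finset.card_nsmul_le_sum _ _ (1 / 4) fun k hk => ?_)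
    · rw [Int.card_Icc, nsmul_eq_mul]
      have : ((((S / 2 : ℕ) : ℤ) + 1 - 0).toNat : ℝ) = ((S / 2 : ℕ) : ℝ) + 1 := by
        rw [show (((S / 2 : ℕ) : ℤ) + 1 - 0).toNat = S / 2 + 1 by omega]; push_cast; ring
      rw [this]
      have h2 : (S : ℝ) ≤ 2 * (((S / 2 : ℕ) : ℝ) + 1) := by exact_mod_cast (by omega)
      linarith
    · rw [Finset.mem_Icc] at hk
      have h2 : (0 : ℝ) ≤ k := by exact_mod_cast hk.1
      have h3 : 2 * (k : ℝ) ≤ S := by exact_mod_cast (by omega : 2 * k ≤ (S : ℤ))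
      have h4 : 1 / 2 ≤ max 0 (1 - |(k : ℝ)| / S) := by
        refine le_max_of_le_right ?_
        rw [abs_of_nonneg h2]
        have : (k : ℝ) / S ≤ 1 / 2 := by rw [div_le_iff₀ h0]; linarith
        linarith
      nlinarith
  rw [lam, div_pow, mul_pow, Real.sq_sqrt (le_trans (by positivity) h1), one_pow,
    div_le_div_iff₀ (mul_pos (by positivity) (lt_of_lt_of_le (by positivity) h1)) (by positivity)]
  nlinarith [sq_nonneg (S : ℝ)]

theorem T_nonneg (S : ℕ) (j : ℤ) : 0 ≤ T S j := le_max_left _ _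
theorem T_le (S : ℕ) (j : ℤ) : T S j ≤ S := by unfold T; omega
theorem T_zero {S : ℕ} {j : ℤ} (h : j ≤ -S ∨ S ≤ j) : T S j = 0 := by unfold T; omega
theorem dT_zero {S : ℕ} {j : ℤ} (h : j ≤ -S ∨ S < j) : dT S j = 0 := by unfold dT T; omega
theorem dT_abs (S : ℕ) (j : ℤ) : |dT S j| ≤ 1 := by rw [abs_le]; unfold dT T; omega
theorem T_lip (S : ℕ) (j k : ℤ) : |T S (j + k) - T S j| ≤ |k| := by
  rw [abs_le, abs_eq_max_neg]; unfold T; omega

theorem card_Icc' (S : ℕ) (a : ℕ) : (Finset.Icc (-(S : ℤ)) (S + a)).card = 2 * S + 1 + a := by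
  rw [Int.card_Icc]; omega

theorem card_F (S : ℕ) : (Finset.Icc (-(S : ℤ)) S).card = 2 * S + 1 := by
  rw [Int.card_Icc]; omega

theorem e1 (S : ℕ) (k : ℤ) :
    ∑ j ∈ Finset.Icc (-(S : ℤ)) S, |dT S j * T S (j + k)| ≤ (2 * S + 1) * S := by
  refine (Finset.sum_le_card_nsmul _ _ (S : ℤ) fun j _ => ?_).trans (by rw [card_F]; simp)
  rw [abs_mul, abs_of_nonneg (T_nonneg _ _)]
  have := dT_abs S j
  have := T_le S (j + k)
  have := T_nonneg S (j + k)
  nlinarith [abs_nonneg (dT S j)]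

theorem e2 (S : ℕ) (k : ℤ) :
    |∑ j ∈ Finset.Icc (-(S : ℤ)) S, dT S j * T S (j + k)| ≤ (2 * S + 1) * (|k| + 1) := by
  have h1 := sum_shift (fun j => T S j ^ 2) (-1) (Finset.Icc (-(S : ℤ)) S) (Finset.Icc (-(S : ℤ)) S)
    (fun j hj => by rw [T_zero (by rw [Finset.mem_Icc] at hj; omega)]; rfl)
    (fun j hj => by rw [T_zero (by rw [Finset.mem_Icc] at hj; omega)]; rfl)
  have h2 : 2 * ∑ j ∈ Finset.Icc (-(S : ℤ)) S, dT S j * T S (j + k) =
      ∑ j ∈ Finset.Icc (-(S : ℤ)) S, dT S j * (2 * T S (j + k) - T S (j - 1) - T S j) := by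
    rw [Finset.mul_sum, ← sub_eq_zero, ← Finset.sum_sub_distrib, ← sub_eq_zero.2 h1.symm,
      ← Finset.sum_sub_distrib]
    refine Finset.sum_congr rfl fun j _ => ?_
    simp only [dT, ← sub_eq_add_neg]; ring
  have h3 : |∑ j ∈ Finset.Icc (-(S : ℤ)) S, dT S j * (2 * T S (j + k) - T S (j - 1) - T S j)| ≤
      (2 * S + 1) * (2 * (|k| + 1)) := by
    refine (Finset.abs_sum_le_sum_abs _ _).trans ?_
    refine (Finset.sum_le_card_nsmul _ _ (2 * (|k| + 1)) fun j _ => ?_).trans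
      (by rw [card_F]; simp)
    rw [abs_mul]
    have a1 := dT_abs S j
    have a2 := abs_le.1 (T_lip S j k)
    have a3 := abs_le.1 (dT_abs S j)
    have a4 : |2 * T S (j + k) - T S (j - 1) - T S j| ≤ 2 * (|k| + 1) := by
      rw [abs_le]; unfold dT at a3; constructor <;> linarith [a2.1, a2.2, a3.1, a3.2]
    nlinarith [abs_nonneg (dT S j), abs_nonneg (2 * T S (j + k) - T S (j - 1) - T S j)]
  rw [← h2, abs_mul] at h3
  norm_num at h3
  linarith

theorem e3 (S : ℕ) (k : ℤ) :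
    ∑ j ∈ Finset.Icc (-(S : ℤ)) (S + (1 : ℕ)),
      |dT S j * T S (j + k) - dT S (j - 1) * T S (j - 1 + k)| ≤ 8 * S + 2 := by
  classical
  let G : Finset ℤ := {-(S : ℤ) + 1, 1, (S : ℤ) + 1}
  have h1 : ∀ j, |dT S j * T S (j + k) - dT S (j - 1) * T S (j - 1 + k)| ≤
      (if j ∈ G then 2 * (S : ℤ) else 0) + 1 := by
    intro j
    have e : dT S j * T S (j + k) - dT S (j - 1) * T S (j - 1 + k) =
        (dT S j - dT S (j - 1)) * T S (j + k) - dT S (j - 1) * dT S (j + k) := by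
      rw [show j - 1 + k = j + k - 1 by ring]; simp only [dT]; ring
    rw [e]
    refine (abs_sub _ _).trans (add_le_add ?_ ?_)
    · rw [abs_mul, abs_of_nonneg (T_nonneg _ _)]
      split_ifs with hj
      · have a1 : |dT S j - dT S (j - 1)| ≤ 2 := by
          have := abs_le.1 (dT_abs S j)
          have := abs_le.1 (dT_abs S (j - 1))
          rw [abs_le]; constructor <;> omega
        have := T_le S (j + k)
        have := T_nonneg S (j + k)
        nlinarith [abs_nonneg (dT S j - dT S (j - 1))]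
      · have : dT S j - dT S (j - 1) = 0 := by
          simp only [G, Finset.mem_insert, Finset.mem_singleton] at hj
          unfold dT T; omega
        simp [this]
    · rw [abs_mul]
      have := dT_abs S (j - 1)
      have := dT_abs S (j + k)
      nlinarith [abs_nonneg (dT S (j - 1)), abs_nonneg (dT S (j + k))]
  refine (Finset.sum_le_sum fun j _ => h1 j).trans ?_
  rw [Finset.sum_add_distrib, Finset.sum_ite_mem, Finset.sum_const, Finset.sum_const, card_Icc']
  have : (Finset.Icc (-(S : ℤ)) (S + (1 : ℕ)) ∩ G).card ≤ 3 :=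
    (Finset.card_le_card Finset.inter_subset_right).trans Finset.card_le_three
  have h3 : ((Finset.Icc (-(S : ℤ)) (S + (1 : ℕ)) ∩ G).card : ℤ) ≤ 3 := by exact_mod_cast this
  simp only [nsmul_eq_mul]
  push_cast
  nlinarith [Int.natCast_nonneg S]

theorem closed_null {X Y : Type*} [NormedAddCommGroup X] [NormedAddCommGroup Y]
    (L : ℕ → X → Y) (C : ℝ) (hL : ∀ S, 1 ≤ S → ∀ x x', ‖L S x - L S x'‖ ≤ C * ‖x - x'‖) :
    IsClosed {x | Tendsto (fun S => L S x) atTop (𝓝 0)} := by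
  refine isClosed_of_closure_subset fun x hx => ?_
  refine Metric.tendsto_nhds.2 fun ε hε => ?_
  obtain ⟨x', hx', hd⟩ := Metric.mem_closure_iff.1 hx (ε / 2 / (|C| + 1)) (by positivity)
  filter_upwards [Metric.tendsto_nhds.1 hx' (ε / 2) (half_pos hε), eventually_ge_atTop 1]
    with S h1 h2
  rw [dist_zero_right] at h1 ⊢
  rw [dist_eq_norm, lt_div_iff₀ (by positivity)] at hd
  have h3 := hL S h2 x x'
  have h4 := norm_sub_norm_le (L S x) (L S x')
  have h5 := le_abs_self C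
  nlinarith [norm_nonneg (x - x'), abs_nonneg C]

theorem tendsto_of_le_div {X : Type*} [NormedAddCommGroup X] {f : ℕ → X} (C : ℝ)
    (h : ∀ S : ℕ, 1 ≤ S → ‖f S‖ ≤ C / S) : Tendsto f atTop (𝓝 0) :=
  squeeze_zero_norm' (by filter_upwards [eventually_ge_atTop 1] using h)
    (tendsto_const_div_atTop_nhds_zero_nat C)

theorem coef_le {S : ℕ} (hS : 1 ≤ S) {x c : ℝ} (hc : 0 ≤ c) (hx : x ≤ c * S) :
    S * lam S ^ 2 * x ≤ 8 * c / S := by
  have h0 : (0 : ℝ) < S := by exact_mod_cast hS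
  calc S * lam S ^ 2 * x ≤ S * lam S ^ 2 * (c * S) := by gcongr
    _ ≤ S * (8 / (S : ℝ) ^ 3) * (c * S) := by gcongr; exact lam_sq hS
    _ = 8 * c / S := by field_simp

variable {H : Type u} [NormedAddCommGroup H] [InnerProductSpace ℂ H] [CompleteSpace H]

theorem rep_norm {D : ℤ → H →L[ℂ] H} (h0 : D 0 = 1) (ha : ∀ m n, D (m + n) = D m * D n)
    (hs : ∀ n, star (D n) = D (-n)) (n : ℤ) (ξ : H) : ‖D n ξ‖ = ‖ξ‖ :=
  ContinuousLinearMap.norm_map_of_mem_unitary
    (Unitary.mem_iff.2 ⟨by rw [hs, ← ha]; simp [h0], by rw [hs, ← ha]; simp [h0]⟩) ξ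

theorem rep_inner {D : ℤ → H →L[ℂ] H} (hs : ∀ n, star (D n) = D (-n)) (n : ℤ) (ξ η : H) :
    ⟪D n ξ, η⟫_ℂ = ⟪ξ, D (-n) η⟫_ℂ := by
  rw [← hs, ContinuousLinearMap.star_eq_adjoint, ContinuousLinearMap.adjoint_inner_right]

theorem ergodic {D : ℤ → H →L[ℂ] H} (h0 : D 0 = 1) (ha : ∀ m n, D (m + n) = D m * D n)
    (hs : ∀ n, star (D n) = D (-n)) (k : ℤ) (ξ : H) :
    Tendsto (fun S : ℕ => ∑ j ∈ Finset.Icc (-(S : ℤ)) S,
      ((S * lam S ^ 2 * (dT S j * T S (j + k) : ℤ) : ℝ) : ℂ) • D j ξ) atTop (𝓝 0) := by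
  have hn := rep_norm h0 ha hs
  let L : ℕ → H →L[ℂ] H := fun S => ∑ j ∈ Finset.Icc (-(S : ℤ)) S,
      ((S * lam S ^ 2 * (dT S j * T S (j + k) : ℤ) : ℝ) : ℂ) • D j
  have hL : ∀ S ξ, L S ξ = ∑ j ∈ Finset.Icc (-(S : ℤ)) S,
      ((S * lam S ^ 2 * (dT S j * T S (j + k) : ℤ) : ℝ) : ℂ) • D j ξ := fun S ξ => by
    simp only [L, ContinuousLinearMap.sum_apply, ContinuousLinearMap.smul_apply]
  have gen : ∀ (S : ℕ) (F : Finset ℤ) (e : ℤ → ℤ) (ξ : H),
      ‖∑ j ∈ F, ((S * lam S ^ 2 * (e j : ℤ) : ℝ) : ℂ) • D j ξ‖ ≤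
        S * lam S ^ 2 * ((∑ j ∈ F, |e j| : ℤ) : ℝ) * ‖ξ‖ := by
    intro S F e ξ
    refine (norm_sum_le _ _).trans (le_of_eq ?_)
    rw [Int.cast_sum, Finset.mul_sum, Finset.sum_mul]
    refine Finset.sum_congr rfl fun j _ => ?_
    rw [norm_smul, hn, Complex.norm_real, Real.norm_eq_abs, abs_mul,
      abs_of_nonneg (by positivity), Int.cast_abs]
  let W : Submodule ℂ H :=
    { carrier := {ξ | Tendsto (fun S => L S ξ) atTop (𝓝 0)}
      add_mem' := fun {a b} ha hb => by simpa using Tendsto.add ha hb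
      zero_mem' := by simp
      smul_mem' := fun c a ha => by simpa using Tendsto.const_smul ha c }
  have hcl : IsClosed (W : Set H) := by
    refine closed_null (fun S ξ => L S ξ) 24 fun S hS x x' => ?_
    have h1 : (1 : ℝ) ≤ S := by exact_mod_cast hS
    rw [← map_sub, hL]
    refine (gen S _ _ _).trans (mul_le_mul_of_nonneg_right ?_ (norm_nonneg _))
    have h2 : ((∑ j ∈ Finset.Icc (-(S : ℤ)) S, |dT S j * T S (j + k)| : ℤ) : ℝ) ≤
      (2 * S + 1) * S := by exact_mod_cast e1 S k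
    refine (coef_le hS (by positivity) h2).trans ?_
    rw [div_le_iff₀ (by positivity)]; linarith
  have hfix : ∀ ξ, D 1 ξ = ξ → ξ ∈ W := by
    intro ξ hξ
    have hj : ∀ j, D j ξ = ξ := by
      intro j
      induction j using Int.induction_on with
      | zero => simp [h0]
      | succ i ih => rw [ha, ContinuousLinearMap.mul_apply, hξ, ih]
      | pred i ih =>
        have := ha (-(i : ℤ) - 1) 1
        rw [sub_add_cancel] at this
        rw [this, ContinuousLinearMap.mul_apply, hξ] at ih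
        exact ih
    refine tendsto_of_le_div (8 * (3 * (|(k : ℝ)| + 1)) * ‖ξ‖) fun S hS => ?_
    have h1 : (1 : ℝ) ≤ S := by exact_mod_cast hS
    simp only [hL, hj]
    rw [← Finset.sum_smul, norm_smul, ← Complex.ofReal_sum, ← Finset.mul_sum, ← Int.cast_sum,
      Complex.norm_real, Real.norm_eq_abs, abs_mul, abs_of_nonneg (by positivity), ← Int.cast_abs,
      mul_div_right_comm]
    refine mul_le_mul_of_nonneg_right (coef_le hS (by positivity) ?_) (norm_nonneg _)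
    have h2 : ((|∑ j ∈ Finset.Icc (-(S : ℤ)) S, dT S j * T S (j + k)| : ℤ) : ℝ) ≤
      (2 * S + 1) * (|(k : ℝ)| + 1) := by exact_mod_cast e2 S k
    nlinarith [abs_nonneg (k : ℝ)]
  have hrange : ∀ η, η - D 1 η ∈ W := by
    intro η
    refine tendsto_of_le_div (8 * 10 * ‖η‖) fun S hS => ?_
    have h1 : (1 : ℝ) ≤ S := by exact_mod_cast hS
    have e : L S (η - D 1 η) = ∑ j ∈ Finset.Icc (-(S : ℤ)) (S + (1 : ℕ)),
        ((S * lam S ^ 2 * (dT S j * T S (j + k) - dT S (j - 1) * T S (j - 1 + k) : ℤ) : ℝ) : ℂ) •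
          D j η := by
      have s1 := sum_shift (fun j => ((S * lam S ^ 2 * (dT S j * T S (j + k) : ℤ) : ℝ) : ℂ) • D j η)
        0 (Finset.Icc (-(S : ℤ)) S) (Finset.Icc (-(S : ℤ)) (S + (1 : ℕ)))
        (fun j hj => by rw [dT_zero (by rw [Finset.mem_Icc] at hj; omega)]; simp)
        (fun j hj => by rw [dT_zero (by rw [Finset.mem_Icc] at hj; omega)]; simp)
      have s2 := sum_shift
        (fun j => ((S * lam S ^ 2 * (dT S j * T S (j + k) : ℤ) : ℝ) : ℂ) • D (j + 1) η)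
        (-1) (Finset.Icc (-(S : ℤ)) S) (Finset.Icc (-(S : ℤ)) (S + (1 : ℕ)))
        (fun j hj => by rw [dT_zero (by rw [Finset.mem_Icc] at hj; omega)]; simp)
        (fun j hj => by rw [dT_zero (by rw [Finset.mem_Icc] at hj; omega)]; simp)
      simp only [add_zero, neg_add_cancel_right, ← sub_eq_add_neg, sub_add_cancel] at s1 s2
      rw [map_sub, hL, hL]
      simp only [← ContinuousLinearMap.mul_apply, ← ha]
      rw [s1, s2, ← Finset.sum_sub_distrib]
      refine Finset.sum_congr rfl fun j _ => ?_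
      rw [← sub_smul]; congr 1; push_cast; ring
    rw [e, mul_div_right_comm]
    refine (gen S _ _ _).trans (mul_le_mul_of_nonneg_right (coef_le hS (by positivity) ?_)
      (norm_nonneg _))
    have h2 : ((∑ j ∈ Finset.Icc (-(S : ℤ)) (S + (1 : ℕ)),
      |dT S j * T S (j + k) - dT S (j - 1) * T S (j - 1 + k)| : ℤ) : ℝ) ≤ 8 * S + 2 := by
      exact_mod_cast e3 S k
    linarith
  have hW : W.topologicalClosure = ⊤ := by
    rw [Submodule.topologicalClosure_eq_top_iff, eq_bot_iff]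
    intro q hq
    have h1 : D (-1) q = q := by
      refine ext_inner_left ℂ fun η => ?_
      have := (Submodule.mem_orthogonal _ _).1 hq _ (hrange η)
      rw [inner_sub_left, rep_inner hs, sub_eq_zero] at this
      exact this.symm
    have h2 : D 1 q = q := by
      conv_lhs => rw [← h1, ← ContinuousLinearMap.mul_apply, ← ha]
      simp [h0]
    exact inner_self_eq_zero.1 ((Submodule.mem_orthogonal _ _).1 hq _ (hfix q h2))
  rw [hcl.submodule_topologicalClosure_eq] at hW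
  have : ξ ∈ W := hW ▸ Submodule.mem_top
  simp only [← hL]
  exact this

end Crest.Agent.KN.ABSx
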