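import Crest.Agent.KN.LIFT
import Crest.Agent.H0164.C1
import Crest.Agent.S0165

/-! Row 78 (S0103): job ADS (hyperreflexivity for representations). -/

set_option autoImplicit false
universe u

namespace Crest.Agent.KN

open scoped InnerProductSpace BigOperators
open LIFTx H0164 H0164.C1 H0164.C2

theorem ads_bicomm {E : Type u} [NormedAddCommGroup E] [InnerProductSpace ℂ E] [CompleteSpace E]
    {A : Type u} [CStarAlgebra A] (π : A →⋆ₐ[ℂ] (E →L[ℂ] E)) (Y : E →L[ℂ] E) {g : ℝ} (hg : 0 < g)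
    (h : ∀ a, ‖Y * π a - π a * Y‖ ≤ g * ‖a‖) (x : E →L[ℂ] E)
    (hx : ∀ b : E →L[ℂ] E, (∀ a, π a * b = b * π a) → b * x = x * b) :
    ‖Y * x - x * Y‖ ≤ 8 * g * ‖x‖ := by
  let p : Fin 2 → KK E 2 →L[ℂ] E := fun i => PiLp.proj 2 (fun _ : Fin 2 => E) i
  let S : KK E 2 →L[ℂ] KK E 2 := mkOp ![(g : ℂ) • p 0 + Y ∘L p 1, (g : ℂ) • p 1]
  have hq : ∀ v, qf (star S * S) v = ‖(g : ℂ) • v 0 + Y (v 1)‖ ^ 2 + (g * ‖v 1‖) ^ 2 := fun v => by
    have : qf (star S * S) v = ‖S v‖ ^ 2 := by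
      unfold qf
      rw [mul_apply_eq_comp, ContinuousLinearMap.star_eq_adjoint,
        ContinuousLinearMap.adjoint_inner_right, inner_self_eq_norm_sq_to_K]
      norm_cast
    rw [this, PiLp.norm_sq_eq_of_L2, Fin.sum_univ_two]
    simp [S, p, norm_smul, abs_of_pos hg]
  let ρ := (diag (E := E) 2).comp π
  have hρ : ∀ a v i, ρ a v i = π a (v i) := fun _ _ _ => rfl
  have k := kap ρ (T := star S * S) (IsSelfAdjoint.star_mul_self S)
    (fun v => by rw [hq]; positivity) (κ := 2) (fun a v => by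
      rw [hq, hq, hρ, hρ]
      have e : (g : ℂ) • π a (v 0) + Y (π a (v 1)) =
          π a ((g : ℂ) • v 0 + Y (v 1)) + (Y * π a - π a * Y) (v 1) := by
        simp
      have hπ : ‖π a‖ ≤ ‖a‖ := NonUnitalStarAlgHom.norm_apply_le π a
      have h1 : ∀ w, ‖π a w‖ ≤ ‖a‖ * ‖w‖ := fun w =>
        ((π a).le_opNorm w).trans (by gcongr)
      have h2 : ‖(Y * π a - π a * Y) (v 1)‖ ≤ ‖a‖ * (g * ‖v 1‖) :=
        (ContinuousLinearMap.le_opNorm _ _).trans (by
          have := mul_le_mul_of_nonneg_right (h a) (norm_nonneg (v 1))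
          linarith)
      have h3 : ‖(g : ℂ) • π a (v 0) + Y (π a (v 1))‖ ≤
          ‖a‖ * ‖(g : ℂ) • v 0 + Y (v 1)‖ + ‖a‖ * (g * ‖v 1‖) := by
        rw [e]; exact (norm_add_le _ _).trans (add_le_add (h1 _) h2)
      have h4 : g * ‖π a (v 1)‖ ≤ ‖a‖ * (g * ‖v 1‖) := by
        have := mul_le_mul_of_nonneg_left (h1 (v 1)) hg.le
        linarith
      have h5 := pow_le_pow_left₀ (norm_nonneg _) h3 2
      have h6 := pow_le_pow_left₀ (by positivity) h4 2
      set α := ‖(g : ℂ) • v 0 + Y (v 1)‖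
      set β := g * ‖v 1‖
      nlinarith [sq_nonneg (‖a‖ * α - ‖a‖ * β), sq_nonneg (‖a‖ * α), sq_nonneg (‖a‖ * β)])
    (diag (E := E) 2 x) (fun b hb => by
      have hent : ∀ i j : Fin 2, (p i ∘L b ∘L mxInc j) * x = x * (p i ∘L b ∘L mxInc j) := by
        intro i j
        refine hx _ fun a => ?_
        ext ξ
        have h1 := congrArg (fun T : KK E 2 →L[ℂ] KK E 2 => T (mxInc j ξ) i) (hb a)
        have h2 : ρ a (mxInc j ξ) = mxInc j (π a ξ) := mxDiag_mxInc (π a) j ξ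
        simp only [mul_apply_eq_comp, h2, hρ] at h1
        exact h1
      ext v i
      have h1 : b (diag (E := E) 2 x v) i = ∑ j, (p i ∘L b ∘L mxInc j) (x (v j)) := by
        conv_lhs => rw [← sum_mxInc (diag (E := E) 2 x v), map_sum]
        simp [p]
      have h2 : b v i = ∑ j, (p i ∘L b ∘L mxInc j) (v j) := by
        conv_lhs => rw [← sum_mxInc v, map_sum]
        simp [p]
      rw [mul_apply_eq_comp, mul_apply_eq_comp, h1, diag_apply, h2, map_sum]
      exact Finset.sum_congr rfl fun j _ => congrArg (fun T : E →L[ℂ] E => T (v j)) (hent i j))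
  refine ContinuousLinearMap.opNorm_le_bound _ (by positivity) fun ξ => ?_
  have k1 := k (WithLp.toLp 2 ![-Y ξ, (g : ℂ) • ξ])
  rw [hq, hq] at k1
  have hd : ‖diag (E := E) 2 x‖ ≤ ‖x‖ := NonUnitalStarAlgHom.norm_apply_le _ x
  have e1 : (g : ℂ) • x (-Y ξ) + Y (x ((g : ℂ) • ξ)) = (g : ℂ) • (Y * x - x * Y) ξ := by
    simp [smul_sub]; abel
  have e2 : (g : ℂ) • (-Y ξ) + Y ((g : ℂ) • ξ) = 0 := by simp
  simp only [diag_apply, Matrix.cons_val_zero, Matrix.cons_val_one] at k1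
  rw [e1, e2, norm_smul, norm_smul, norm_zero, Complex.norm_real, Real.norm_of_nonneg hg.le] at k1
  have k2 : (g * ‖(Y * x - x * Y) ξ‖) ^ 2 ≤ (g * (8 * g * ‖x‖ * ‖ξ‖)) ^ 2 := by
    have h1 : ‖diag (E := E) 2 x‖ ^ 2 ≤ ‖x‖ ^ 2 := pow_le_pow_left₀ (norm_nonneg _) hd 2
    have h2 := mul_le_mul_of_nonneg_right h1 (sq_nonneg (g * (g * ‖ξ‖)))
    nlinarith [sq_nonneg (g * ‖x ((g : ℂ) • ξ)‖)]
  exact le_of_mul_le_mul_left
    ((pow_le_pow_iff_left₀ (by positivity) (by positivity) two_ne_zero).1 k2) hg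

theorem ads : ∃ C : ℝ, 1 ≤ C ∧ ADS.{u} C := by
  obtain ⟨C, hC, h⟩ := H0164.ad.{u} S0165.result.{u}
  refine ⟨16 * C + 1, by linarith, ?_⟩
  intro E _ _ _ A _ π Y g hg hY
  rcases hg.eq_or_lt with rfl | hg
  · refine ⟨Y, fun a => ?_, by simp⟩
    have := hY a
    rw [zero_mul, norm_le_zero_iff, sub_eq_zero] at this
    exact this
  let Q : VonNeumannAlgebra E :=
    { toStarSubalgebra := StarSubalgebra.centralizer ℂ (Set.range π)
      centralizer_centralizer' := by simp }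
  have hQ : ∀ b : E →L[ℂ] E, b ∈ Q ↔ ∀ a, π a * b = b * π a := fun b => by
    change b ∈ StarSubalgebra.centralizer ℂ (Set.range π) ↔ _
    rw [StarSubalgebra.mem_centralizer_iff]
    constructor
    · intro hb a
      exact (hb _ ⟨a, rfl⟩).1
    · rintro hb _ ⟨a, rfl⟩
      exact ⟨hb a, by rw [← map_star]; exact hb _⟩
  have hπ : ∀ a, π a ∈ Q.commutant := fun a => by
    rw [VonNeumannAlgebra.mem_commutant_iff]
    intro b hb
    exact ((hQ b).1 hb a).symm
  have k1 : ∀ x ∈ Q.commutant, ‖Y * x - x * Y‖ ≤ 8 * g * ‖x‖ := fun x hx =>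
    ads_bicomm π Y hg hY x fun b hb => VonNeumannAlgebra.mem_commutant_iff.1 hx b ((hQ b).2 hb)
  have k2 : ∀ x ∈ Q.commutant, ‖star Y * x - x * star Y‖ ≤ 8 * g * ‖x‖ := fun x hx => by
    have := k1 (star x) (star_mem hx)
    rw [← norm_star, norm_star x, ← norm_neg] at this
    simpa [star_sub, star_mul] using this
  obtain ⟨Y₁, -, a1, b1⟩ := h E Q.commutant (realPart Y) (8 * g) (realPart Y).2 (by positivity)
    fun x hx => by
      have e : (realPart Y : E →L[ℂ] E) * x - x * realPart Y =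
          (2⁻¹ : ℝ) • ((Y * x - x * Y) + (star Y * x - x * star Y)) := by
        rw [realPart_apply_coe, mul_smul_comm, smul_mul_assoc, ← smul_sub]
        congr 1; noncomm_ring
      rw [e, norm_smul]
      have := (norm_add_le _ _).trans (add_le_add (k1 x hx) (k2 x hx))
      rw [Real.norm_of_nonneg (by norm_num)]
      linarith
  obtain ⟨Y₂, -, a2, b2⟩ := h E Q.commutant (imaginaryPart Y) (8 * g) (imaginaryPart Y).2
    (by positivity) fun x hx => by
      have e : (imaginaryPart Y : E →L[ℂ] E) * x - x * imaginaryPart Y =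
          -Complex.I • (2⁻¹ : ℝ) • ((Y * x - x * Y) - (star Y * x - x * star Y)) := by
        rw [imaginaryPart_apply_coe, mul_smul_comm, smul_mul_assoc, mul_smul_comm, smul_mul_assoc,
          ← smul_sub, ← smul_sub]
        congr 2; noncomm_ring
      rw [e, norm_smul, norm_smul]
      have := (norm_sub_le _ _).trans (add_le_add (k1 x hx) (k2 x hx))
      rw [Real.norm_of_nonneg (by norm_num), norm_neg, Complex.norm_I]
      linarith
  refine ⟨Y₁ + Complex.I • Y₂, fun a => ?_, ?_⟩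
  · exact (Commute.symm (a1 _ (hπ a))).add_left ((Commute.symm (a2 _ (hπ a))).smul_left _)
  · have e : Y - (Y₁ + Complex.I • Y₂) =
        ((realPart Y : E →L[ℂ] E) - Y₁) + Complex.I • ((imaginaryPart Y : E →L[ℂ] E) - Y₂) := by
      conv_lhs => rw [← realPart_add_I_smul_imaginaryPart Y]
      rw [smul_sub]; abel
    rw [e]
    refine (norm_add_le _ _).trans ?_
    rw [norm_smul, Complex.norm_I]
    nlinarith

end Crest.Agent.KN
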