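import Crest.Agent.KN.Defs

set_option autoImplicit false
universe u v

namespace Crest.Agent.KN

open scoped InnerProductSpace BigOperators Kronecker ComplexConjugate
open Filter Topology

section mat
variable {K : Type} [Fintype K]

theorem kb_apply {K : Type} (a b : K → ℂ) (i j : K) : kb a b i j = a i * conj (b j) := rfl

theorem kb_mul (a b c d : K → ℂ) : kb a b * kb c d = (∑ k, conj (b k) * c k) • kb a d := by
  ext i j
  simp only [Matrix.mul_apply, kb_apply, Matrix.smul_apply, smul_eq_mul, Finset.sum_mul]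
  exact Finset.sum_congr rfl fun k _ => by ring

theorem kb_star {K : Type} (a b : K → ℂ) : star (kb a b) = kb b a := by
  ext i j
  simp [Matrix.star_apply, kb_apply, mul_comm]

theorem UV.ip {a : K → ℂ} (h : UV a) : ∑ k, conj (a k) * a k = 1 := by
  have : ∀ k, conj (a k) * a k = ((‖a k‖ ^ 2 : ℝ) : ℂ) := fun k => by
    rw [Complex.conj_mul']; push_cast; rfl
  simp only [this]
  rw [← Complex.ofReal_sum, h, Complex.ofReal_one]

theorem UV.kb_mul {b : K → ℂ} (h : UV b) (a d : K → ℂ) : kb a b * kb b d = kb a d := by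
  rw [KN.kb_mul, h.ip, one_smul]

variable [DecidableEq K]

theorem kb_single (i j : K) : kb (Pi.single i 1) (Pi.single j 1) = Matrix.single i j (1 : ℂ) := by
  ext a b
  simp only [kb_apply, Pi.single_apply, Matrix.single_apply]
  by_cases h1 : i = a <;> by_cases h2 : j = b <;> simp [h1, h2, Ne.symm, eq_comm (a := a),
    eq_comm (a := b)]

theorem kb_sum_one : ∑ k : K, kb (Pi.single k 1) (Pi.single k 1) = 1 := by
  simp only [kb_single]
  exact Matrix.sum_single_one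

theorem uv_single (k : K) : UV (Pi.single k (1 : ℂ)) := by
  unfold UV
  rw [Finset.sum_eq_single k] <;> simp +contextual

theorem kb_expand_left (a b : K → ℂ) : kb a b = ∑ k, a k • kb (Pi.single k 1) b := by
  ext i j
  simp [Matrix.sum_apply, kb_apply, Pi.single_apply]

theorem kb_expand_right (a b : K → ℂ) : kb a b = ∑ k, conj (b k) • kb a (Pi.single k 1) := by
  ext i j
  simp [Matrix.sum_apply, kb_apply, Pi.single_apply, apply_ite, mul_comm]

theorem kb_single_mul (a : K → ℂ) (k : K) (m : Matrix K K ℂ) :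
    kb a (Pi.single k 1) * m = ∑ j, m k j • kb a (Pi.single j 1) := by
  ext i j
  simp [Matrix.sum_apply, Matrix.mul_apply, kb_apply, Pi.single_apply, apply_ite, mul_comm]

theorem mul_kb_single (a : K → ℂ) (j : K) (m : Matrix K K ℂ) :
    m * kb (Pi.single j 1) a = ∑ k, m k j • kb (Pi.single k 1) a := by
  ext i l
  simp [Matrix.sum_apply, Matrix.mul_apply, kb_apply, Pi.single_apply]

theorem kb_single_mul_kb (a c d : K → ℂ) (k : K) :
    kb a (Pi.single k 1) * kb c d = c k • kb a d := by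
  rw [kb_mul]; congr 1; simp [Pi.single_apply, apply_ite]

theorem kb_mul_kb_single (a b d : K → ℂ) (k : K) :
    kb a b * kb (Pi.single k 1) d = conj (b k) • kb a d := by
  rw [kb_mul]; congr 1; simp [Pi.single_apply]

end mat

section avg
variable {E : Type u} [NormedAddCommGroup E] [InnerProductSpace ℂ E] [CompleteSpace E]
  {K : Type} [Fintype K] [DecidableEq K] (ρ : Matrix K K ℂ →⋆ₐ[ℂ] (E →L[ℂ] E)) {ϑ : K → ℂ}

theorem rho_inner (a b : K → ℂ) (η ξ : E) : ⟪η, ρ (kb a b) ξ⟫_ℂ = ⟪ρ (kb b a) η, ξ⟫_ℂ := by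
  rw [← kb_star a b, map_star, ContinuousLinearMap.star_eq_adjoint,
    ContinuousLinearMap.adjoint_inner_left]

theorem rho_sum_one (h : UV ϑ) :
    ∑ k, ρ (kb (Pi.single k 1) ϑ) * ρ (kb ϑ (Pi.single k 1)) = 1 := by
  simp only [← map_mul, h.kb_mul]
  rw [← map_sum, kb_sum_one, map_one]

theorem rho_row_sq (h : UV ϑ) (ξ : E) : ∑ k, ‖ρ (kb ϑ (Pi.single k 1)) ξ‖ ^ 2 = ‖ξ‖ ^ 2 := by
  have h1 : ∀ k, ((‖ρ (kb ϑ (Pi.single k 1)) ξ‖ ^ 2 : ℝ) : ℂ) =
      ⟪ξ, (ρ (kb (Pi.single k 1) ϑ) * ρ (kb ϑ (Pi.single k 1))) ξ⟫_ℂ := fun k => by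
    rw [mul_apply_eq_comp, rho_inner, inner_self_eq_norm_sq_to_K]; push_cast; rfl
  apply Complex.ofReal_injective
  rw [Complex.ofReal_sum]
  simp only [h1]
  rw [← inner_sum, ← sum_apply, rho_sum_one ρ h,
    one_apply_eq_self, inner_self_eq_norm_sq_to_K]
  push_cast; rfl

theorem rho_col_sq (h : UV ϑ) (y : K → E) :
    ‖∑ k, ρ (kb (Pi.single k 1) ϑ) (y k)‖ ^ 2 ≤ ∑ k, ‖y k‖ ^ 2 := by
  set z := ∑ k, ρ (kb (Pi.single k 1) ϑ) (y k) with hz
  have h1 : ‖z‖ ^ 2 ≤ ∑ k, ‖ρ (kb ϑ (Pi.single k 1)) z‖ * ‖y k‖ := by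
    have : ‖z‖ ^ 2 = ‖⟪z, z⟫_ℂ‖ := by rw [inner_self_eq_norm_sq_to_K]; simp
    rw [this]
    conv_lhs => rw [hz, inner_sum, ← hz]
    refine (norm_sum_le _ _).trans (Finset.sum_le_sum fun k _ => ?_)
    rw [rho_inner]; exact norm_inner_le_norm _ _
  have h2 := Finset.sum_mul_sq_le_sq_mul_sq Finset.univ (fun k => ‖ρ (kb ϑ (Pi.single k 1)) z‖)
    (fun k => ‖y k‖)
  rw [rho_row_sq ρ h] at h2
  have h3 : 0 ≤ ∑ k, ‖y k‖ ^ 2 := Finset.sum_nonneg fun k _ => sq_nonneg _
  rcases (sq_nonneg ‖z‖).eq_or_lt with h0 | h0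
  · rw [← h0]; exact h3
  · have := (pow_le_pow_left₀ (sq_nonneg _) h1 2).trans h2
    nlinarith

theorem avg_apply (T : E →L[ℂ] E) (ξ : E) :
    avg ρ ϑ T ξ = ∑ k, ρ (kb (Pi.single k 1) ϑ) (T (ρ (kb ϑ (Pi.single k 1)) ξ)) := by
  simp [avg]

theorem avgAPI (h : UV ϑ) : AvgAPI ρ ϑ where
  norm_le T := by
    refine ContinuousLinearMap.opNorm_le_bound _ (norm_nonneg _) fun ξ => ?_
    refine (pow_le_pow_iff_left₀ (norm_nonneg _) (by positivity) two_ne_zero).1 ?_
    rw [avg_apply]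
    refine (rho_col_sq ρ h _).trans ?_
    rw [mul_pow, ← rho_row_sq ρ h ξ, Finset.mul_sum]
    refine Finset.sum_le_sum fun k _ => ?_
    rw [← mul_pow]
    exact pow_le_pow_left₀ (norm_nonneg _) (T.le_opNorm _) 2
  col m r c hc ξ := by
    calc ∑ i, ‖avg ρ ϑ (r i) ξ‖ ^ 2 ≤ ∑ i, ∑ k, ‖r i (ρ (kb ϑ (Pi.single k 1)) ξ)‖ ^ 2 :=
          Finset.sum_le_sum fun i _ => by rw [avg_apply]; exact rho_col_sq ρ h _
      _ = ∑ k, ∑ i, ‖r i (ρ (kb ϑ (Pi.single k 1)) ξ)‖ ^ 2 := Finset.sum_comm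
      _ ≤ ∑ k, c ^ 2 * ‖ρ (kb ϑ (Pi.single k 1)) ξ‖ ^ 2 := Finset.sum_le_sum fun k _ => hc _
      _ = c ^ 2 * ‖ξ‖ ^ 2 := by rw [← Finset.mul_sum, rho_row_sq ρ h]
  add S T := by simp only [avg, mul_add, add_mul, Finset.sum_add_distrib]
  sub S T := by simp only [avg, mul_sub, sub_mul, Finset.sum_sub_distrib]
  smul c T := by simp only [avg, mul_smul_comm, smul_mul_assoc, Finset.smul_sum]
  comm T m := by
    unfold Commute SemiconjBy avg
    rw [Finset.sum_mul, Finset.mul_sum]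
    simp only [mul_assoc, ← map_mul, kb_single_mul]
    simp only [← mul_assoc, ← map_mul, mul_kb_single]
    simp only [map_sum, map_smul, Finset.mul_sum, Finset.sum_mul, mul_smul_comm, smul_mul_assoc]
    exact Finset.sum_comm
  fix T hT := by
    unfold avg
    simp only [← (hT _).eq, mul_assoc]
    rw [← Finset.mul_sum, rho_sum_one ρ h, mul_one]
  mul_left S T hS := by
    unfold avg
    rw [Finset.mul_sum]
    refine Finset.sum_congr rfl fun k _ => ?_
    simp only [← mul_assoc, (hS _).eq]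
  mul_right S T hS := by
    unfold avg
    rw [Finset.sum_mul]
    refine Finset.sum_congr rfl fun k _ => ?_
    simp only [mul_assoc, (hS _).eq]
  keep z T hz hT := by
    unfold avg
    exact Commute.sum_left _ _ _ fun k _ => ((hz _).symm.mul_left hT).mul_left (hz _).symm
  vac a _ T := by
    unfold avg
    rw [Finset.sum_mul, kb_expand_left a ϑ]
    simp only [mul_assoc, ← map_mul, kb_single_mul_kb, map_smul, map_sum, Finset.sum_mul,
      mul_smul_comm, smul_mul_assoc]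
  wlim 𝓕 T S hT η ξ := by
    simp only [avg_apply, inner_sum, rho_inner]
    exact tendsto_finsetSum _ fun k _ => hT _ _

end avg

theorem jobAVG : JobAVG.{u} := fun _ _ _ _ _ _ _ ρ _ h => avgAPI ρ h

end Crest.Agent.KN
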