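import Crest.Agent.KN.Defs2

/-! Job BAND: band-limited elements and discrete modular data. -/

set_option autoImplicit false
set_option linter.unusedSectionVars false
universe u

namespace Crest.Agent.KN

open scoped InnerProductSpace BigOperators ComplexConjugate ZeroAtInfty FourierTransform SchwartzMap
  ContDiff
open Filter Topology MeasureTheory Complex

namespace BAND

/-- A probability density with compactly supported Fourier transform. -/
lemma exists_kernel : ∃ (k : ℝ → ℝ) (T : ℝ), 0 < T ∧ Integrable k ∧ (∀ s, 0 ≤ k s) ∧ ∫ s, k s = 1 ∧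
    ∀ ν : ℝ, T < |ν| → ∫ s, (k s : ℂ) * exp (I * (ν * s)) = 0 := by
  let f : ContDiffBump (0 : ℝ) := ⟨1 / 2, 1, by norm_num, by norm_num⟩
  have hf0 : ∀ a : ℝ, 1 ≤ |a| → f a = 0 := fun a ha =>
    f.zero_of_le_dist (by simpa [f, Real.dist_eq] using ha)
  have hs : ∀ c : ℝ, HasCompactSupport fun a : ℝ => (f (a - c) : ℂ) := fun c =>
    HasCompactSupport.intro (isCompact_Icc (a := c - 1) (b := c + 1)) fun a ha => by
      rw [hf0, ofReal_zero]
      rw [Set.mem_Icc, not_and_or, not_le, not_le] at ha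
      rcases ha with h | h
      · rw [abs_of_neg (by linarith)]; linarith
      · rw [abs_of_pos (by linarith)]; linarith
  have hd : ∀ c : ℝ, ContDiff ℝ ∞ fun a : ℝ => (f (a - c) : ℂ) := fun c =>
    ofRealCLM.contDiff.comp (f.contDiff.comp (contDiff_id.sub contDiff_const))
  let ψ : ℝ → 𝓢(ℝ, ℂ) := fun c => (hs c).toSchwartzMap (hd c)
  have hψ : ∀ c a, ψ c a = (f (a - c) : ℂ) := fun c a => rfl
  have hF : ∀ c t : ℝ, 𝓕 (ψ c) t = exp (↑(-2 * Real.pi * c * t) * I) * 𝓕 (ψ 0) t := fun c t => by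
    rw [SchwartzMap.fourier_coe, SchwartzMap.fourier_coe, Real.fourier_real_eq_integral_exp_smul,
      Real.fourier_real_eq_integral_exp_smul, ← integral_const_mul,
      ← integral_add_right_eq_self _ c]
    refine integral_congr_ae (.of_forall fun v => ?_)
    simp only [hψ, add_sub_cancel_right, sub_zero, smul_eq_mul]
    rw [← mul_assoc, ← Complex.exp_add]
    congr 2
    push_cast; ring
  set N : ℝ := ∫ t, ‖𝓕 (ψ 0) t‖ ^ 2 with hN
  have hNpos : 0 < N := by
    rw [hN, SchwartzMap.integral_norm_sq_fourier]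
    refine Continuous.integral_pos_of_hasCompactSupport_nonneg_nonzero (x := 0)
      ((ψ 0).continuous.norm.pow 2) ?_ (fun a => by positivity) ?_
    · exact (hs 0).comp_left (g := fun z : ℂ => ‖z‖ ^ 2) (by simp)
    · have : f 0 = 1 := f.one_of_mem_closedBall (Metric.mem_closedBall_self f.rIn_pos.le)
      simp [hψ, this]
  have hint : Integrable fun t => ‖𝓕 (ψ 0) t‖ ^ 2 :=
    (memLp_two_iff_integrable_sq_norm (𝓕 (ψ 0)).continuous.aestronglyMeasurable).1
      ((𝓕 (ψ 0)).memLp 2)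
  refine ⟨fun t => N⁻¹ * ‖𝓕 (ψ 0) t‖ ^ 2, 4 * Real.pi, by positivity, hint.const_mul _,
    fun s => by positivity, ?_, fun ν hν => ?_⟩
  · rw [integral_const_mul, ← hN, inv_mul_cancel₀ hNpos.ne']
  · set c : ℝ := -ν / (2 * Real.pi) with hc
    have hc2 : 2 < |c| := by
      rw [hc, abs_div, abs_neg, abs_of_pos (by positivity : 0 < 2 * Real.pi),
        lt_div_iff₀ (by positivity)]
      linarith
    have h1 := SchwartzMap.integral_inner_fourier_fourier (ψ 0) (ψ c)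
    have h2 : ∫ x, ⟪ψ 0 x, ψ c x⟫_ℂ = 0 := by
      rw [← integral_zero ℝ ℂ (μ := volume)]
      refine integral_congr_ae (.of_forall fun a => ?_)
      simp only [hψ, sub_zero]
      by_cases ha : 1 ≤ |a|
      · simp [hf0 a ha]
      · have : 1 ≤ |a - c| := by
          have := abs_sub_abs_le_abs_sub c a
          rw [abs_sub_comm] at this
          linarith [not_le.1 ha]
        simp [hf0 _ this]
    rw [h2] at h1
    have h3 : ∫ s, ((N⁻¹ * ‖𝓕 (ψ 0) s‖ ^ 2 : ℝ) : ℂ) * exp (I * (ν * s)) =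
        (N⁻¹ : ℝ) * ∫ ξ, ⟪𝓕 (ψ 0) ξ, 𝓕 (ψ c) ξ⟫_ℂ := by
      rw [← integral_const_mul]
      refine integral_congr_ae (.of_forall fun t => ?_)
      have e : (↑(-2 * Real.pi * c * t) * I : ℂ) = I * (ν * t) := by
        have : -2 * Real.pi * c = ν := by rw [hc]; field_simp
        rw [this]; push_cast; ring
      simp only [hF c t, e, RCLike.inner_apply]
      rw [mul_assoc (exp _), Complex.mul_conj, Complex.normSq_eq_norm_sq]
      push_cast; ring
    rw [h3, h1, mul_zero]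

/-- Evaluation on `C₀`. -/
noncomputable def evC (ν : ℝ) : C₀(ℝ, ℂ) →L[ℂ] ℂ :=
  LinearMap.mkContinuous
    { toFun := fun φ => φ ν
      map_add' := fun _ _ => rfl
      map_smul' := fun _ _ => rfl } 1 fun φ => by
    rw [one_mul]
    exact φ.toBCF.norm_coe_le_norm ν

lemma norm_le_C0 (φ : C₀(ℝ, ℂ)) {c : ℝ} (hc : 0 ≤ c) (h : ∀ ν, ‖φ ν‖ ≤ c) : ‖φ‖ ≤ c :=
  (BoundedContinuousFunction.norm_le (f := φ.toBCF) hc).2 h

lemma norm_e (ν t : ℝ) : ‖exp (I * (ν * t))‖ = 1 := by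
  rw [← ofReal_mul, norm_exp_I_mul_ofReal]

/-- Modulation. -/
noncomputable def md (t : ℝ) (φ : C₀(ℝ, ℂ)) : C₀(ℝ, ℂ) where
  toFun ν := exp (I * (ν * t)) * φ ν
  continuous_toFun := by fun_prop
  zero_at_infty' := by
    rw [tendsto_zero_iff_norm_tendsto_zero]
    simp only [norm_mul, norm_e, one_mul]
    exact tendsto_zero_iff_norm_tendsto_zero.1 φ.zero_at_infty'

lemma md_apply (t : ℝ) (φ : C₀(ℝ, ℂ)) (ν : ℝ) : md t φ ν = exp (I * (ν * t)) * φ ν := rfl

lemma norm_md_le (t : ℝ) (φ : C₀(ℝ, ℂ)) : ‖md t φ‖ ≤ ‖φ‖ :=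
  norm_le_C0 _ (norm_nonneg _) fun ν => by
    rw [md_apply, norm_mul, norm_e, one_mul]
    exact φ.toBCF.norm_coe_le_norm ν

lemma continuous_md (φ : C₀(ℝ, ℂ)) : Continuous fun t => md t φ := by
  refine Metric.continuous_iff.2 fun s ε hε => ?_
  have h1 : ∀ᶠ ν in cocompact ℝ, ‖φ ν‖ < ε / 4 :=
    (tendsto_zero_iff_norm_tendsto_zero.1 φ.zero_at_infty').eventually
      (gt_mem_nhds (by positivity))
  obtain ⟨K, hK, hK'⟩ := mem_cocompact.1 h1
  obtain ⟨R, hR, hR'⟩ := hK.isBounded.exists_pos_norm_le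
  refine ⟨ε / (2 * (R * (‖φ‖ + 1))), by positivity, fun t ht => ?_⟩
  rw [dist_eq_norm]
  refine lt_of_le_of_lt (norm_le_C0 _ (c := ε / 2) (by positivity) fun ν => ?_) (by linarith)
  have e : (md t φ - md s φ) ν =
      exp (I * (ν * s)) * ((exp (I * ((ν * (t - s) : ℝ) : ℂ)) - 1) * φ ν) := by
    change md t φ ν - md s φ ν = _
    have e1 : exp (I * (ν * t)) = exp (I * (ν * s)) * exp (I * ((ν * (t - s) : ℝ) : ℂ)) := by
      rw [← Complex.exp_add]
      congr 1
      push_cast; ring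
    rw [md_apply, md_apply, e1]
    ring
  rw [e, norm_mul, norm_e, one_mul, norm_mul]
  by_cases hν : ν ∈ K
  · have h2 : ‖exp (I * ((ν * (t - s) : ℝ) : ℂ)) - 1‖ ≤ R * (ε / (2 * (R * (‖φ‖ + 1)))) := by
      refine Real.norm_exp_I_mul_ofReal_sub_one_le.trans ?_
      rw [norm_mul]
      exact mul_le_mul (hR' ν hν) (by rw [← dist_eq_norm]; exact ht.le) (norm_nonneg _) hR.le
    have h3 : ‖φ ν‖ ≤ ‖φ‖ + 1 := (φ.toBCF.norm_coe_le_norm ν).trans (by
      rw [ZeroAtInftyContinuousMap.norm_toBCF_eq_norm]; linarith)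
    calc _ ≤ R * (ε / (2 * (R * (‖φ‖ + 1)))) * (‖φ‖ + 1) :=
          mul_le_mul h2 h3 (norm_nonneg _) (by positivity)
      _ = ε / 2 := by field_simp
  · have h2 : ‖exp (I * ((ν * (t - s) : ℝ) : ℂ)) - 1‖ ≤ 2 :=
      (norm_sub_le _ _).trans (by rw [norm_exp_I_mul_ofReal, norm_one]; norm_num)
    have h3 : ‖φ ν‖ ≤ ε / 4 := (hK' hν).le
    calc _ ≤ 2 * (ε / 4) := mul_le_mul h2 h3 (norm_nonneg _) (by norm_num)
      _ = ε / 2 := by ring

lemma intg {k : ℝ → ℝ} (hk : Integrable k) {E : Type*} [NormedAddCommGroup E] [NormedSpace ℂ E]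
    {f : ℝ → E} (hf : Continuous f) {C : ℝ} (hC : ∀ s, ‖f s‖ ≤ C) :
    Integrable fun s => (k s : ℂ) • f s := by
  refine Integrable.mono' (hk.norm.mul_const C)
    ((continuous_ofReal.comp_aestronglyMeasurable hk.1).smul hf.aestronglyMeasurable)
    (.of_forall fun s => ?_)
  rw [norm_smul, Complex.norm_real]
  exact mul_le_mul_of_nonneg_left (hC s) (norm_nonneg _)

lemma norm_int_le {k : ℝ → ℝ} (hk : Integrable k) (h0 : ∀ s, 0 ≤ k s) (h1 : ∫ s, k s = 1)
    {E : Type*} [NormedAddCommGroup E] [NormedSpace ℂ E]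
    {f : ℝ → E} {C : ℝ} (hC : ∀ s, ‖f s‖ ≤ C) : ‖∫ s, (k s : ℂ) • f s‖ ≤ C := by
  refine (norm_integral_le_of_norm_le (hk.mul_const C) (.of_forall fun s => ?_)).trans ?_
  · rw [norm_smul, Complex.norm_real, Real.norm_of_nonneg (h0 s)]
    exact mul_le_mul_of_nonneg_left (hC s) (h0 s)
  · rw [integral_mul_const, h1, one_mul]

section tt
variable {H : Type u} [NormedAddCommGroup H] [InnerProductSpace ℂ H] [CompleteSpace H]
  {M : VonNeumannAlgebra H} {ζ : H} (t : TTD M ζ)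

lemma D_D (s : ℝ) (ξ : H) : t.D (-s) (t.D s ξ) = ξ := by
  rw [← mul_apply_eq_comp, ← t.D_add, neg_add_cancel, t.D_zero, one_apply_eq_self]

lemma D_inner (s : ℝ) (ξ η : H) : ⟪t.D s ξ, η⟫_ℂ = ⟪ξ, t.D (-s) η⟫_ℂ := by
  rw [← t.D_star, ContinuousLinearMap.star_eq_adjoint, ContinuousLinearMap.adjoint_inner_right]

lemma norm_D (s : ℝ) (ξ : H) : ‖t.D s ξ‖ = ‖ξ‖ := by
  have h := D_inner t s ξ (t.D s ξ)
  rw [D_D, inner_self_eq_norm_sq_to_K, inner_self_eq_norm_sq_to_K] at h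
  have h' : ‖t.D s ξ‖ ^ 2 = ‖ξ‖ ^ 2 := by exact_mod_cast h
  exact (pow_left_inj₀ (norm_nonneg _) (norm_nonneg _) two_ne_zero).1 h'

lemma norm_J (ξ : H) : ‖t.J ξ‖ = ‖ξ‖ := by
  have h := t.J_inner ξ ξ
  rw [inner_self_eq_norm_sq_to_K, inner_self_eq_norm_sq_to_K] at h
  have h' : ‖t.J ξ‖ ^ 2 = ‖ξ‖ ^ 2 := by exact_mod_cast h
  exact (pow_left_inj₀ (norm_nonneg _) (norm_nonneg _) two_ne_zero).1 h'

lemma cont_D {a : ℝ → ℝ} (ha : Continuous a) {η : ℝ → H} (hη : Continuous η) :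
    Continuous fun s => t.D (a s) (η s) := by
  have h : Continuous fun p : H × ℝ => t.D p.2 p.1 :=
    continuous_prod_of_continuous_lipschitzWith _ 1 (fun ξ => t.D_cont ξ) fun s =>
      LipschitzWith.of_dist_le_mul fun x y => by
        rw [dist_eq_norm, dist_eq_norm, ← map_sub, norm_D]; simp
  exact h.comp (hη.prodMk ha)

lemma D_Φ (s : ℝ) (φ : C₀(ℝ, ℂ)) : t.D s * t.Φ φ = t.Φ (md s φ) := t.Φ_D s φ _ fun _ => rfl

lemma Φ_D' (s : ℝ) (φ : C₀(ℝ, ℂ)) : t.Φ φ * t.D s = t.Φ (md s φ) := by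
  have h := congrArg star (D_Φ t (-s) (star φ))
  rw [star_mul, t.D_star, neg_neg, ← map_star, star_star, ← map_star] at h
  rw [h]
  congr 1
  ext ν
  rw [ZeroAtInftyContinuousMap.star_apply, md_apply, md_apply, star_mul',
    ZeroAtInftyContinuousMap.star_apply, star_star]
  congr 1
  rw [RCLike.star_def, ← Complex.exp_conj]
  congr 1
  simp

/-- `φ ↦ Φ φ ξ`. -/
noncomputable def Φv (ξ : H) : C₀(ℝ, ℂ) →L[ℂ] H :=
  LinearMap.mkContinuous
    { toFun := fun φ => t.Φ φ ξ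
      map_add' := fun a b => by rw [map_add, add_apply]
      map_smul' := fun c a => by rw [map_smul, smul_apply]; rfl } ‖ξ‖ fun φ => by
    rw [mul_comm]
    exact (t.Φ φ).le_of_opNorm_le (NonUnitalStarAlgHom.norm_apply_le t.Φ φ) ξ

lemma Φv_apply (ξ : H) (φ : C₀(ℝ, ℂ)) : Φv t ξ φ = t.Φ φ ξ := rfl

lemma int_D {k : ℝ → ℝ} (hk : Integrable k) (r : ℝ) (κ : C₀(ℝ, ℂ))
    (hκ : ∀ ν : ℝ, κ ν = ∫ s, (k s : ℂ) * exp (I * (ν * (s * r : ℝ)))) (ξ : H) :
    ∫ s, (k s : ℂ) • t.D (s * r) ξ = t.Φ κ ξ := by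
  rw [← sub_eq_zero]
  refine t.Φ_nondeg _ fun φ => ?_
  have hi1 : Integrable fun s => (k s : ℂ) • t.D (s * r) ξ :=
    intg hk (cont_D t (by fun_prop) continuous_const) fun s => (norm_D t _ _).le
  have hi2 : Integrable fun s => (k s : ℂ) • md (s * r) φ :=
    intg hk ((continuous_md φ).comp (by fun_prop)) fun s => norm_md_le _ _
  have h1 : ∫ s, (k s : ℂ) • md (s * r) φ = φ * κ := by
    ext ν
    have := (evC ν).integral_comp_comm hi2
    change _ = (∫ s, (k s : ℂ) • md (s * r) φ) ν at this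
    rw [← this, ZeroAtInftyContinuousMap.mul_apply, hκ, ← integral_const_mul]
    refine integral_congr_ae (.of_forall fun s => ?_)
    change (k s : ℂ) * (exp (I * (ν * (s * r : ℝ))) * φ ν) = _
    simp only; ring
  rw [map_sub, sub_eq_zero, ← (t.Φ φ).integral_comp_comm hi1, ← mul_apply_eq_comp, ← map_mul, ← h1,
    ← Φv_apply, ← (Φv t ξ).integral_comp_comm hi2]
  refine integral_congr_ae (.of_forall fun s => ?_)
  simp only [map_smul, Φv_apply]
  rw [← mul_apply_eq_comp, Φ_D']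

variable {k : ℝ → ℝ} (hk : Integrable k) (r : ℝ)
include hk

lemma sm_int (x : H →L[ℂ] H) (ξ : H) :
    Integrable fun s => (k s : ℂ) • t.D (s * r) (x (t.D (-(s * r)) ξ)) :=
  intg hk (cont_D t (by fun_prop) (x.continuous.comp (cont_D t (by fun_prop) continuous_const)))
    (C := ‖x‖ * ‖ξ‖) fun s => by
      rw [norm_D]
      exact (x.le_opNorm _).trans (by rw [norm_D])

variable (h0 : ∀ s, 0 ≤ k s) (h1 : ∫ s, k s = 1)

/-- The smeared operator. -/
noncomputable def sm (x : H →L[ℂ] H) : H →L[ℂ] H :=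
  LinearMap.mkContinuous
    { toFun := fun ξ => ∫ s, (k s : ℂ) • t.D (s * r) (x (t.D (-(s * r)) ξ))
      map_add' := fun a b => by
        rw [← integral_add (sm_int t hk r x a) (sm_int t hk r x b)]
        simp only [map_add, smul_add]
      map_smul' := fun c a => by
        rw [RingHom.id_apply, ← integral_smul]
        simp only [map_smul, smul_comm c] } ‖x‖ fun ξ =>
    norm_int_le hk h0 h1 fun s => by
      rw [norm_D]
      exact (x.le_opNorm _).trans (by rw [norm_D])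

lemma sm_apply (x : H →L[ℂ] H) (ξ : H) :
    sm t hk r h0 h1 x ξ = ∫ s, (k s : ℂ) • t.D (s * r) (x (t.D (-(s * r)) ξ)) := rfl

lemma norm_sm (x : H →L[ℂ] H) : ‖sm t hk r h0 h1 x‖ ≤ ‖x‖ :=
  LinearMap.mkContinuous_norm_le _ (norm_nonneg _) _

lemma sm_mem {x : H →L[ℂ] H} (hx : x ∈ M) : sm t hk r h0 h1 x ∈ M := by
  suffices h : sm t hk r h0 h1 x ∈ M.commutant.commutant by
    rwa [VonNeumannAlgebra.commutant_commutant] at h
  rw [VonNeumannAlgebra.mem_commutant_iff]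
  intro z hz
  ext ξ
  rw [mul_apply_eq_comp, mul_apply_eq_comp, sm_apply, sm_apply,
    ← z.integral_comp_comm (sm_int t hk r x ξ)]
  refine integral_congr_ae (.of_forall fun s => ?_)
  have := VonNeumannAlgebra.mem_commutant_iff.1 hz _ (t.D_mem (s * r) x hx)
  have h2 := congrArg (fun T : H →L[ℂ] H => T ξ) this
  simp only [mul_apply_eq_comp] at h2
  simp only [map_smul, h2]

lemma sm_sa {x : H →L[ℂ] H} (hx : IsSelfAdjoint x) : IsSelfAdjoint (sm t hk r h0 h1 x) := by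
  rw [ContinuousLinearMap.isSelfAdjoint_iff_isSymmetric] at hx ⊢
  intro ξ η
  change ⟪sm t hk r h0 h1 x ξ, η⟫_ℂ = ⟪ξ, sm t hk r h0 h1 x η⟫_ℂ
  rw [← inner_conj_symm, sm_apply, sm_apply, ← integral_inner (sm_int t hk r x ξ),
    ← integral_inner (sm_int t hk r x η), ← integral_conj]
  refine integral_congr_ae (.of_forall fun s => ?_)
  simp only [inner_smul_right, map_mul, conj_ofReal, inner_conj_symm]
  congr 1
  have h2 : ∀ a b, ⟪x a, b⟫_ℂ = ⟪a, x b⟫_ℂ := hx
  rw [D_inner, h2, D_inner, neg_neg]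

lemma sm_sum {ι : Type} [Fintype ι] (lam : ι → ℂ) (x : ι → H →L[ℂ] H)
    (h : ∑ i, lam i • x i = 0) : ∑ i, lam i • sm t hk r h0 h1 (x i) = 0 := by
  ext ξ
  simp only [sum_apply, smul_apply, sm_apply, ← integral_smul, zero_apply]
  rw [← integral_finsetSum (f := fun i s => lam i • (k s : ℂ) • t.D (s * r) (x i (t.D (-(s * r)) ξ)))
    _ fun i _ => (sm_int t hk r (x i) ξ).smul (lam i)]
  rw [← integral_zero ℝ H (μ := volume)]
  refine integral_congr_ae (.of_forall fun s => ?_)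
  have h2 := congrArg (fun T : H →L[ℂ] H => (k s : ℂ) • t.D (s * r) (T (t.D (-(s * r)) ξ))) h
  simp only [sum_apply, smul_apply, map_sum, map_smul, Finset.smul_sum, zero_apply, map_zero,
    smul_zero] at h2
  simp only
  rw [← h2]
  exact Finset.sum_congr rfl fun i _ => smul_comm _ _ _

lemma sm_ζ (x : H →L[ℂ] H) : sm t hk r h0 h1 x ζ = ∫ s, (k s : ℂ) • t.D (s * r) (x ζ) := by
  simp only [sm_apply, t.D_ζ]

lemma J_int (ξ : H) : t.J (∫ s, (k s : ℂ) • t.D (s * r) ξ) = ∫ s, (k s : ℂ) • t.D (s * r) (t.J ξ) := by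
  have hi1 : Integrable fun s => (k s : ℂ) • t.D (s * r) ξ :=
    intg hk (cont_D t (by fun_prop) continuous_const) fun s => (norm_D t _ _).le
  rw [← ContinuousLinearMap.integral_comp_commSL RCLike.conj_smul t.J hi1]
  simp only [map_smulₛₗ, conj_ofReal, t.J_D]

include h0 h1 in
lemma tendsto_int (ξ : H) :
    Tendsto (fun r : ℝ => ∫ s, (k s : ℂ) • t.D (s * r) ξ) (𝓝 0) (𝓝 ξ) := by
  have hc : Continuous fun r : ℝ => ∫ s, (k s : ℂ) • t.D (s * r) ξ := by
    refine continuous_of_dominated (bound := fun s => k s * ‖ξ‖) (fun r => ?_) (fun r => ?_)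
      (hk.mul_const _) (.of_forall fun s => ?_)
    · exact (intg hk (cont_D t (by fun_prop) continuous_const) fun s => (norm_D t _ _).le).1
    · refine .of_forall fun s => ?_
      rw [norm_smul, Complex.norm_real, Real.norm_of_nonneg (h0 s), norm_D]
    · exact (cont_D t (by fun_prop) continuous_const).const_smul _
  have := hc.tendsto 0
  simp only [mul_zero, t.D_zero, one_apply_eq_self] at this
  rwa [integral_smul_const, integral_complex_ofReal, h1, ofReal_one, one_smul] at this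

end tt

lemma norm_κ_le (s : Sc) (n : ℤ) : ‖s.κ n‖ ≤ 1 := by
  have h := le_hasSum s.κ_sum n fun j _ => by positivity
  nlinarith [norm_nonneg (s.κ n)]

lemma norm_c_le (s : Sc) (n : ℤ) : ‖s.c n‖ ≤ 1 := by
  refine tsum_of_norm_bounded s.bb_sum fun k => ?_
  rw [norm_mul, Complex.norm_real, Real.norm_of_nonneg (s.bb_nonneg k)]
  exact mul_le_of_le_one_right (s.bb_nonneg k) (norm_κ_le s _)

lemma summ_md (b : ℤ → ℝ) (hb : Summable b) (c : ℤ → ℂ) (hc : ∀ k, ‖c k‖ ≤ b k) (τ : ℝ)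
    (φ : C₀(ℝ, ℂ)) : Summable fun k : ℤ => c k • md (τ * k) φ :=
  Summable.of_norm_bounded (hb.mul_right ‖φ‖) fun k => by
    rw [norm_smul]
    exact mul_le_mul (hc k) (norm_md_le _ _) (norm_nonneg _) ((norm_nonneg _).trans (hc k))

lemma tsum_md (b : ℤ → ℝ) (hb : Summable b) (c : ℤ → ℂ) (hc : ∀ k, ‖c k‖ ≤ b k) (τ : ℝ)
    (φ : C₀(ℝ, ℂ)) (ν : ℝ) : (∑' k : ℤ, c k • md (τ * k) φ) ν =
      (∑' k : ℤ, c k * exp (I * (ν * τ * k))) * φ ν := by
  have := (evC ν).map_tsum (summ_md b hb c hc τ φ)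
  change (∑' k : ℤ, c k • md (τ * k) φ) ν = _ at this
  rw [this, ← tsum_mul_right]
  refine tsum_congr fun k => ?_
  change c k * (exp (I * (ν * (τ * k : ℝ))) * φ ν) = _
  push_cast
  rw [mul_assoc (ν : ℂ), mul_assoc]

end BAND

open BAND in
theorem jobBAND (h : JobSCAL) : JobBAND.{u} := by
  intro H _ _ _ M ζ ⟨t⟩ ι _ x hx η hη
  obtain ⟨k, T, hT, hk, h0, h1, hsupp⟩ := exists_kernel
  -- the scale `r`
  have hr : ∀ᶠ r in 𝓝[>] (0 : ℝ), ∀ i, ‖(∫ s, (k s : ℂ) • t.D (s * r) (x i ζ)) - x i ζ‖ < η / 2 := by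
    refine eventually_nhdsWithin_of_eventually_nhds (eventually_all.2 fun i => ?_)
    exact (tendsto_iff_norm_sub_tendsto_zero.1 (tendsto_int t hk h0 h1 (x i ζ))).eventually
      (gt_mem_nhds (by positivity))
  obtain ⟨r, hr1, hr0⟩ := (hr.and self_mem_nhdsWithin).exists
  have hr0 : 0 < r := hr0
  -- the time `t₁`
  have ht : ∀ᶠ s in 𝓝 (0 : ℝ), ∀ i, ‖t.D s (x i ζ) - x i ζ‖ < η / 2 := by
    refine eventually_all.2 fun i => ?_
    have := (t.D_cont (x i ζ)).tendsto 0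
    rw [t.D_zero, one_apply_eq_self] at this
    exact (tendsto_iff_norm_sub_tendsto_zero.1 this).eventually (gt_mem_nhds (by positivity))
  obtain ⟨ε, hε, ht'⟩ := Metric.eventually_nhds_iff.1 ht
  obtain ⟨τ, s, A, hτ, hA, hw, hid⟩ := h (T / r) (ε / 2) η (by positivity) (by positivity) hη
  -- the transform of the kernel
  set κf : ℝ → ℂ := fun ν => ∫ s, (k s : ℂ) * exp (I * (ν * (s * r : ℝ))) with hκf
  have hκ0 : ∀ ν : ℝ, T / r < |ν| → κf ν = 0 := fun ν hν => by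
    rw [← hsupp (ν * r) (by rwa [abs_mul, abs_of_pos hr0, ← div_lt_iff₀ hr0])]
    refine integral_congr_ae (.of_forall fun s => ?_)
    simp only
    congr 2
    push_cast; ring
  have hκc : Continuous κf := by
    refine continuous_of_dominated (bound := k) (fun ν => ?_) (fun ν => ?_) hk
      (.of_forall fun s => by fun_prop)
    · exact (continuous_ofReal.comp_aestronglyMeasurable hk.1).mul
        (Continuous.aestronglyMeasurable (by fun_prop))
    · refine .of_forall fun s => ?_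
      rw [norm_mul, norm_e, mul_one, Complex.norm_real, Real.norm_of_nonneg (h0 s)]
  have hcs : ∀ g : ℝ → ℂ, HasCompactSupport fun ν => g ν * κf ν := fun g =>
    HasCompactSupport.intro (isCompact_Icc (a := -(T / r)) (b := T / r)) fun ν hν => by
      rw [hκ0 ν (by rwa [Set.mem_Icc, ← abs_le, not_le] at hν), mul_zero]
  let κ : C₀(ℝ, ℂ) := ⟨⟨fun ν => 1 * κf ν, by fun_prop⟩, (hcs fun _ => 1).is_zero_at_infty⟩
  let κ' : C₀(ℝ, ℂ) := ⟨⟨fun ν => exp (ν / 2) * κf ν, by fun_prop⟩,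
    (hcs fun ν => exp (ν / 2)).is_zero_at_infty⟩
  have hκ : ∀ ν, κ ν = κf ν := fun ν => one_mul _
  have hκ' : ∀ ν : ℝ, κ' ν = exp (ν / 2) * κ ν := fun ν => by rw [hκ]; rfl
  -- the data
  let X : ι → H →L[ℂ] H := fun i => sm t hk r h0 h1 (x i)
  let a : ι → ℤ → H →L[ℂ] H := fun i n => t.D (τ * n) * X i * t.D (-(τ * n))
  have ha_mem : ∀ i n, a i n ∈ M := fun i n => t.D_mem _ _ (sm_mem t hk r h0 h1 (hx i).1)
  choose a' ha'_mem ha' using fun i n => t.J_mem _ (ha_mem i n)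
  have ha_sa : ∀ i n, IsSelfAdjoint (a i n) := fun i n => by
    have := (sm_sa t hk r h0 h1 (hx i).2.1).conjugate (t.D (τ * n))
    rwa [t.D_star] at this
  have ha_le : ∀ i n, ‖a i n‖ ≤ 1 / 2 := fun i n =>
    ContinuousLinearMap.opNorm_le_bound _ (by norm_num) fun ξ => by
      change ‖t.D _ (X i (t.D _ ξ))‖ ≤ _
      rw [norm_D]
      refine ((X i).le_of_opNorm_le ((norm_sm t hk r h0 h1 _).trans (hx i).2.2) _).trans ?_
      rw [norm_D]
  have ha_cov : ∀ i (n k : ℤ), t.D (τ * k) * a i n = a i (n + k) * t.D (τ * k) := fun i n k => by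
    simp only [a, ← mul_assoc]
    rw [← t.D_add, mul_assoc _ (t.D _) (t.D _), ← t.D_add]
    congr 2
    · congr 1; push_cast; ring
    · push_cast; ring
  have hXζ : ∀ i, X i ζ = t.Φ κ (x i ζ) := fun i => by
    rw [← int_D t hk r κ hκ]; exact sm_ζ t hk r h0 h1 _
  have hJX : ∀ i, t.J (X i ζ) = t.Φ κ' (x i ζ) := fun i => by
    rw [t.Φ_kms κ κ' hκ' _ (hx i).1 (hx i).2.1, ← int_D t hk r κ hκ, ← J_int t hk r]
    congr 1
    exact sm_ζ t hk r h0 h1 _
  have haζ : ∀ i n, a i n ζ = Φv t (x i ζ) (md (τ * n) κ) := fun i n => by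
    change t.D _ (X i (t.D _ ζ)) = _
    rw [t.D_ζ, hXζ, Φv_apply, ← D_Φ, mul_apply_eq_comp]
  have ha'ζ : ∀ i n, a' i n ζ = Φv t (x i ζ) (md (τ * n) κ') := fun i n => by
    rw [ha', t.J_ζ]
    change t.J (t.D _ (X i (t.D _ ζ))) = _
    rw [t.D_ζ, t.J_D, hJX, Φv_apply, ← D_Φ, mul_apply_eq_comp]
  let δ : DMD M ζ ι s :=
    { D := fun n => t.D (τ * n)
      D_zero := by simp [t.D_zero]
      D_add := fun m n => by rw [← t.D_add]; congr 1; push_cast; ring
      D_star := fun n => by rw [t.D_star]; congr 1; push_cast; ring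
      D_ζ := fun n => t.D_ζ _
      a := a
      a' := a'
      a_mem := ha_mem
      a'_mem := ha'_mem
      a_sa := ha_sa
      a'_sa := fun i n => by
        have h2 : ∀ a₁ b, ⟪a i n a₁, b⟫_ℂ = ⟪a₁, a i n b⟫_ℂ :=
          ContinuousLinearMap.isSelfAdjoint_iff_isSymmetric.1 (ha_sa i n)
        rw [ContinuousLinearMap.isSelfAdjoint_iff_isSymmetric]
        intro ξ θ
        change ⟪a' i n ξ, θ⟫_ℂ = ⟪ξ, a' i n θ⟫_ℂ
        rw [ha', ha']
        conv_lhs => rw [← t.J_J θ]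
        conv_rhs => rw [← t.J_J ξ]
        rw [t.J_inner, t.J_inner, h2]
      a_le := ha_le
      a'_le := fun i n => ContinuousLinearMap.opNorm_le_bound _ (by norm_num) fun ξ => by
        rw [ha', norm_J]
        exact ((a i n).le_of_opNorm_le (ha_le i n) _).trans (by rw [norm_J])
      a_cov := ha_cov
      a'_cov := fun i n k => by
        ext ξ
        rw [mul_apply_eq_comp, mul_apply_eq_comp, ha', ha', ← t.J_D, t.J_D (τ * k) ξ,
          ← mul_apply_eq_comp (t.D _), ha_cov, mul_apply_eq_comp]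
      kms := fun i n m => by
        have hb1 : Summable fun k : ℤ => s.bb (n - k) :=
          (Equiv.subLeft n).summable_iff.2 s.bb_sum.summable
        have hb2 : Summable fun k : ℤ => s.bb (k - m) :=
          (Equiv.subRight m).summable_iff.2 s.bb_sum.summable
        have hc1 : ∀ k : ℤ, ‖(s.bb (n - k) : ℂ) * s.c (k - m)‖ ≤ s.bb (n - k) := fun k => by
          rw [norm_mul, Complex.norm_real, Real.norm_of_nonneg (s.bb_nonneg _)]
          exact mul_le_of_le_one_right (s.bb_nonneg _) (norm_c_le s _)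
        have hc2 : ∀ k : ℤ, ‖(s.bb (k - m) : ℂ) * s.c (n - k)‖ ≤ s.bb (k - m) := fun k => by
          rw [norm_mul, Complex.norm_real, Real.norm_of_nonneg (s.bb_nonneg _)]
          exact mul_le_of_le_one_right (s.bb_nonneg _) (norm_c_le s _)
        simp only [haζ, ha'ζ, ← map_smul]
        rw [← (Φv t (x i ζ)).map_tsum (summ_md _ hb1 _ hc1 τ κ),
          ← (Φv t (x i ζ)).map_tsum (summ_md _ hb2 _ hc2 τ κ')]
        congr 1
        ext ν
        rw [tsum_md _ hb1 _ hc1, tsum_md _ hb2 _ hc2, hκ']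
        by_cases hν : |ν| ≤ T / r
        · rw [hid ν hν n m]; ring
        · rw [hκ, hκ0 ν (not_le.1 hν)]; simp }
  refine ⟨s, δ, A, hw, fun i n hn => ?_, fun lam hlam n => ?_⟩
  · change ‖t.D (τ * n) (X i (t.D _ ζ)) - x i ζ‖ ≤ η
    rw [t.D_ζ]
    have e : t.D (τ * n) (X i ζ) - x i ζ =
        t.D (τ * n) (X i ζ - x i ζ) + (t.D (τ * n) (x i ζ) - x i ζ) := by
      rw [map_sub]; abel
    have h2 : ‖X i ζ - x i ζ‖ < η / 2 := by
      have := hr1 i
      rwa [← sm_ζ t hk r h0 h1] at this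
    have h3 := ht' (y := τ * n) (by
      rw [Real.dist_eq, sub_zero]; exact (hA n hn).trans_lt (by linarith)) i
    rw [e]
    refine (norm_add_le _ _).trans ?_
    rw [norm_D]
    linarith
  · change ∑ i, lam i • (t.D (τ * n) * X i * t.D (-(τ * n))) = 0
    have := sm_sum t hk r h0 h1 lam x hlam
    have e : ∑ i, lam i • (t.D (τ * n) * X i * t.D (-(τ * n))) =
        t.D (τ * n) * (∑ i, lam i • X i) * t.D (-(τ * n)) := by
      simp only [Finset.sum_mul, Finset.mul_sum, smul_mul_assoc, mul_smul_comm]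
    rw [e, this, mul_zero, zero_mul]

end Crest.Agent.KN
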