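import Crest.Agent.KN.Defs2

/-! Row 78 (S0103), job CUT: scalar facts. -/

set_option autoImplicit false

namespace Crest.Agent.KN.CutX

open scoped BigOperators ComplexConjugate
open Filter Topology

theorem cs_sq {ι : Type} (t : Finset ι) (a b : ι → ℂ) :
    ‖∑ j ∈ t, a j * b j‖ ^ 2 ≤ (∑ j ∈ t, ‖a j‖ ^ 2) * ∑ j ∈ t, ‖b j‖ ^ 2 := by
  refine le_trans ?_ (Finset.sum_mul_sq_le_sq_mul_sq t (fun j => ‖a j‖) fun j => ‖b j‖)
  gcongr
  exact (norm_sum_le _ _).trans (Finset.sum_le_sum fun j _ => (norm_mul _ _).le)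

variable (s : Sc) (v : ℤ → ℝ)

theorem u_eq (n : ℤ) : s.u n = ∑ m ∈ s.μ.support, s.μ m * s.κ (n - m) :=
  tsum_eq_sum fun m hm => by rw [Finsupp.notMem_support_iff.1 hm, zero_mul]

theorem κ_shift (m : ℤ) : HasSum (fun n => ‖s.κ (n - m)‖ ^ 2) 1 :=
  (Equiv.subRight m).hasSum_iff.2 s.κ_sum

theorem bb_shift (m : ℤ) : HasSum (fun n => s.bb (n - m)) 1 :=
  (Equiv.subRight m).hasSum_iff.2 s.bb_sum

theorem bb_shift' (m : ℤ) : HasSum (fun n => s.bb (m - n)) 1 :=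
  (Equiv.subLeft m).hasSum_iff.2 s.bb_sum

theorem u_summable : Summable fun n => ‖s.u n‖ ^ 2 := by
  refine Summable.of_nonneg_of_le (fun _ => by positivity) (fun n => ?_)
    ((summable_sum fun m (_ : m ∈ s.μ.support) => (κ_shift s m).summable).mul_left
      (∑ j ∈ s.μ.support, ‖s.μ j‖ ^ 2))
  rw [u_eq]
  exact cs_sq _ _ _

theorem u_pos : 0 < ∑' n, ‖s.u n‖ ^ 2 := by
  obtain ⟨n, hn⟩ := s.u_ne
  exact (u_summable s).tsum_pos (fun _ => by positivity) n (pow_pos (norm_pos_iff.2 hn) 2)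

/-- normalisation of the vacuum -/
noncomputable def N2 (F : Finset ℤ) : ℝ := ∑ k : F × F, ‖(v k.2 : ℂ) * s.κ (k.1 - k.2)‖ ^ 2

/-- normalisation of the slot vector -/
noncomputable def u2 (F : Finset ℤ) : ℝ := ∑ i : F, ‖s.u i‖ ^ 2

/-- normalisation of the purifier vector -/
noncomputable def K2 : ℝ := ∑ m ∈ s.μ.support, ‖s.μ m‖ ^ 2 / v m ^ 2

theorem K2_pos (hv : ∀ m ∈ s.μ.support, 0 < v m) : 0 < K2 s v := by
  obtain ⟨n, hn⟩ := s.u_ne
  have hne : s.μ.support.Nonempty := by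
    by_contra h
    rw [Finset.not_nonempty_iff_eq_empty] at h
    exact hn ((u_eq s n).trans (by simp [h]))
  refine Finset.sum_pos (fun m hm => ?_) hne
  have := hv m hm
  have := norm_pos_iff.2 (Finsupp.mem_support_iff.1 hm)
  positivity

/-- vacuum -/
noncomputable def om (F : Finset ℤ) (k : F × F) : ℂ :=
  (v k.2 : ℂ) * s.κ (k.1 - k.2) / (√(N2 s v F) : ℝ)

/-- slot vector -/
noncomputable def uu (F : Finset ℤ) (i : F) : ℂ := s.u i / (√(u2 s F) : ℝ)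

/-- purifier vector -/
noncomputable def gg (F : Finset ℤ) (j : F) : ℂ := conj (s.μ j) / ((v j * √(K2 s v) : ℝ) : ℂ)

theorem uv_div {ι : Type} [Fintype ι] (a : ι → ℂ) (h : 0 < ∑ i, ‖a i‖ ^ 2) :
    UV fun i => a i / (√(∑ i, ‖a i‖ ^ 2) : ℝ) := by
  simp only [UV, norm_div, div_pow, Complex.norm_real, Real.norm_eq_abs, sq_abs,
    Real.sq_sqrt h.le, ← Finset.sum_div]
  exact div_self h.ne'

theorem om_uv (F : Finset ℤ) (h : 0 < N2 s v F) : UV (om s v F) := uv_div _ h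

theorem uu_uv (F : Finset ℤ) (h : 0 < u2 s F) : UV (uu s F) := uv_div _ h

theorem gg_uv (hv : ∀ m ∈ s.μ.support, 0 < v m) (F : Finset ℤ) (hF : s.μ.support ⊆ F) :
    UV (gg s v F) := by
  have hK := K2_pos s v hv
  simp only [UV, gg, norm_div, div_pow, Complex.norm_real, Real.norm_eq_abs, sq_abs, mul_pow,
    Real.sq_sqrt hK.le, RCLike.norm_conj, ← div_div, ← Finset.sum_div]
  rw [Finset.sum_coe_sort F (fun j => ‖s.μ j‖ ^ 2 / v j ^ 2), ← Finset.sum_subset hF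
    (fun j _ hj => by simp [Finsupp.notMem_support_iff.1 hj])]
  exact div_self hK.ne'

theorem slot_eq (hv : ∀ m ∈ s.μ.support, 0 < v m) (F : Finset ℤ) (hF : s.μ.support ⊆ F)
    (hN : 0 < N2 s v F) (hu : 0 < u2 s F) (i : F) :
    ∑ j, conj (gg s v F j) * om s v F (i, j) =
      (√(u2 s F / (K2 s v * N2 s v F)) : ℝ) * uu s F i := by
  have hK := K2_pos s v hv
  have h1 : ((√(K2 s v) : ℝ) : ℂ) ≠ 0 := by exact_mod_cast (Real.sqrt_pos.2 hK).ne'
  have h2 : ((√(N2 s v F) : ℝ) : ℂ) ≠ 0 := by exact_mod_cast (Real.sqrt_pos.2 hN).ne'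
  have h3 : ((√(u2 s F) : ℝ) : ℂ) ≠ 0 := by exact_mod_cast (Real.sqrt_pos.2 hu).ne'
  have : ∀ j : F, conj (gg s v F j) * om s v F (i, j) =
      s.μ j * s.κ (i - j) / ((√(K2 s v) : ℝ) * (√(N2 s v F) : ℝ)) := by
    intro j
    simp only [gg, om, map_div₀, Complex.conj_conj, Complex.conj_ofReal]
    by_cases hj : (j : ℤ) ∈ s.μ.support
    · have : ((v j : ℝ) : ℂ) ≠ 0 := by exact_mod_cast (hv j hj).ne'
      push_cast
      field_simp
    · simp [Finsupp.notMem_support_iff.1 hj]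
  simp only [this, ← Finset.sum_div]
  rw [Finset.sum_coe_sort F (fun j => s.μ j * s.κ (i - j)), ← Finset.sum_subset hF
    (fun j _ hj => by simp [Finsupp.notMem_support_iff.1 hj]), ← u_eq, uu,
    Real.sqrt_div hu.le, Real.sqrt_mul hK.le]
  push_cast
  field_simp

theorem p_le_one {I J : Type} [Fintype I] [Fintype J] {ω : I × J → ℂ} {u : I → ℂ} {g : J → ℂ}
    {p : ℝ} (hp : 0 ≤ p) (h1 : UV ω) (h2 : UV u) (h3 : UV g)
    (h : ∀ i, ∑ j, conj (g j) * ω (i, j) = (√p : ℝ) * u i) : p ≤ 1 := by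
  have a1 : ∀ i, p * ‖u i‖ ^ 2 ≤ ∑ j, ‖ω (i, j)‖ ^ 2 := by
    intro i
    have := cs_sq Finset.univ (fun j => conj (g j)) fun j => ω (i, j)
    simp only [RCLike.norm_conj] at this
    rw [h i, h3, one_mul, norm_mul, mul_pow, Complex.norm_real, Real.norm_eq_abs, sq_abs,
      Real.sq_sqrt hp] at this
    exact this
  have a2 := Finset.sum_le_sum fun i (_ : i ∈ Finset.univ) => a1 i
  rwa [← Finset.mul_sum, h2, mul_one, ← Fintype.sum_prod_type (fun k => ‖ω k‖ ^ 2), h1] at a2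

/-- slice amplitudes -/
noncomputable def cc (F : Finset ℤ) (k : ℤ) : ℂ := ∑ i : F, (s.bb (k - i) : ℂ) * uu s F i

theorem cc_le (F : Finset ℤ) (k : ℤ) :
    ‖cc s F k‖ ^ 2 ≤ ∑ i : F, s.bb (k - i) * ‖uu s F i‖ ^ 2 := by
  have h1 := cs_sq Finset.univ (fun i : F => ((√(s.bb (k - i)) : ℝ) : ℂ))
    fun i => ((√(s.bb (k - i)) : ℝ) : ℂ) * uu s F i
  simp only [← mul_assoc, ← Complex.ofReal_mul, Real.mul_self_sqrt (s.bb_nonneg _), norm_mul,
    mul_pow, Complex.norm_real, Real.norm_eq_abs, sq_abs, Real.sq_sqrt (s.bb_nonneg _)] at h1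
  refine h1.trans (mul_le_of_le_one_left
    (Finset.sum_nonneg fun i _ => mul_nonneg (s.bb_nonneg _) (by positivity)) ?_)
  rw [Finset.sum_coe_sort F (fun i => s.bb (k - i))]
  exact sum_le_hasSum F (fun _ _ => s.bb_nonneg _) (bb_shift' s k)

theorem cc_sum (F : Finset ℤ) (hu : 0 < u2 s F) :
    Summable (fun k => ‖cc s F k‖ ^ 2) ∧ ∑' k, ‖cc s F k‖ ^ 2 ≤ 1 := by
  have h1 : HasSum (fun k => ∑ i : F, s.bb (k - i) * ‖uu s F i‖ ^ 2) 1 := by
    have := hasSum_sum fun (i : F) (_ : i ∈ Finset.univ) =>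
      (bb_shift s i).mul_right (‖uu s F i‖ ^ 2)
    simp only [one_mul] at this
    rwa [uu_uv s F hu] at this
  have h2 := Summable.of_nonneg_of_le (fun _ => by positivity) (cc_le s F) h1.summable
  exact ⟨h2, hasSum_le (cc_le s F) h2.hasSum h1⟩

theorem cc_coef (F : Finset ℤ) (k : ℤ) :
    ∑ i : F, ∑ i' : F, (conj (uu s F i) * uu s F i') * ((s.bb (k - i') : ℂ) * s.bb (i - k)) =
      ((‖cc s F k‖ ^ 2 : ℝ) : ℂ) := by
  rw [Complex.ofReal_pow, ← Complex.conj_mul', cc, map_sum, Finset.sum_mul_sum]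
  refine Finset.sum_congr rfl fun i _ => Finset.sum_congr rfl fun i' _ => ?_
  rw [← s.bb_even (i - k), neg_sub, map_mul, Complex.conj_ofReal]
  ring

variable {F : ℕ → Finset ℤ} (hF : Tendsto F atTop atTop)
include hF

theorem u2_tendsto : Tendsto (fun R => u2 s (F R)) atTop (𝓝 (∑' n, ‖s.u n‖ ^ 2)) := by
  simp only [u2, fun F => Finset.sum_coe_sort F (fun i => ‖s.u i‖ ^ 2)]
  exact (u_summable s).hasSum.comp hF

theorem N2_tendsto (B : Finset ℤ) (hB : ∀ m, m ∉ B → v m = 0) (h1 : ∑ m ∈ B, v m ^ 2 = 1) :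
    Tendsto (fun R => N2 s v (F R)) atTop (𝓝 1) := by
  have h2 : Tendsto (fun R => ∑ m ∈ B, v m ^ 2 * ∑ n ∈ F R, ‖s.κ (n - m)‖ ^ 2) atTop
      (𝓝 (∑ m ∈ B, v m ^ 2 * 1)) :=
    tendsto_finsetSum _ fun m _ => ((κ_shift s m).comp hF).const_mul _
  simp only [mul_one, h1] at h2
  refine h2.congr' ?_
  filter_upwards [hF.eventually_ge_atTop B] with R hR
  rw [N2, Fintype.sum_prod_type_right]
  simp only [norm_mul, mul_pow, Complex.norm_real, Real.norm_eq_abs, sq_abs, ← Finset.mul_sum]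
  rw [Finset.sum_coe_sort (F R) (fun m => v m ^ 2 * ∑ n : F R, ‖s.κ (n - m)‖ ^ 2),
    ← Finset.sum_subset hR (fun m _ hm => by simp [hB m hm])]
  refine Finset.sum_congr rfl fun m _ => ?_
  rw [Finset.sum_coe_sort (F R) (fun n => ‖s.κ (n - m)‖ ^ 2)]

theorem cc_tendsto (n : ℤ) : Tendsto (fun R => ‖cc s (F R) n‖ ^ 2) atTop (𝓝 (s.w n)) := by
  have h1 : Summable fun i => (s.bb (n - i) : ℂ) * s.u i := by
    refine Summable.of_norm_bounded ((bb_shift' s n).summable.mul_right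
      (√(∑' n, ‖s.u n‖ ^ 2))) fun i => ?_
    rw [norm_mul, Complex.norm_real, Real.norm_of_nonneg (s.bb_nonneg _)]
    refine mul_le_mul_of_nonneg_left (Real.le_sqrt_of_sq_le ?_) (s.bb_nonneg _)
    exact (u_summable s).le_tsum i fun _ _ => by positivity
  have h2 : ∑' i, (s.bb (n - i) : ℂ) * s.u i = cv (fun n => (s.bb n : ℂ)) s.u n := by
    rw [cv, ← (Equiv.subLeft n).tsum_eq]
    simp
  have h3 := (((h1.hasSum.comp hF).norm).pow 2).div (u2_tendsto s hF) (u_pos s).ne'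
  rw [h2] at h3
  refine h3.congr fun R => ?_
  have h4 : 0 ≤ u2 s (F R) := Finset.sum_nonneg fun _ _ => by positivity
  simp only [cc, uu, ← mul_div_assoc, ← Finset.sum_div, norm_div, div_pow, Complex.norm_real,
    Real.norm_eq_abs, sq_abs, Real.sq_sqrt h4, Pi.div_apply, Function.comp_apply]
  rw [Finset.sum_coe_sort (F R) (fun i => (s.bb (n - i) : ℂ) * s.u i)]

end Crest.Agent.KN.CutX
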