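import Crest.Agent.KN.Defs

/-! Row 78 (S0103), job UNDO: reading off a linear lift from the walk. -/

set_option autoImplicit false
set_option linter.deprecated false
universe u

namespace Crest.Agent.KN

open scoped InnerProductSpace BigOperators
open Filter Topology

namespace UndoX

section windows
variable (p : ℕ → ℝ)

/-- window-null sequences -/
def WN (x : ℕ → ℝ) : Prop :=
  ∀ η : ℝ, 0 < η → ∃ N₀, ∀ a b, N₀ ≤ a → ∑ n ∈ Finset.Ico a b, p n ≤ 2 →
    ∑ n ∈ Finset.Ico a b, p n * x n ≤ η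

variable {p}

theorem WN.mono (hp : ∀ n, 0 ≤ p n) {x y : ℕ → ℝ} (c : ℝ) (hc : 0 < c) (h : ∀ n, x n ≤ c * y n)
    (hy : WN p y) : WN p x := by
  intro η hη
  obtain ⟨N₀, hN⟩ := hy (η / c) (by positivity)
  refine ⟨N₀, fun a b ha hb => ?_⟩
  have h1 := hN a b ha hb
  rw [le_div_iff₀ hc, Finset.sum_mul] at h1
  refine le_trans (Finset.sum_le_sum fun n _ => ?_) h1
  nlinarith [hp n, h n]

theorem WN.add {x y : ℕ → ℝ} (hx : WN p x) (hy : WN p y) : WN p fun n => x n + y n := by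
  intro η hη
  obtain ⟨N₀, hN⟩ := hx (η / 2) (by positivity)
  obtain ⟨N₁, hN'⟩ := hy (η / 2) (by positivity)
  refine ⟨max N₀ N₁, fun a b ha hb => ?_⟩
  have h1 := hN a b (le_of_max_le_left ha) hb
  have h2 := hN' a b (le_of_max_le_right ha) hb
  simp only [mul_add, Finset.sum_add_distrib]
  linarith

theorem not_WN_one (hp : ∀ n, 0 ≤ p n) (hp1 : ∀ n, p n ≤ 1) (hs : ¬ Summable p) :
    ¬ WN p fun _ => 1 := by
  classical
  intro h
  obtain ⟨a, ha⟩ := h (1 / 2) (by norm_num)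
  have hex : ∃ k, 1 ≤ ∑ n ∈ Finset.Ico a (a + k), p n := by
    have := (not_summable_iff_tendsto_nat_atTop_of_nonneg hp).1 hs
    obtain ⟨b, hb1, hb2⟩ := ((this.eventually_ge_atTop (1 + ∑ n ∈ Finset.range a, p n)).and
      (eventually_ge_atTop a)).exists
    refine ⟨b - a, ?_⟩
    rw [Nat.add_sub_cancel' hb2, Finset.sum_Ico_eq_sub _ hb2]
    linarith
  have h1 := Nat.find_spec hex
  have h2 : ∑ n ∈ Finset.Ico a (a + Nat.find hex), p n ≤ 2 := by
    rcases hk : Nat.find hex with _ | k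
    · simp
    · have := Nat.find_min hex (m := k) (by omega)
      rw [← add_assoc, Finset.sum_Ico_succ_top (by omega)]
      linarith [hp1 (a + k)]
  have := ha a _ le_rfl h2
  simp only [mul_one] at this
  linarith

theorem exists_uf (hp : ∀ n, 0 ≤ p n) (hp1 : ∀ n, p n ≤ 1) (hs : ¬ Summable p) :
    ∃ 𝒰 : Ultrafilter ℕ, ∀ x : ℕ → ℝ, (∀ n, 0 ≤ x n) → WN p x →
      Tendsto x (𝒰 : Filter ℕ) (𝓝 0) := by
  classical
  let 𝓕 : Filter ℕ :=
    { sets := {A | WN p fun n => if n ∈ A then 0 else 1}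
      univ_sets := fun η hη => ⟨0, fun a b _ _ => by simpa using hη.le⟩
      sets_of_superset := fun {A B} hA hAB => WN.mono hp 1 one_pos (fun n => by
        by_cases h : n ∈ A
        · simp [h, hAB h]
        · simp only [h, if_false, one_mul]
          split_ifs <;> norm_num) hA
      inter_sets := fun {A B} hA hB => WN.mono hp 1 one_pos (fun n => by
        by_cases h : n ∈ A <;> by_cases h' : n ∈ B <;> simp [h, h']) (WN.add hA hB) }
  have : 𝓕.NeBot := by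
    rw [← Filter.forall_mem_nonempty_iff_neBot]
    intro A hA
    rw [Set.nonempty_iff_ne_empty]
    rintro rfl
    exact not_WN_one hp hp1 hs (by simpa using (show WN p _ from hA))
  refine ⟨Ultrafilter.of 𝓕, fun x hx hW => Tendsto.mono_left ?_ (Ultrafilter.of_le 𝓕)⟩
  rw [Metric.tendsto_nhds]
  intro t ht
  refine WN.mono hp (1 / t) (by positivity) (fun n => ?_) hW
  split_ifs with h
  · have := hx n
    positivity
  · simp only [Set.mem_ofPred_eq, Real.dist_eq, sub_zero, abs_of_nonneg (hx n), not_lt] at h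
    rw [one_div, inv_mul_eq_div, le_div_iff₀ ht]
    linarith

end windows

variable {E : Type u} [NormedAddCommGroup E] [InnerProductSpace ℂ E] [CompleteSpace E]

/-- the regularised support of a finite family -/
theorem reg {κ : Type} (s : Finset κ) (a : κ → E →L[ℂ] E) (t : ℝ) (ht : 0 < t) :
    ∃ q : E →L[ℂ] E, ‖q‖ ≤ 1 ∧ ‖1 - q‖ ≤ 1 ∧
      (∀ z, (∀ k ∈ s, Commute (a k) z ∧ Commute (star (a k)) z) → Commute q z) ∧
      (∀ k ∈ s, ‖a k * (1 - q)‖ ≤ t) ∧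
      ∀ θ, ‖q θ‖ ≤ (∑ k ∈ s, ‖a k‖ * ‖a k θ‖) / t ^ 2 := by
  set A : E →L[ℂ] E := ∑ k ∈ s, star (a k) * a k with hA
  have hre : ∀ φ, ⟪A φ, φ⟫_ℂ = ((∑ k ∈ s, ‖a k φ‖ ^ 2 : ℝ) : ℂ) := by
    intro φ
    simp only [hA, ContinuousLinearMap.sum_apply, sum_inner, ContinuousLinearMap.mul_apply,
      ContinuousLinearMap.star_eq_adjoint, ContinuousLinearMap.adjoint_inner_left,
      inner_self_eq_norm_sq_to_K]
    push_cast
    rfl
  set B : E →L[ℂ] E := ((t ^ 2 : ℝ) : ℂ) • 1 + A with hB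
  have hBφ : ∀ φ, B φ = ((t ^ 2 : ℝ) : ℂ) • φ + A φ := fun φ => rfl
  have hu : IsUnit B := by
    refine ContinuousLinearMap.isUnit_of_forall_le_norm_inner_map B (c := ⟨t ^ 2, by positivity⟩)
      (by exact_mod_cast (by positivity : 0 < t ^ 2)) fun φ => ?_
    have h0 : 0 ≤ ∑ k ∈ s, ‖a k φ‖ ^ 2 := by positivity
    rw [hBφ, inner_add_left, hre, inner_smul_left, inner_self_eq_norm_sq_to_K, Complex.conj_ofReal]
    have : ((t ^ 2 : ℝ) : ℂ) * ((‖φ‖ : ℝ) : ℂ) ^ 2 + ((∑ k ∈ s, ‖a k φ‖ ^ 2 : ℝ) : ℂ) =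
        ((t ^ 2 * ‖φ‖ ^ 2 + ∑ k ∈ s, ‖a k φ‖ ^ 2 : ℝ) : ℂ) := by push_cast; ring
    erw [this]
    rw [Complex.norm_real, Real.norm_of_nonneg (by positivity)]
    change ‖φ‖ ^ 2 * t ^ 2 ≤ _
    linarith
  obtain ⟨b, hb⟩ := hu
  set r : E →L[ℂ] E := ↑b⁻¹ with hr
  have hBr : B * r = 1 := by rw [← hb, hr, Units.mul_inv]
  have hrB : r * B = 1 := by rw [← hb, hr, Units.inv_mul]
  have hAr : Commute A r := by
    have : Commute A B := ((Commute.one_right A).smul_right _).add_right (Commute.refl A)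
    rw [← hb] at this
    exact this.units_inv_right
  have hq : 1 - A * r = ((t ^ 2 : ℝ) : ℂ) • r := by
    rw [← hBr, hB, add_mul, smul_mul_assoc, one_mul, add_sub_cancel_right]
  have hn : ∀ θ, ‖θ‖ ^ 2 = (t ^ 2 * ‖r θ‖) ^ 2 + 2 * (t ^ 2 * ∑ k ∈ s, ‖a k (r θ)‖ ^ 2) +
      ‖A (r θ)‖ ^ 2 := by
    intro θ
    have h1 : θ = A (r θ) + ((t ^ 2 : ℝ) : ℂ) • r θ := by
      rw [add_comm, ← hBφ, ← ContinuousLinearMap.mul_apply, hBr]; rfl
    conv_lhs => rw [h1]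
    rw [@norm_add_sq ℂ, inner_smul_right, hre, norm_smul, Complex.norm_real,
      Real.norm_of_nonneg (by positivity), ← Complex.ofReal_mul]
    simp only [RCLike.re_to_complex, Complex.ofReal_re]
    ring
  have hr' : ∀ θ, t ^ 2 * ‖r θ‖ ≤ ‖θ‖ := by
    intro θ
    refine abs_le_of_sq_le_sq' ?_ (norm_nonneg _) |>.2
    have h0 : 0 ≤ t ^ 2 * ∑ k ∈ s, ‖a k (r θ)‖ ^ 2 := by positivity
    nlinarith [hn θ, sq_nonneg ‖A (r θ)‖]
  refine ⟨A * r, ?_, ?_, ?_, ?_, ?_⟩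
  · refine ContinuousLinearMap.opNorm_le_bound _ zero_le_one fun θ => ?_
    rw [one_mul]
    refine abs_le_of_sq_le_sq' ?_ (norm_nonneg _) |>.2
    have h0 : 0 ≤ t ^ 2 * ∑ k ∈ s, ‖a k (r θ)‖ ^ 2 := by positivity
    rw [ContinuousLinearMap.mul_apply]
    nlinarith [hn θ, sq_nonneg (t ^ 2 * ‖r θ‖)]
  · refine ContinuousLinearMap.opNorm_le_bound _ zero_le_one fun θ => ?_
    rw [hq, ContinuousLinearMap.smul_apply, norm_smul, Complex.norm_real,
      Real.norm_of_nonneg (by positivity), one_mul]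
    exact hr' θ
  · intro z hz
    have h1 : Commute A z := Commute.sum_left _ _ _ fun k hk => (hz k hk).2.mul_left (hz k hk).1
    have h2 : Commute B z := ((Commute.one_left z).smul_left _).add_left h1
    rw [← hb] at h2
    exact h1.mul_left h2.units_inv_left
  · intro k hk
    refine ContinuousLinearMap.opNorm_le_bound _ ht.le fun θ => ?_
    rw [hq, ContinuousLinearMap.mul_apply, ContinuousLinearMap.smul_apply, map_smul, norm_smul,
      Complex.norm_real, Real.norm_of_nonneg (by positivity)]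
    refine abs_le_of_sq_le_sq' ?_ (by positivity) |>.2
    have h1 : ‖a k (r θ)‖ ^ 2 ≤ ∑ k ∈ s, ‖a k (r θ)‖ ^ 2 :=
      Finset.single_le_sum (f := fun k => ‖a k (r θ)‖ ^ 2) (fun _ _ => by positivity) hk
    have h2 : t ^ 2 * ‖a k (r θ)‖ ^ 2 ≤ ‖θ‖ ^ 2 := by
      have h0 : 0 ≤ t ^ 2 * ∑ k ∈ s, ‖a k (r θ)‖ ^ 2 := by positivity
      have h3 := mul_le_mul_of_nonneg_left h1 (sq_nonneg t)
      nlinarith [hn θ, sq_nonneg (t ^ 2 * ‖r θ‖), sq_nonneg ‖A (r θ)‖]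
    calc (t ^ 2 * ‖a k (r θ)‖) ^ 2 = t ^ 2 * (t ^ 2 * ‖a k (r θ)‖ ^ 2) := by ring
      _ ≤ t ^ 2 * ‖θ‖ ^ 2 := by gcongr
      _ = _ := by ring
  · intro θ
    rw [le_div_iff₀ (by positivity), hAr.eq, ContinuousLinearMap.mul_apply, mul_comm]
    refine (hr' _).trans ?_
    rw [hA, ContinuousLinearMap.sum_apply]
    refine (norm_sum_le _ _).trans (Finset.sum_le_sum fun k _ => ?_)
    rw [ContinuousLinearMap.mul_apply]
    refine ((star (a k)).le_opNorm _).trans ?_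
    rw [norm_star]

theorem norm_unit {T : E →L[ℂ] E} (h : T ∈ unitary (E →L[ℂ] E)) (θ : E) : ‖T θ‖ = ‖θ‖ :=
  (ContinuousLinearMap.norm_map_iff_adjoint_comp_self T).2 h.1 θ

theorem norm_unit_le {T : E →L[ℂ] E} (h : T ∈ unitary (E →L[ℂ] E)) : ‖T‖ ≤ 1 :=
  ContinuousLinearMap.opNorm_le_bound _ zero_le_one fun θ => by rw [norm_unit h, one_mul]

section tw
variable {H : Type u} [NormedAddCommGroup H] [InnerProductSpace ℂ H] [CompleteSpace H]
  {M : VonNeumannAlgebra H} {ζ : H} {ι : Type} {lg : ℕ → Leg M ζ ι} (τ : Tw lg E)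

theorem Ca_star {P : VonNeumannAlgebra H} {T : E →L[ℂ] E} (h : τ.Ca P T) : τ.Ca P (star T) := by
  intro y hy
  have := (h (star y) (star_mem hy)).star_star
  rwa [← map_star, star_star] at this

theorem Cσ_star {m : ℕ} {T : E →L[ℂ] E} (h : τ.Cσ m T) : τ.Cσ m (star T) := by
  intro y
  have := (h (star y)).star_star
  rwa [← map_star, star_star] at this

/-- compression -/
noncomputable def cp (T : E →L[ℂ] E) : H →L[ℂ] H :=
  (ContinuousLinearMap.adjoint τ.V).comp (T.comp τ.V)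

theorem norm_V_le : ‖τ.V‖ ≤ 1 :=
  ContinuousLinearMap.opNorm_le_bound _ zero_le_one fun θ => by rw [τ.norm_V, one_mul]

theorem norm_adj (θ : E) : ‖ContinuousLinearMap.adjoint τ.V θ‖ ≤ ‖θ‖ := by
  refine ((ContinuousLinearMap.adjoint τ.V).le_opNorm θ).trans ?_
  rw [LinearIsometryEquiv.norm_map]
  exact mul_le_of_le_one_left (norm_nonneg _) (norm_V_le τ)

theorem norm_cp (T : E →L[ℂ] E) : ‖cp τ T‖ ≤ ‖T‖ := by
  refine ContinuousLinearMap.opNorm_le_bound _ (norm_nonneg _) fun ξ => ?_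
  refine (norm_adj τ (T (τ.V ξ))).trans ((T.le_opNorm _).trans ?_)
  rw [τ.norm_V]

theorem adj_V (ξ : H) : ContinuousLinearMap.adjoint τ.V (τ.V ξ) = ξ :=
  congrArg (fun T : H →L[ℂ] H => T ξ)
    ((ContinuousLinearMap.norm_map_iff_adjoint_comp_self τ.V).1 τ.norm_V)

theorem adj_am (y : H →L[ℂ] H) (θ : E) :
    ContinuousLinearMap.adjoint τ.V (τ.am y θ) = y (ContinuousLinearMap.adjoint τ.V θ) := by
  refine ext_inner_left ℂ fun ξ => ?_
  rw [ContinuousLinearMap.adjoint_inner_right, ← ContinuousLinearMap.adjoint_inner_left,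
    ← ContinuousLinearMap.adjoint_inner_left y, ContinuousLinearMap.adjoint_inner_right,
    ← ContinuousLinearMap.star_eq_adjoint, ← map_star, τ.am_V, ContinuousLinearMap.star_eq_adjoint]

theorem cp_mem {P : VonNeumannAlgebra H} {T : E →L[ℂ] E} (h : τ.Ca P T) : cp τ T ∈ P := by
  rw [← P.commutant_commutant, VonNeumannAlgebra.mem_commutant_iff]
  intro y hy
  ext ξ
  have := congrArg (fun S : E →L[ℂ] E => S (τ.V ξ)) (h y hy).eq
  simp only [ContinuousLinearMap.mul_apply] at this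
  simp only [cp, ContinuousLinearMap.mul_apply, ContinuousLinearMap.comp_apply]
  rw [← adj_am, ← this, τ.am_V]

end tw

end UndoX

open UndoX in
theorem walk {C₁ C₂ δ₀ : ℝ} (h1 : 1 ≤ C₁) (h2 : 0 ≤ C₂) (h0 : 0 < δ₀) (a : JobTOW.{u})
    (b : JobAVG.{u}) (c : JobTWA.{u}) (d : JobDRIFT.{u}) (e : LIFT.{u} C₁) (f : GOOD.{u} C₂ δ₀)
    (g : VV.{u} C₁) : ∃ C δ₁ : ℝ, 0 ≤ C ∧ 0 < δ₁ ∧ WALK.{u} C δ₁ := by
  refine ⟨4 * C₁ + C₂ + 8, min δ₀ (1 / (C₁ + C₂)), by positivity, by positivity, ?_⟩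
  intro H _ _ _ M N δ hδ hδ1 hMN hNM ζ ι _ lg ε hε hs hd hs2 Λ hΛ X' hX' η hη
  have hδ2 : (C₁ + C₂) * δ ≤ 1 := by
    have := hδ1.trans (min_le_right _ _)
    rwa [le_div_iff₀ (by positivity), mul_comm] at this
  have hC1 : C₁ * δ ≤ 1 := by nlinarith
  have hC2 : C₂ * δ ≤ 1 := by nlinarith
  obtain ⟨E, _, _, _, ⟨τ⟩⟩ := a H M ζ ι lg
  have api := c H M ζ ι lg E τ
  obtain ⟨φ, hφ, hφ'⟩ := f H M ζ ι lg E τ N δ hδ (hδ1.trans (min_le_left _ _)) hMN
  have av := fun n h => b E _ (τ.ρ n) ((lg n).ϑ h) (api.ϑ_uv n h)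
  set F : ℕ → ι → E →L[ℂ] E := fun n h => avg (τ.ρ n) ((lg n).ϑ h) (φ (n + 1)) with hF
  have F1 : ∀ n h, ‖F n h - τ.am ((lg n).sl h) * τ.G 0 n‖ ≤ C₂ * δ := by
    intro n h
    rw [← api.slice, ← (av n h).mul_right _ _ (api.G_Cρ 0 n n (.inr le_rfl)), ← api.G_succ,
      ← api.G_mul 0 n (n + 1) (Nat.zero_le _) (Nat.le_succ _), ← (av n h).sub]
    exact ((av n h).norm_le _).trans (hφ _).2.2
  have F2 : ∀ n h, ‖F n h‖ ≤ 2 := by
    intro n h
    refine ((av n h).norm_le _).trans ?_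
    have := norm_le_insert' (φ (n + 1)) (τ.G 0 (n + 1))
    linarith [(hφ (n + 1)).2.2, norm_unit_le (api.G_unit 0 (n + 1))]
  have F3 : ∀ n h, τ.Ca N (F n h) := fun n h y hy =>
    (av n h).keep _ _ (fun m => (τ.ρ_am n m y).symm) ((hφ _).1 y hy)
  have F4 : ∀ n h m, τ.Cσ m (F n h) := by
    intro n h m
    by_cases hm : m = n
    · rw [hm]; exact api.Cρ_Cσ _ _ ((av n h).comm _)
    · exact fun x => (av n h).keep _ _ (api.σ_Cρ m n hm x) ((hφ _).2.1 m x)
  set A : ℕ → (ι → ℂ) → E →L[ℂ] E := fun n lam => ∑ h, lam h • F n h with hA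
  have A1 : ∀ n lam, τ.Ca N (A n lam) := fun n lam y hy =>
    Commute.sum_left _ _ _ fun h _ => (F3 n h y hy).smul_left _
  have A2 : ∀ n lam m, τ.Cσ m (A n lam) := fun n lam m y =>
    Commute.sum_left _ _ _ fun h _ => (F4 n h m y).smul_left _
  have A3 : ∀ n lam, ‖A n lam‖ ≤ ∑ h, ‖lam h‖ * 2 := fun n lam =>
    (norm_sum_le _ _).trans (Finset.sum_le_sum fun h _ => by
      rw [norm_smul]; gcongr; exact F2 n h)
  obtain ⟨𝒰, h𝒰⟩ := exists_uf (p := fun n => (lg n).p) (fun n => (lg n).p_pos.le)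
    (fun n => (lg n).p_le) hs
  have A4 : ∀ lam ∈ Λ, ∀ ξ, Tendsto (fun n => ‖A n lam (τ.V ξ)‖) (𝒰 : Filter ℕ) (𝓝 0) := by
    intro lam hl ξ
    have := (h𝒰 (fun n => ‖A n lam (τ.V ξ)‖ ^ 2) (fun n => by positivity)
      (hφ' lam (hΛ lam hl) ξ)).sqrt
    simpa using this
  choose q q1 q2 q3 q4 q5 using fun n => reg Λ (A n) (η / 2) (by positivity)
  have q6 : ∀ n, τ.Ca N (q n) := fun n y hy =>
    q3 n _ fun lam _ => ⟨A1 n lam y hy, Ca_star τ (A1 n lam) y hy⟩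
  have q7 : ∀ n m, τ.Cσ m (q n) := fun n m y =>
    q3 n _ fun lam _ => ⟨A2 n lam m y, Cσ_star τ (A2 n lam m) y⟩
  have q8 : ∀ ξ, Tendsto (fun n => q n (τ.V ξ)) (𝒰 : Filter ℕ) (𝓝 0) := by
    intro ξ
    refine squeeze_zero_norm (a := fun n =>
      (∑ lam ∈ Λ, (∑ h, ‖lam h‖ * 2) * ‖A n lam (τ.V ξ)‖) / (η / 2) ^ 2) (fun n => ?_) ?_
    · refine (q5 n _).trans ?_
      gcongr with lam _
      exact A3 n lam
    · have := (tendsto_finsetSum Λ fun lam hl =>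
        (A4 lam hl ξ).const_mul (∑ h, ‖lam h‖ * 2)).div_const ((η / 2) ^ 2)
      simpa using this
  have am_le : ∀ x : H →L[ℂ] H, ‖τ.am x‖ ≤ ‖x‖ := fun x =>
    NonUnitalStarAlgHom.norm_apply_le τ.am x
  have dr : ∀ n, ∀ x' ∈ X', ‖star (τ.G 0 n) (τ.V (x' ζ)) - (τ.am x' * τ.Gp n) (τ.V ζ)‖ ≤
      2 * ε * ‖x'‖ := by
    intro n x' hx'
    have k1 := d H M ζ ι lg E τ n
    have k2 : √(∑ m ∈ Finset.range n, (lg m).s2) ≤ ε := Real.sqrt_le_iff.2 ⟨hε, hs2 n⟩
    have k3 := congrArg (fun S : E →L[ℂ] E => S (τ.V ζ))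
      (Ca_star τ (api.G_Ca 0 n) x' (hX' x' hx')).eq
    simp only [ContinuousLinearMap.mul_apply] at k3
    rw [← τ.am_V, k3, ContinuousLinearMap.mul_apply, ← map_sub]
    refine ((τ.am x').le_opNorm _).trans ?_
    rw [mul_comm]
    gcongr
    · linarith [hd n]
    · exact am_le x'
  have ev : ∀ᶠ n in (𝒰 : Filter ℕ), ∀ x' ∈ X', ‖q n ((τ.am x' * τ.Gp n) (τ.V ζ))‖ ≤
      C₁ * δ * (‖x' ζ‖ + 2 * ε * ‖x'‖) + η / 2 := by
    rw [eventually_all_finset]
    intro x' hx'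
    refine g H M ζ ι lg E τ N δ hδ hNM 𝒰 q (fun n => τ.am x' * τ.Gp n) ‖x'‖ _ (by positivity)
      (fun n => ⟨q1 n, q6 n, q7 n⟩) q8 (fun n => ⟨?_, ?_, ?_⟩) _ (by positivity)
    · exact Subalgebra.mul_mem _ (Algebra.subset_adjoin (.inl ⟨x', hX' x' hx', rfl⟩)) (api.Gp_mem n)
    · refine (norm_mul_le _ _).trans ?_
      exact (mul_le_of_le_one_right (norm_nonneg _) (norm_unit_le (api.Gp_unit n))).trans
        (am_le x')
    · have k1 := norm_le_insert (star (τ.G 0 n) (τ.V (x' ζ))) ((τ.am x' * τ.Gp n) (τ.V ζ))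
      rw [norm_unit (Unitary.star_mem (api.G_unit 0 n)), τ.norm_V] at k1
      linarith [dr n x' hx']
  obtain ⟨n, hn⟩ := ev.exists
  obtain ⟨w', hw1, hw2⟩ := e H M ζ ι lg E τ N M δ hδ hMN ∅ ∅ (by simp) 1 (fun _ => τ.G 0 n) 1
    zero_le_one (fun ξ => by simp [norm_unit (api.G_unit 0 n)])
    (fun _ => ⟨api.G_Ca 0 n, by simp, by simp⟩)
  set w := w' 0 with hw
  have w1 : ‖τ.G 0 n - w‖ ≤ C₁ * δ := by
    refine ContinuousLinearMap.opNorm_le_bound _ (by positivity) fun ξ => ?_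
    have := hw1 ξ
    simp only [Finset.univ_unique, Finset.sum_singleton, mul_one, ← mul_pow] at this
    exact (abs_le_of_sq_le_sq' this (by positivity)).2
  have w2 : ‖star w‖ ≤ 2 := by
    rw [norm_star]
    have := norm_le_insert (τ.G 0 n) w
    linarith [norm_unit_le (api.G_unit 0 n)]
  refine ⟨n, fun h => cp τ (F n h * (1 - q n) * star w), fun h => ⟨cp_mem τ fun y hy => ?_, ?_⟩,
    fun lam hl => ?_, fun h x' hx' => ?_⟩
  · exact ((F3 n h y hy).mul_left ((Commute.one_left _).sub_left (q6 n y hy))).mul_left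
      (Ca_star τ (hw2 0).1 y hy)
  · refine (norm_cp τ _).trans ((norm_mul_le _ _).trans ?_)
    have : ‖F n h * (1 - q n)‖ ≤ 2 := (norm_mul_le _ _).trans
      ((mul_le_of_le_one_right (norm_nonneg _) (q2 n)).trans (F2 n h))
    calc _ ≤ (2 : ℝ) * 2 := by gcongr
      _ = 4 := by norm_num
  · have : ∑ h, lam h • cp τ (F n h * (1 - q n) * star w) =
        cp τ (A n lam * (1 - q n) * star w) := by
      ext ξ
      simp [cp, hA, Finset.sum_mul]
    rw [this]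
    refine (norm_cp τ _).trans ((norm_mul_le _ _).trans ?_)
    calc _ ≤ η / 2 * 2 := by gcongr; exact q4 n lam hl
      _ = η := by ring
  · set θ := τ.V (x' ζ) with hθ
    set G := τ.G 0 n with hG
    have hθn : ‖θ‖ = ‖x' ζ‖ := τ.norm_V _
    have hGG : G (star G θ) = θ := by
      rw [← ContinuousLinearMap.mul_apply, (api.G_unit 0 n).2]; rfl
    have hid : (cp τ (F n h * (1 - q n) * star w) - (lg n).sl h) (x' ζ) =
        ContinuousLinearMap.adjoint τ.V ((F n h - τ.am ((lg n).sl h) * G) (star G θ) -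
          F n h ((1 - q n) (star (G - w) θ)) - F n h (q n (star G θ))) := by
      rw [ContinuousLinearMap.sub_apply, ← adj_V τ ((lg n).sl h (x' ζ)), ← τ.am_V, ← hθ, cp,
        ContinuousLinearMap.comp_apply, ContinuousLinearMap.comp_apply, ← hθ, ← map_sub]
      congr 1
      simp only [ContinuousLinearMap.mul_apply, ContinuousLinearMap.sub_apply, hGG, star_sub,
        map_sub, ContinuousLinearMap.one_apply]
      abel
    rw [hid]
    refine (norm_adj τ _).trans ((norm_sub_le _ _).trans ?_)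
    have k0 : ‖star G θ‖ = ‖x' ζ‖ := by
      rw [norm_unit (Unitary.star_mem (api.G_unit 0 n)), hθn]
    have k1 : ‖(F n h - τ.am ((lg n).sl h) * G) (star G θ)‖ ≤ C₂ * δ * ‖x' ζ‖ := by
      refine (ContinuousLinearMap.le_opNorm _ _).trans ?_
      rw [k0]
      gcongr
      exact F1 n h
    have k2 : ‖F n h ((1 - q n) (star (G - w) θ))‖ ≤ 2 * (C₁ * δ * ‖x' ζ‖) := by
      refine (ContinuousLinearMap.le_opNorm _ _).trans ?_
      gcongr
      · exact F2 n h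
      refine (ContinuousLinearMap.le_opNorm _ _).trans
        ((mul_le_of_le_one_left (norm_nonneg _) (q2 n)).trans ?_)
      refine (ContinuousLinearMap.le_opNorm _ _).trans ?_
      rw [norm_star, hθn]
      gcongr
    have k3 : ‖q n (star G θ)‖ ≤
        C₁ * δ * (‖x' ζ‖ + 2 * ε * ‖x'‖) + η / 2 + 2 * ε * ‖x'‖ := by
      have m1 := norm_le_insert' (q n (star G θ)) (q n ((τ.am x' * τ.Gp n) (τ.V ζ)))
      rw [← map_sub] at m1
      have m2 := ((q n).le_opNorm (star G θ - (τ.am x' * τ.Gp n) (τ.V ζ))).trans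
        (mul_le_of_le_one_left (norm_nonneg _) (q1 n))
      linarith [hn x' hx', dr n x' hx']
    have k4 : ‖F n h (q n (star G θ))‖ ≤ 2 * ‖q n (star G θ)‖ := by
      refine (ContinuousLinearMap.le_opNorm _ _).trans ?_
      gcongr
      exact F2 n h
    have k5 := norm_sub_le ((F n h - τ.am ((lg n).sl h) * G) (star G θ))
      (F n h ((1 - q n) (star (G - w) θ)))
    have k6 : C₁ * δ * (ε * ‖x'‖) ≤ ε * ‖x'‖ := mul_le_of_le_one_left (by positivity) hC1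
    have k7 : 0 ≤ δ * ‖x' ζ‖ := by positivity
    have k8 : 0 ≤ (4 * C₁ + C₂) * (ε * ‖x'‖) := by positivity
    nlinarith

end Crest.Agent.KN
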