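import Crest.Agent.KN.CUTa
import Crest.Agent.KN.CUTb
import Crest.Agent.KN.UNDO

/-! Row 78 (S0103), job CUT: cutting the infinite model down to finite legs. -/

set_option autoImplicit false
set_option linter.deprecated false
set_option linter.unusedSectionVars false
universe u

namespace Crest.Agent.KN

open scoped InnerProductSpace BigOperators ComplexConjugate
open Filter Topology Crest.Agent.KK

namespace CutX

variable {H : Type u} [NormedAddCommGroup H] [InnerProductSpace ℂ H] [CompleteSpace H]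

/-- first index -/
def e1 : ℤ × ℤ ≃+ ℤ × ℤ := AddEquiv.refl _
/-- second index -/
def e2 : ℤ × ℤ ≃+ ℤ × ℤ := AddEquiv.prodComm

theorem Ty.Fs (hP : PolyAPI (L2 (ℤ × ℤ) H)) {e : ℤ × ℤ ≃+ ℤ × ℤ} {F : Finset ℤ}
    {y : L2 (ℤ × ℤ) H →L[ℂ] L2 (ℤ × ℤ) H} (h : Ty e F y) (hy : IsSelfAdjoint y) (b : Bool) :
    Ty e F (Fs b y) :=
  ⟨fun k => hP.comm b y _ hy (h.1 k), fun m => hP.comm b y _ hy (h.2.1 m), hP.comm b y _ hy h.2.2⟩

theorem mat_unit (hP : PolyAPI (L2 (ℤ × ℤ) H)) {e : ℤ × ℤ ≃+ ℤ × ℤ} {F : Finset ℤ}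
    {y : L2 (ℤ × ℤ) H →L[ℂ] L2 (ℤ × ℤ) H} (h : Ty e F y) (hy : IsSelfAdjoint y) (hn : ‖y‖ ≤ 1 / 2)
    (b : Bool) : star (mat e F (Fs b y)) * mat e F (Fs b y) = 1 ∧
      mat e F (Fs b y) * star (mat e F (Fs b y)) = 1 := by
  rw [mat_star, hP.star_Fs b y hy, mat_mul e _ (h.Fs hP hy _), mat_mul e _ (h.Fs hP hy _),
    hP.mul_Fs b y hy hn]
  have := hP.mul_Fs (!b) y hy hn
  rw [Bool.not_not] at this
  rw [this]
  exact ⟨mat_one e F, mat_one e F⟩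

theorem norm_Fs (hP : PolyAPI (L2 (ℤ × ℤ) H)) {y : L2 (ℤ × ℤ) H →L[ℂ] L2 (ℤ × ℤ) H}
    (hy : IsSelfAdjoint y) (hn : ‖y‖ ≤ 1 / 2) (b : Bool) : ‖Fs b y‖ ≤ 1 := by
  refine UndoX.norm_unit_le ⟨?_, ?_⟩
  · have := hP.mul_Fs (!b) y hy hn
    rwa [Bool.not_not, ← hP.star_Fs b y hy] at this
  · rw [hP.star_Fs b y hy, hP.mul_Fs b y hy hn]

theorem two_act {F : Finset ℤ} {S T : L2 (ℤ × ℤ) H →L[ℂ] L2 (ℤ × ℤ) H} (hT : Ty e1 F T)
    (hS : Ty e2 F S) (k k' : F × F) (ξ : H) :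
    S (T (sg ((k'.1 : ℤ), (k'.2 : ℤ)) ξ)) ((k.1 : ℤ), (k.2 : ℤ)) =
      (mat e2 F S k.2 k'.2 * mat e1 F T k.1 k'.1) ξ := by
  have h1 := hT.act k'.1.2 k'.2 ξ
  have h2 := fun (n : ℤ) η => hS.act k'.2.2 n η
  change T (sg ((k'.1 : ℤ), (k'.2 : ℤ)) ξ) = ∑ n : F, sg ((n : ℤ), (k'.2 : ℤ)) _ at h1
  change ∀ (n : ℤ) η, S (sg (n, (k'.2 : ℤ)) η) = ∑ m : F, sg (n, (m : ℤ)) _ at h2
  rw [h1, map_sum, ← ev_apply, map_sum]
  simp only [h2, map_sum, ev_apply, sg_apply, Prod.mk.injEq]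
  rw [Finset.sum_eq_single k.1, Finset.sum_eq_single k.2]
  · rw [if_pos ⟨rfl, rfl⟩]; rfl
  · exact fun b _ hb => if_neg fun hh => hb (Subtype.ext hh.2.symm)
  · simp
  · exact fun b _ hb => Finset.sum_eq_zero fun _ _ => if_neg fun hh => hb (Subtype.ext hh.1.symm)
  · simp

variable {M : VonNeumannAlgebra H} {ζ : H} {ι : Type} {s : Sc} (δ : DMD M ζ ι s) (v : ℤ → ℝ)

/-- cut operators -/
noncomputable def yc (F : Finset ℤ) (i : ι) : L2 (ℤ × ℤ) H →L[ℂ] L2 (ℤ × ℤ) H :=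
  Qf e1 H F * δ.y i * Qf e1 H F
/-- cut partner operators -/
noncomputable def yc' (F : Finset ℤ) (i : ι) : L2 (ℤ × ℤ) H →L[ℂ] L2 (ℤ × ℤ) H :=
  Qf e2 H F * δ.y' i * Qf e2 H F

theorem y_eq (i : ι) : δ.y i = yy e1 s (δ.a i) := rfl
theorem y'_eq (i : ι) : δ.y' i = yy e2 s (δ.a' i) := rfl

theorem ty1 (F : Finset ℤ) (i : ι) : Ty e1 F (yc δ F i) := ty_cut e1 s (δ.a_le i) F
theorem ty2 (F : Finset ℤ) (i : ι) : Ty e2 F (yc' δ F i) := ty_cut e2 s (δ.a'_le i) F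

/-- the cut vacuum isometry -/
noncomputable def Wc (H : Type u) [NormedAddCommGroup H] [InnerProductSpace ℂ H] (s : Sc)
    (v : ℤ → ℝ) (F : Finset ℤ) : H →L[ℂ] L2 (ℤ × ℤ) H :=
  ∑ k : F × F, om s v F k • sg ((k.1 : ℤ), (k.2 : ℤ))

theorem Wc_on (F : Finset ℤ) (ξ : H) (k : F × F) :
    Wc H s v F ξ ((k.1 : ℤ), (k.2 : ℤ)) = om s v F k • ξ := by
  rw [Wc, sum_apply, ← ev_apply, map_sum, Finset.sum_eq_single k]
  · simp
  · intro b _ hb
    rw [smul_apply, map_smul, ev_apply, sg_apply_ne, smul_zero]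
    intro hh
    exact hb (Prod.ext (Subtype.ext (Prod.mk.inj hh).1.symm) (Subtype.ext (Prod.mk.inj hh).2.symm))
  · simp

theorem Wc_eq {B F : Finset ℤ} (hB : ∀ m, m ∉ B → v m = 0) (hF : B ⊆ F)
    {V : H →L[ℂ] L2 (ℤ × ℤ) H} (hV : IsVac s v V) (ξ : H) :
    Wc H s v F ξ = (((√(N2 s v F))⁻¹ : ℝ) : ℂ) • Qf e1 H F (V ξ) := by
  refine lp.ext (funext fun q => ?_)
  obtain ⟨n, m⟩ := q
  rw [lp.coeFn_smul, Pi.smul_apply, Qf_apply, hV]
  change _ = _ • if n ∈ F then _ else _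
  by_cases h : n ∈ F ∧ m ∈ F
  · refine (Wc_on v F ξ (⟨n, h.1⟩, ⟨m, h.2⟩)).trans ?_
    rw [if_pos h.1, smul_smul, om, div_eq_inv_mul]
    simp
  · have : Wc H s v F ξ (n, m) = 0 := by
      rw [Wc, sum_apply, ← ev_apply, map_sum]
      refine Finset.sum_eq_zero fun b _ => ?_
      rw [smul_apply, map_smul, ev_apply, sg_apply_ne, smul_zero]
      intro hh
      exact h ⟨(Prod.mk.inj hh).1 ▸ b.1.2, (Prod.mk.inj hh).2 ▸ b.2.2⟩
    rw [this]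
    split_ifs with h1
    · simp [hB m fun h2 => h ⟨h1, hF h2⟩]
    · simp

theorem Wc_adj {B F : Finset ℤ} (hB : ∀ m, m ∉ B → v m = 0) (hF : B ⊆ F)
    {V : H →L[ℂ] L2 (ℤ × ℤ) H} (hV : IsVac s v V) (X : L2 (ℤ × ℤ) H) :
    ∑ k : F × F, conj (om s v F k) • X ((k.1 : ℤ), (k.2 : ℤ)) =
      (((√(N2 s v F))⁻¹ : ℝ) : ℂ) • ContinuousLinearMap.adjoint V (Qf e1 H F X) := by
  refine ext_inner_left ℂ fun ξ => ?_
  have h1 : ⟪Wc H s v F ξ, X⟫_ℂ = ⟪ξ, ∑ k : F × F, conj (om s v F k) • X (k.1, k.2)⟫_ℂ := by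
    simp only [Wc, sum_apply, smul_apply, sum_inner, inner_sum, inner_smul_left,
      inner_smul_right, inner_sg_left]
  rw [← h1, Wc_eq v hB hF hV, inner_smul_left, inner_smul_right, Complex.conj_ofReal,
    ContinuousLinearMap.adjoint_inner_right, ← ContinuousLinearMap.adjoint_inner_right,
    ← ContinuousLinearMap.star_eq_adjoint, (Qf_sa (H := H) e1 F).star_eq]

variable (hP : PolyAPI (L2 (ℤ × ℤ) H))
  (hy : ∀ i, IsSelfAdjoint (δ.y i) ∧ ‖δ.y i‖ ≤ 1 / 2 ∧ IsSelfAdjoint (δ.y' i) ∧ ‖δ.y' i‖ ≤ 1 / 2)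

include hy in
theorem yc_p (F : Finset ℤ) (i : ι) : IsSelfAdjoint (yc δ F i) ∧ ‖yc δ F i‖ ≤ 1 / 2 ∧
    IsSelfAdjoint (yc' δ F i) ∧ ‖yc' δ F i‖ ≤ 1 / 2 :=
  ⟨cut_sa _ _ (hy i).1, (cut_norm _ _ _).trans (hy i).2.1, cut_sa _ _ (hy i).2.2.1,
    (cut_norm _ _ _).trans (hy i).2.2.2⟩

/-- the defect vector -/
noncomputable def Xc (F : Finset ℤ) (h : ι × Bool) : L2 (ℤ × ℤ) H :=
  Fs h.2 (yc' δ F h.1) (Fs (!h.2) (yc δ F h.1) (Wc H s v F ζ)) - Wc H s v F ζ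

variable (hv : ∀ m ∈ s.μ.support, 0 < v m) (F : Finset ℤ) (hF : s.μ.support ⊆ F)
  (hN : 0 < N2 s v F) (hu : 0 < u2 s F)

/-- the finite legs -/
noncomputable def pl : PreLeg M ζ (ι × Bool) where
  I := F
  J := F
  ω := om s v F
  ω_uv := om_uv s v F hN
  U h := mat e1 F (Fs h.2 (yc δ F h.1))
  U_mem h _ _ := ent_mem e1 M (fun _ hx => hP.comm _ _ _ (yc_p δ hy F h.1).1
    (comm_cut_const e1 s (δ.a_le h.1) F M (δ.a_mem h.1) hx)) _ _
  U_l h := (mat_unit hP (ty1 δ F h.1) (yc_p δ hy F h.1).1 (yc_p δ hy F h.1).2.1 _).1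
  U_r h := (mat_unit hP (ty1 δ F h.1) (yc_p δ hy F h.1).1 (yc_p δ hy F h.1).2.1 _).2
  U' h := mat e2 F (Fs (!h.2) (yc' δ F h.1))
  U'_mem h _ _ := ent_mem e2 M.commutant (fun _ hx => hP.comm _ _ _ (yc_p δ hy F h.1).2.2.1
    (comm_cut_const e2 s (δ.a'_le h.1) F M.commutant (δ.a'_mem h.1) hx)) _ _
  U'_l h := (mat_unit hP (ty2 δ F h.1) (yc_p δ hy F h.1).2.2.1 (yc_p δ hy F h.1).2.2.2 _).1
  U'_r h := (mat_unit hP (ty2 δ F h.1) (yc_p δ hy F h.1).2.2.1 (yc_p δ hy F h.1).2.2.2 _).2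
  p := u2 s F / (K2 s v * N2 s v F)
  p_pos := div_pos hu (mul_pos (K2_pos s v hv) hN)
  p_le := p_le_one (div_pos hu (mul_pos (K2_pos s v hv) hN)).le (om_uv s v F hN) (uu_uv s F hu)
    (gg_uv s v hv F hF) (slot_eq s v hv F hF hN hu)
  u := uu s F
  g := gg s v F
  u_uv := uu_uv s F hu
  g_uv := gg_uv s v hv F hF
  slot := slot_eq s v hv F hF hN hu

theorem pl_Z (h : ι × Bool) (k : F × F) :
    ((pl δ v hP hy hv F hF hN hu).leg h).Z k = Xc δ v F h ((k.1 : ℤ), (k.2 : ℤ)) := by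
  have hp := yc_p δ hy F h.1
  change ∑ k' : F × F, om s v F k' • (star (mat e2 F (Fs (!h.2) (yc' δ F h.1))) k.2 k'.2 *
    star (mat e1 F (Fs h.2 (yc δ F h.1))) k.1 k'.1) ζ - om s v F k • ζ = _
  rw [mat_star, mat_star, hP.star_Fs _ _ hp.1, hP.star_Fs _ _ hp.2.2.1, Bool.not_not, Xc,
    lp.coeFn_sub, Pi.sub_apply, Wc_on]
  congr 1
  rw [Wc, sum_apply, map_sum, map_sum, ← ev_apply, map_sum]
  refine Finset.sum_congr rfl fun k' _ => ?_
  rw [smul_apply, map_smul, map_smul, map_smul, ev_apply,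
    two_act ((ty1 δ F h.1).Fs hP hp.1 _) ((ty2 δ F h.1).Fs hP hp.2.2.1 _)]

theorem pl_s2 (h : ι × Bool) : ((pl δ v hP hy hv F hF hN hu).leg h).s2 ≤ ‖Xc δ v F h‖ ^ 2 := by
  change ∑ k : F × F, ‖((pl δ v hP hy hv F hF hN hu).leg h).Z k‖ ^ 2 ≤ _
  simp only [pl_Z]
  have := lp.sum_rpow_le_norm_rpow (by norm_num) (Xc δ v F h)
    (Finset.univ.map ⟨fun k : F × F => ((k.1 : ℤ), (k.2 : ℤ)), fun a b hh =>
      Prod.ext (Subtype.ext (Prod.mk.inj hh).1) (Subtype.ext (Prod.mk.inj hh).2)⟩)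
  rw [Finset.sum_map] at this
  simpa using this

theorem pl_d (h : ι × Bool) {B : Finset ℤ} (hB : ∀ m, m ∉ B → v m = 0) (hBF : B ⊆ F)
    {V : H →L[ℂ] L2 (ℤ × ℤ) H} (hV : IsVac s v V) : ((pl δ v hP hy hv F hF hN hu).leg h).d =
      ‖(((√(N2 s v F))⁻¹ : ℝ) : ℂ) • ContinuousLinearMap.adjoint V (Qf e1 H F (Xc δ v F h))‖ := by
  change ‖∑ k : F × F, conj (om s v F k) • ((pl δ v hP hy hv F hF hN hu).leg h).Z k‖ = _
  simp only [pl_Z]
  rw [Wc_adj v hB hBF hV]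

theorem pl_sl (i : ι) : ((pl δ v hP hy hv F hF hN hu).leg (i, true)).sl () +
    ((pl δ v hP hy hv F hF hN hu).leg (i, false)).sl () =
      (2 : ℂ) • ∑' n, ((‖cc s F n‖ ^ 2 : ℝ) : ℂ) • δ.a i n := by
  change ∑ j : F, ∑ j' : F, (conj (uu s F j) * uu s F j') • ent e1 (Fs true (yc δ F i)) j j' +
    ∑ j : F, ∑ j' : F, (conj (uu s F j) * uu s F j') • ent e1 (Fs false (yc δ F i)) j j' = _
  have h1 : ∀ j j' : F, ent e1 (Fs true (yc δ F i)) j j' + ent e1 (Fs false (yc δ F i)) j j' =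
      (2 : ℂ) • ent e1 (δ.y i) j j' := by
    intro j j'
    rw [← ent_cut e1 F (δ.y i), ent, ent, ← ContinuousLinearMap.comp_add,
      ← ContinuousLinearMap.add_comp, hP.add_Fs, ent, ContinuousLinearMap.smul_comp,
      ContinuousLinearMap.comp_smul]
    rfl
  simp only [← Finset.sum_add_distrib, ← smul_add, h1, smul_comm _ (2 : ℂ), ← Finset.smul_sum]
  congr 1
  ext ξ
  have h2 : Summable fun n => ((‖cc s F n‖ ^ 2 : ℝ) : ℂ) • δ.a i n := by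
    refine Summable.of_norm_bounded ((cc_sum s F hu).1.mul_right (1 / 2)) fun n => ?_
    rw [norm_smul, Complex.norm_real, Real.norm_of_nonneg (by positivity)]
    gcongr
    exact δ.a_le i n
  have h3 := h2.hasSum.mapL (ContinuousLinearMap.apply ℂ _ ξ)
  have h4 := hasSum_sum fun (j : F) (_ : j ∈ Finset.univ) => hasSum_sum
    fun (j' : F) (_ : j' ∈ Finset.univ) =>
      (yy_ent e1 s (δ.a_le i) j j' ξ).const_smul (conj (uu s F j) * uu s F j')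
  simp only [smul_smul, ← Finset.sum_smul, cc_coef] at h4
  simp only [sum_apply, smul_apply]
  exact h4.unique h3

end CutX

open CutX in
theorem jobCUT (h : JobPOLY.{u}) : JobCUT.{u} := by
  intro H _ _ _ M ζ ι _ s δ hy v B V hB hB1 hv hV A η hη
  have hP := h (L2 (ℤ × ℤ) H)
  let F : ℕ → Finset ℤ := fun R => Finset.Icc (-(R : ℤ)) R
  have hF : Tendsto F atTop atTop := by
    refine tendsto_atTop_finset_of_monotone (fun a b hab => ?_) fun x => ⟨x.natAbs, ?_⟩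
    · exact Finset.Icc_subset_Icc (by omega) (by omega)
    · simp only [F, Finset.mem_Icc]; omega
  have hK := K2_pos s v hv
  have tN := N2_tendsto s v hF B hB hB1
  have tu := u2_tendsto s hF
  have tc : Tendsto (fun R => (((√(N2 s v (F R)))⁻¹ : ℝ) : ℂ)) atTop (𝓝 1) := by
    have := (Complex.continuous_ofReal.tendsto _).comp (tN.sqrt.inv₀ (by simp))
    simpa [Function.comp_def] using this
  have tW : Tendsto (fun R => Wc H s v (F R) ζ) atTop (𝓝 (V ζ)) := by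
    have := tc.smul (Qf_tendsto e1 F hF (V ζ))
    rw [one_smul] at this
    refine this.congr' ?_
    filter_upwards [hF.eventually_ge_atTop B] with R hR
    exact (Wc_eq v hB hR hV ζ).symm
  have tX : ∀ h : ι × Bool, Tendsto (fun R => Xc δ v (F R) h) atTop (𝓝 (δ.df h.1 h.2 (V ζ))) := by
    intro h
    have hp := fun R => yc_p δ hy (F R) h.1
    exact (st_apply (fun R => norm_Fs hP (hp R).2.2.1 (hp R).2.2.2 _)
      (hP.strong h.2 _ _ (fun R => (hp R).2.2.1) (fun R => (hp R).2.2.2) (hy _).2.2.1 (hy _).2.2.2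
        (cut_tendsto e2 F hF _))
      (st_apply (fun R => norm_Fs hP (hp R).1 (hp R).2.1 _)
        (hP.strong (!h.2) _ _ (fun R => (hp R).1) (fun R => (hp R).2.1) (hy _).1 (hy _).2.1
          (cut_tendsto e1 F hF _)) tW)).sub tW
  have td : ∀ h : ι × Bool, Tendsto (fun R => ‖(((√(N2 s v (F R)))⁻¹ : ℝ) : ℂ) •
      ContinuousLinearMap.adjoint V (Qf e1 H (F R) (Xc δ v (F R) h))‖) atTop
      (𝓝 ‖ContinuousLinearMap.adjoint V (δ.df h.1 h.2 (V ζ))‖) := by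
    intro h
    have := (tc.smul (((ContinuousLinearMap.adjoint V).continuous.tendsto _).comp
      (st_apply (T₀ := 1) (fun _ => norm_Qf e1 _) (Qf_tendsto e1 F hF) (tX h)))).norm
    rwa [one_smul] at this
  have tp : Tendsto (fun R => u2 s (F R) / (K2 s v * N2 s v (F R))) atTop
      (𝓝 ((∑' k, ‖s.u k‖ ^ 2) / K2 s v)) := by
    have := tu.div (tN.const_mul (K2 s v)) (by simpa using hK.ne')
    rwa [mul_one] at this
  have ev1 := hF.eventually_ge_atTop B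
  have ev2 := tN.eventually (lt_mem_nhds one_pos)
  have ev3 := tu.eventually (lt_mem_nhds (u_pos s))
  have ev4 := (Metric.tendsto_nhds.1 tp) η hη
  have ev5 := eventually_all.2 fun h =>
    (((tX h).norm.pow 2).eventually (gt_mem_nhds (lt_add_of_pos_right _ hη))).and
      ((td h).eventually (gt_mem_nhds (lt_add_of_pos_right _ hη)))
  have ev6 := (eventually_all_finset A).2 fun n _ =>
    (Metric.tendsto_nhds.1 (cc_tendsto s hF n)) η hη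
  obtain ⟨R, h1, h2, h3, h4, h5, h6⟩ :=
    (ev1.and (ev2.and (ev3.and (ev4.and (ev5.and ev6))))).exists
  have hsupp : s.μ.support ⊆ F R := fun m hm =>
    h1 (by_contra fun hm' => (hv m hm).ne' (hB m hm'))
  refine ⟨pl δ v hP hy hv (F R) hsupp h2 h3, h4.le, fun h => ⟨?_, ?_⟩,
    fun n => ‖cc s (F R) n‖ ^ 2, fun _ => by positivity, (cc_sum s _ h3).1, (cc_sum s _ h3).2,
    fun n hn => (h6 n hn).le, pl_sl δ v hP hy hv (F R) hsupp h2 h3⟩
  · exact (pl_s2 δ v hP hy hv (F R) hsupp h2 h3 h).trans (h5 h).1.le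
  · rw [pl_d δ v hP hy hv (F R) hsupp h2 h3 h hB h1 hV]
    exact (h5 h).2.le

end Crest.Agent.KN
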