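import Crest.Agent.KN.Defs2

/-! Row 78 (S0103), job CUT: operators acting on one index of `ℓ²(ℤ × ℤ, H)`. -/

set_option autoImplicit false
set_option linter.deprecated false
set_option linter.unusedSectionVars false
universe u

namespace Crest.Agent.KN.CutX

open scoped InnerProductSpace BigOperators ComplexConjugate
open Filter Topology Crest.Agent.KK

variable {H : Type u} [NormedAddCommGroup H] [InnerProductSpace ℂ H] [CompleteSpace H]

theorem sh_sg (k x : ℤ × ℤ) (v : H) : sh H k (sg x v) = sg (x + k) v :=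
  wp_sg _ (bdd_const 1) x v

theorem sh_apply (k : ℤ × ℤ) (θ : L2 (ℤ × ℤ) H) (y : ℤ × ℤ) : sh H k θ y = θ (y - k) := by
  rw [sh, wp_apply _ (bdd_const 1), sub_eq_add_neg]; rfl

theorem norm_sh (k : ℤ × ℤ) : ‖sh H k‖ ≤ 1 :=
  norm_wp_le _ zero_le_one fun _ => ContinuousLinearMap.norm_id_le

theorem dg_sg {d : ℤ × ℤ → H →L[ℂ] H} (h : Bdd d) (x : ℤ × ℤ) (v : H) :
    dg d (sg x v) = sg x (d x v) := wp_sg _ h x v

theorem dg_apply {d : ℤ × ℤ → H →L[ℂ] H} (h : Bdd d) (θ : L2 (ℤ × ℤ) H) (y : ℤ × ℤ) :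
    dg d θ y = d y (θ y) := wp_apply _ h θ y

theorem comm_sh_sh (k k' : ℤ × ℤ) : Commute (sh H k) (sh H k') :=
  ext_sg fun x v => by simp only [mul_apply_eq_comp, sh_sg, add_right_comm]

theorem comm_sh_dg {d : ℤ × ℤ → H →L[ℂ] H} (h : Bdd d) (k : ℤ × ℤ) (hk : ∀ x, d (x + k) = d x) :
    Commute (sh H k) (dg d) :=
  ext_sg fun x v => by simp only [mul_apply_eq_comp, sh_sg, dg_sg h, hk]

theorem comm_dg_dg {d d' : ℤ × ℤ → H →L[ℂ] H} (h : Bdd d) (h' : Bdd d')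
    (hc : ∀ x, Commute (d x) (d' x)) : Commute (dg d) (dg d') :=
  ext_sg fun x v => by
    simp only [mul_apply_eq_comp, dg_sg h, dg_sg h']
    rw [← mul_apply_eq_comp, (hc x).eq, mul_apply_eq_comp]

/-- indicator family -/
noncomputable def ind (p : ℤ × ℤ → Prop) [DecidablePred p] (q : ℤ × ℤ) : H →L[ℂ] H :=
  if p q then 1 else 0

theorem norm_ind (p : ℤ × ℤ → Prop) [DecidablePred p] (q : ℤ × ℤ) : ‖(ind p q : H →L[ℂ] H)‖ ≤ 1 := by
  unfold ind
  split_ifs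
  · exact ContinuousLinearMap.norm_id_le
  · simp

theorem bdd_ind (p : ℤ × ℤ → Prop) [DecidablePred p] : Bdd (ind p : _ → H →L[ℂ] H) :=
  ⟨1, norm_ind p⟩

theorem ind_comm (p : ℤ × ℤ → Prop) [DecidablePred p] (q : ℤ × ℤ) (T : H →L[ℂ] H) :
    Commute (ind p q) T := by
  unfold ind
  split_ifs
  exacts [Commute.one_left _, Commute.zero_left _]

theorem ind_apply (p : ℤ × ℤ → Prop) [DecidablePred p] (q : ℤ × ℤ) (v : H) :
    (ind p q : H →L[ℂ] H) v = if p q then v else 0 := by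
  unfold ind
  split_ifs <;> rfl

variable (e : ℤ × ℤ ≃+ ℤ × ℤ)

/-- projection on a value of the second index -/
noncomputable def Pm (H : Type u) [NormedAddCommGroup H] [InnerProductSpace ℂ H] [CompleteSpace H]
    (m : ℤ) : L2 (ℤ × ℤ) H →L[ℂ] L2 (ℤ × ℤ) H := dg (ind fun q => (e.symm q).2 = m)

/-- projection on finitely many values of the first index -/
noncomputable def Qf (H : Type u) [NormedAddCommGroup H] [InnerProductSpace ℂ H] [CompleteSpace H]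
    (F : Finset ℤ) : L2 (ℤ × ℤ) H →L[ℂ] L2 (ℤ × ℤ) H := dg (ind fun q => (e.symm q).1 ∈ F)

theorem Qf_apply (F : Finset ℤ) (θ : L2 (ℤ × ℤ) H) (q : ℤ × ℤ) :
    Qf e H F θ q = if (e.symm q).1 ∈ F then θ q else 0 := by
  rw [Qf, dg_apply (bdd_ind _), ind_apply]

theorem Qf_sg (F : Finset ℤ) {n : ℤ} (hn : n ∈ F) (m : ℤ) (v : H) :
    Qf e H F (sg (e (n, m)) v) = sg (e (n, m)) v := by
  rw [Qf, dg_sg (bdd_ind _), ind_apply, if_pos (by simpa using hn)]

theorem norm_Qf (F : Finset ℤ) : ‖Qf e H F‖ ≤ 1 := norm_wp_le _ zero_le_one (norm_ind _)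

theorem Qf_sa (F : Finset ℤ) : IsSelfAdjoint (Qf e H F) := by
  rw [IsSelfAdjoint, Qf, star_wp _ (bdd_ind _)]
  congr 1
  funext q
  simp only [ind, inv_one, Equiv.Perm.coe_one, id]
  split_ifs <;> simp

theorem Qf_tendsto (F : ℕ → Finset ℤ) (hF : Tendsto F atTop atTop) (θ : L2 (ℤ × ℤ) H) :
    Tendsto (fun R => Qf e H (F R) θ) atTop (𝓝 θ) := by
  rw [Metric.tendsto_nhds]
  intro ε hε
  obtain ⟨s, hs⟩ := ((hasSum_sg θ).eventually (Metric.ball_mem_nhds θ (half_pos hε))).exists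
  filter_upwards [hF.eventually_ge_atTop (s.image fun q => (e.symm q).1)] with R hR
  set θ' : L2 (ℤ × ℤ) H := ∑ x ∈ s, sg x (θ x) with hθ'
  have h1 : Qf e H (F R) θ' = θ' := by
    rw [hθ', map_sum]
    refine Finset.sum_congr rfl fun x hx => ?_
    have := Qf_sg e (F R) (hR (Finset.mem_image_of_mem _ hx)) (e.symm x).2 (θ x)
    simpa using this
  rw [dist_eq_norm] at hs ⊢
  have h2 : Qf e H (F R) θ - θ = (θ' - θ) - Qf e H (F R) (θ' - θ) := by
    rw [map_sub, h1]; abel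
  have h3 := ((Qf e H (F R)).le_opNorm (θ' - θ)).trans
    (mul_le_of_le_one_left (norm_nonneg _) (norm_Qf e (F R)))
  rw [h2]
  linarith [norm_sub_le (θ' - θ) (Qf e H (F R) (θ' - θ))]

/-- entries -/
noncomputable def ent (T : L2 (ℤ × ℤ) H →L[ℂ] L2 (ℤ × ℤ) H) (n n' : ℤ) : H →L[ℂ] H :=
  ev (e (n, 0)) ∘L T ∘L sg (e (n', 0))

theorem ent_apply (T : L2 (ℤ × ℤ) H →L[ℂ] L2 (ℤ × ℤ) H) (n n' : ℤ) (v : H) :
    ent e T n n' v = T (sg (e (n', 0)) v) (e (n, 0)) := rfl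

/-- operators acting on the first index and preserving `F` -/
def Ty (F : Finset ℤ) (T : L2 (ℤ × ℤ) H →L[ℂ] L2 (ℤ × ℤ) H) : Prop :=
  (∀ k, Commute (sh H (e (0, k))) T) ∧ (∀ m, Commute (Pm e H m) T) ∧ Commute (Qf e H F) T

variable {e}

theorem Ty.act {F : Finset ℤ} {T : L2 (ℤ × ℤ) H →L[ℂ] L2 (ℤ × ℤ) H} (h : Ty e F T) {n' : ℤ}
    (hn : n' ∈ F) (m : ℤ) (v : H) :
    T (sg (e (n', m)) v) = ∑ n : F, sg (e (n, m)) (ent e T n n' v) := by
  refine lp.ext (funext fun q => ?_)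
  obtain ⟨⟨n₀, m₀⟩, rfl⟩ := e.surjective q
  rw [← ev_apply (e (n₀, m₀)) (∑ n : F, _), map_sum]
  simp only [ev_apply, sg_apply, EmbeddingLike.apply_eq_iff_eq, Prod.mk.injEq]
  by_cases h1 : m₀ = m
  · subst h1
    by_cases h2 : n₀ ∈ F
    · rw [Finset.sum_eq_single ⟨n₀, h2⟩ (fun b _ hb => if_neg fun hh => hb (Subtype.ext hh.1.symm))
        (by simp), if_pos ⟨rfl, rfl⟩]
      have := congrArg (fun S => S (sg (e (n', 0)) v) (e (n₀, m₀))) (h.1 m₀).eq
      simp only [mul_apply_eq_comp, sh_sg, sh_apply, ← map_add, ← map_sub, Prod.mk_add_mk,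
        Prod.mk_sub_mk, add_zero, zero_add, sub_zero, sub_self] at this
      rw [ent_apply, this]
    · have := congrArg (fun S => S (sg (e (n', m₀)) v) (e (n₀, m₀))) h.2.2.eq
      simp only [mul_apply_eq_comp, Qf_sg e F hn, Qf_apply, AddEquiv.symm_apply_apply, h2,
        if_false] at this
      rw [← this]
      refine (Finset.sum_eq_zero fun b _ => if_neg ?_).symm
      rintro ⟨rfl, -⟩
      exact h2 b.2
  · have := congrArg (fun S => S (sg (e (n', m)) v) (e (n₀, m₀))) (h.2.1 m).eq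
    simp only [mul_apply_eq_comp, Pm, dg_apply (bdd_ind _), dg_sg (bdd_ind _), ind_apply,
      AddEquiv.symm_apply_apply, h1, if_false, if_true] at this
    rw [← this]
    exact (Finset.sum_eq_zero fun b _ => if_neg fun hh => h1 hh.2).symm

variable (e)

/-- the matrix of an operator -/
noncomputable def mat (F : Finset ℤ) (T : L2 (ℤ × ℤ) H →L[ℂ] L2 (ℤ × ℤ) H) :
    Matrix F F (H →L[ℂ] H) := fun i i' => ent e T i i'

theorem mat_mul {F : Finset ℤ} (T : L2 (ℤ × ℤ) H →L[ℂ] L2 (ℤ × ℤ) H)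
    {S : L2 (ℤ × ℤ) H →L[ℂ] L2 (ℤ × ℤ) H} (h : Ty e F S) :
    mat e F T * mat e F S = mat e F (T * S) := by
  ext i i' v
  rw [Matrix.mul_apply, mat, ent_apply, mul_apply_eq_comp, h.act i'.2, map_sum, ← ev_apply,
    map_sum, sum_apply]
  rfl

theorem mat_one (F : Finset ℤ) : mat e F (1 : L2 (ℤ × ℤ) H →L[ℂ] L2 (ℤ × ℤ) H) = 1 := by
  ext i i' v
  rw [mat, ent_apply, one_apply_eq_self, sg_apply, Matrix.one_apply]
  by_cases h : i = i'
  · simp [h]
  · rw [if_neg h, if_neg fun hh => h (Subtype.ext (Prod.mk.inj (e.injective hh)).1)]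
    rfl

theorem mat_star (F : Finset ℤ) (T : L2 (ℤ × ℤ) H →L[ℂ] L2 (ℤ × ℤ) H) :
    star (mat e F T) = mat e F (star T) := by
  ext i i' v
  refine ext_inner_left ℂ fun w => ?_
  rw [Matrix.star_apply, ContinuousLinearMap.star_eq_adjoint,
    ContinuousLinearMap.adjoint_inner_right, mat, mat, ent_apply, ent_apply, ← inner_sg_left,
    ← inner_sg_right, ContinuousLinearMap.star_eq_adjoint, ContinuousLinearMap.adjoint_inner_right]

theorem ent_mem (P : VonNeumannAlgebra H) {T : L2 (ℤ × ℤ) H →L[ℂ] L2 (ℤ × ℤ) H}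
    (h : ∀ x ∈ P.commutant, Commute (dg fun _ => x) T) (n n' : ℤ) : ent e T n n' ∈ P := by
  rw [← P.commutant_commutant, VonNeumannAlgebra.mem_commutant_iff]
  intro x hx
  ext v
  have := congrArg (fun S => S (sg (e (n', 0)) v) (e (n, 0))) (h x hx).eq
  simp only [mul_apply_eq_comp, dg_apply (bdd_const _), dg_sg (bdd_const _)] at this
  exact this

/-- convolution -/
noncomputable def bo (H : Type u) [NormedAddCommGroup H] [InnerProductSpace ℂ H] (s : Sc) :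
    L2 (ℤ × ℤ) H →L[ℂ] L2 (ℤ × ℤ) H := ∑' k : ℤ, (s.bb k : ℂ) • sh H (e (k, 0))

theorem bo_hasSum (s : Sc) : HasSum (fun k : ℤ => (s.bb k : ℂ) • sh H (e (k, 0))) (bo e H s) := by
  refine Summable.hasSum (Summable.of_norm_bounded s.bb_sum.summable fun k => ?_)
  rw [norm_smul, Complex.norm_real, Real.norm_of_nonneg (s.bb_nonneg k)]
  exact mul_le_of_le_one_right (s.bb_nonneg k) (norm_sh _)

theorem bo_sg (s : Sc) (n m : ℤ) (v : H) :
    HasSum (fun k : ℤ => (s.bb (k - n) : ℂ) • (sg (e (k, m)) v : L2 (ℤ × ℤ) H))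
      (bo e H s (sg (e (n, m)) v)) := by
  have := (bo_hasSum (H := H) e s).mapL (ContinuousLinearMap.apply ℂ _ (sg (e (n, m)) v))
  simp only [ContinuousLinearMap.apply_apply, smul_apply, sh_sg, ← map_add, Prod.mk_add_mk,
    add_zero] at this
  rw [← (Equiv.subRight n).hasSum_iff] at this
  simpa [Function.comp_def] using this

theorem bo_ent (s : Sc) (n k : ℤ) (v : H) :
    bo e H s (sg (e (k, 0)) v) (e (n, 0)) = (s.bb (n - k) : ℂ) • v := by
  have := (bo_sg e s k 0 v).mapL (ev (e (n, 0)))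
  refine this.unique ?_
  convert hasSum_single n (fun j hj => ?_) using 1
  · simp
  · rw [map_smul, ev_apply, sg_apply_ne (by simpa using hj.symm), smul_zero]

/-- the band operator -/
noncomputable def yy (s : Sc) (a : ℤ → H →L[ℂ] H) : L2 (ℤ × ℤ) H →L[ℂ] L2 (ℤ × ℤ) H :=
  bo e H s * dg (fun q => a (e.symm q).1) * bo e H s

theorem yy_ent (s : Sc) {a : ℤ → H →L[ℂ] H} (ha : ∀ n, ‖a n‖ ≤ 1 / 2) (n n' : ℤ) (v : H) :
    HasSum (fun k : ℤ => ((s.bb (k - n') : ℂ) * s.bb (n - k)) • a k v) (ent e (yy e s a) n n' v) := by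
  have hb : Bdd fun q => a (e.symm q).1 := ⟨_, fun q => ha _⟩
  have := (bo_sg e s n' 0 v).mapL (ev (e (n, 0)) ∘L bo e H s ∘L dg (fun q => a (e.symm q).1))
  simp only [ContinuousLinearMap.comp_apply, map_smul, dg_sg hb, AddEquiv.symm_apply_apply,
    ev_apply, bo_ent, smul_smul] at this
  exact this

theorem comm_cut (s : Sc) (a : ℤ → H →L[ℂ] H) (F : Finset ℤ)
    {T : L2 (ℤ × ℤ) H →L[ℂ] L2 (ℤ × ℤ) H} (h1 : ∀ k, Commute T (sh H (e (k, 0))))
    (h2 : Commute T (dg (fun q => a (e.symm q).1))) (h3 : Commute T (Qf e H F)) :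
    Commute T (Qf e H F * yy e s a * Qf e H F) := by
  have hb : Commute T (bo e H s) := Commute.tsum_right _ fun k => (h1 k).smul_right _
  exact (h3.mul_right ((hb.mul_right h2).mul_right hb)).mul_right h3

theorem Qf_idem (F : Finset ℤ) : Qf e H F * Qf e H F = Qf e H F :=
  ext_sg fun x v => by
    simp only [mul_apply_eq_comp, Qf, dg_sg (bdd_ind _), ind_apply]
    split_ifs <;> rfl

theorem ty_cut (s : Sc) {a : ℤ → H →L[ℂ] H} (ha : ∀ n, ‖a n‖ ≤ 1 / 2) (F : Finset ℤ) :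
    Ty e F (Qf e H F * yy e s a * Qf e H F) := by
  have hb : Bdd fun q => a (e.symm q).1 := ⟨_, fun q => ha _⟩
  refine ⟨fun k => comm_cut e s a F (fun _ => comm_sh_sh _ _) (comm_sh_dg hb _ (by simp))
    (comm_sh_dg (bdd_ind _) _ (by simp [ind])), fun m => comm_cut e s a F
    (fun _ => (comm_sh_dg (bdd_ind _) _ (by simp [ind])).symm)
    (comm_dg_dg (bdd_ind _) hb fun _ => ind_comm _ _ _)
    (comm_dg_dg (bdd_ind _) (bdd_ind _) fun _ => ind_comm _ _ _), ?_⟩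
  rw [Commute, SemiconjBy, ← mul_assoc, ← mul_assoc, Qf_idem, mul_assoc _ (Qf e H F), Qf_idem]

theorem comm_cut_const (s : Sc) {a : ℤ → H →L[ℂ] H} (ha : ∀ n, ‖a n‖ ≤ 1 / 2) (F : Finset ℤ)
    (P : VonNeumannAlgebra H) (hP : ∀ n, a n ∈ P) {x : H →L[ℂ] H} (hx : x ∈ P.commutant) :
    Commute (dg fun _ => x) (Qf e H F * yy e s a * Qf e H F) := by
  have hb : Bdd fun q => a (e.symm q).1 := ⟨_, fun q => ha _⟩
  exact comm_cut e s a F (fun _ => (comm_sh_dg (bdd_const _) _ (by simp)).symm)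
    (comm_dg_dg (bdd_const _) hb fun _ =>
      (VonNeumannAlgebra.mem_commutant_iff.1 hx _ (hP _)).symm)
    (comm_dg_dg (bdd_const _) (bdd_ind _) fun _ => (ind_comm _ _ _).symm)

theorem ent_cut (F : Finset ℤ) (T : L2 (ℤ × ℤ) H →L[ℂ] L2 (ℤ × ℤ) H) (i i' : F) :
    ent e (Qf e H F * T * Qf e H F) i i' = ent e T i i' := by
  ext v
  simp only [ent_apply, mul_apply_eq_comp, Qf_sg e F i'.2, Qf_apply, AddEquiv.symm_apply_apply,
    i.2, if_true]

theorem cut_sa (F : Finset ℤ) {T : L2 (ℤ × ℤ) H →L[ℂ] L2 (ℤ × ℤ) H} (h : IsSelfAdjoint T) :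
    IsSelfAdjoint (Qf e H F * T * Qf e H F) := by
  have := h.conjugate (Qf e H F)
  rwa [(Qf_sa (H := H) e F).star_eq] at this

theorem cut_norm (F : Finset ℤ) (T : L2 (ℤ × ℤ) H →L[ℂ] L2 (ℤ × ℤ) H) :
    ‖Qf e H F * T * Qf e H F‖ ≤ ‖T‖ :=
  (norm_mul_le _ _).trans ((mul_le_of_le_one_right (norm_nonneg _) (norm_Qf e F)).trans
    ((norm_mul_le _ _).trans (mul_le_of_le_one_left (norm_nonneg _) (norm_Qf e F))))

theorem st_apply {E E' : Type u} [NormedAddCommGroup E] [NormedSpace ℂ E] [NormedAddCommGroup E']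
    [NormedSpace ℂ E'] {T : ℕ → E →L[ℂ] E'} {T₀ : E →L[ℂ] E'} (hT : ∀ k, ‖T k‖ ≤ 1)
    (h : ∀ θ, Tendsto (fun k => T k θ) atTop (𝓝 (T₀ θ))) {θ : ℕ → E} {θ₀ : E}
    (hθ : Tendsto θ atTop (𝓝 θ₀)) : Tendsto (fun k => T k (θ k)) atTop (𝓝 (T₀ θ₀)) := by
  have h1 : Tendsto (fun k => T k (θ k - θ₀)) atTop (𝓝 0) := by
    refine squeeze_zero_norm (fun k => ((T k).le_opNorm _).trans
      (mul_le_of_le_one_left (norm_nonneg _) (hT k))) ?_
    exact tendsto_iff_norm_sub_tendsto_zero.1 hθ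
  simpa using h1.add (h θ₀)

theorem cut_tendsto (F : ℕ → Finset ℤ) (hF : Tendsto F atTop atTop)
    (T : L2 (ℤ × ℤ) H →L[ℂ] L2 (ℤ × ℤ) H) (θ : L2 (ℤ × ℤ) H) :
    Tendsto (fun R => (Qf e H (F R) * T * Qf e H (F R)) θ) atTop (𝓝 (T θ)) :=
  st_apply (T₀ := 1) (fun _ => norm_Qf e _) (Qf_tendsto e F hF)
    ((T.continuous.tendsto θ).comp (Qf_tendsto e F hF θ))

end Crest.Agent.KN.CutX
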