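import Crest.Agent.KN.AVG

/-! Row 78 (S0103): job DRIFT. -/

set_option autoImplicit false
universe u v

namespace Crest.Agent.KN

open scoped InnerProductSpace BigOperators ComplexConjugate
open Filter Topology

theorem drift_unit_norm {E : Type u} [NormedAddCommGroup E] [InnerProductSpace ℂ E] [CompleteSpace E]
    {U : E →L[ℂ] E} (hU : U ∈ unitary (E →L[ℂ] E)) (ξ : E) : ‖U ξ‖ = ‖ξ‖ := by
  have h1 : ⟪U ξ, U ξ⟫_ℂ = ⟪ξ, ξ⟫_ℂ := by
    rw [← ContinuousLinearMap.adjoint_inner_right, ← ContinuousLinearMap.star_eq_adjoint,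
      ← mul_apply_eq_comp, (Unitary.mem_iff.1 hU).1, one_apply_eq_self]
  rw [inner_self_eq_norm_sq_to_K, inner_self_eq_norm_sq_to_K] at h1
  have h2 : ‖U ξ‖ ^ 2 = ‖ξ‖ ^ 2 := by exact_mod_cast h1
  exact (pow_left_inj₀ (norm_nonneg _) (norm_nonneg _) two_ne_zero).1 h2

theorem drift_comm_star {A : Type*} [Monoid A] [StarMul A] {U T : A} (hU : U ∈ unitary A)
    (h : Commute T U) : Commute T (star U) := by
  have h1 := (Unitary.mem_iff.1 hU).1
  have h2 := (Unitary.mem_iff.1 hU).2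
  calc T * star U = star U * U * T * star U := by rw [h1, one_mul]
    _ = star U * T * (U * star U) := by rw [mul_assoc (star U) U T, ← h.eq]; simp only [mul_assoc]
    _ = star U * T := by rw [h2, mul_one]

theorem jobDRIFT (_h : JobAVG.{u}) (h2 : JobTWA.{u}) : JobDRIFT.{u} := by
  intro H _ _ _ M ζ ι _ lg E _ _ _ τ
  have A : TwAPI τ := h2 H M ζ ι lg E τ
  intro n
  induction n with
  | zero => simp [Tw.G, Tw.Gp]
  | succ n ih =>
    set Ω := τ.V ζ with hΩ
    set err := star (τ.G 0 n) Ω - τ.Gp n Ω with herr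
    set w := (star (τ.U' n) * star (τ.U n) - 1) Ω with hw
    set π := τ.ρ n (kb (lg n).ω (lg n).ω) with hπ
    have hUG : ∀ k, Commute (τ.U' n) (τ.G 0 k) := by
      intro k
      induction k with
      | zero => exact Commute.one_right _
      | succ k ih =>
        have : τ.G 0 (k + 1) = τ.U k * τ.G 0 k := by simp [Tw.G]
        rw [this]
        exact (A.U_U' k n).symm.mul_right ih
    have hUGs := drift_comm_star (A.G_unit 0 n) (hUG n)
    have e : star (τ.G 0 (n + 1)) Ω - τ.Gp (n + 1) Ω = τ.U' n (star (τ.G 0 n) w + err) := by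
      have g1 : τ.G 0 (n + 1) = τ.U n * τ.G 0 n := by simp [Tw.G]
      have g2 : τ.Gp (n + 1) = τ.U' n * τ.Gp n := rfl
      have g3 : τ.U' n * (star (τ.G 0 n) * (star (τ.U' n) * star (τ.U n) - 1) +
          (star (τ.G 0 n) - τ.Gp n)) = star (τ.G 0 n) * star (τ.U n) - τ.U' n * τ.Gp n := by
        have := (Unitary.mem_iff.1 (A.U'_unit n)).2
        calc _ = (τ.U' n * star (τ.G 0 n)) * star (τ.U' n) * star (τ.U n) - τ.U' n * τ.Gp n := by
              noncomm_ring
          _ = star (τ.G 0 n) * (τ.U' n * star (τ.U' n)) * star (τ.U n) - τ.U' n * τ.Gp n := by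
              rw [hUGs.eq]; noncomm_ring
          _ = _ := by rw [this, mul_one]
      have := congrArg (fun T : E →L[ℂ] E => T Ω) g3
      rw [g1, g2, star_mul]
      exact this.symm
    rw [e, drift_unit_norm (A.U'_unit n)]
    have hπΩ : π Ω = Ω := τ.ρ_V n ζ
    have c1 : Commute π (star (τ.G 0 n)) :=
      drift_comm_star (A.G_unit 0 n) (A.G_Cρ 0 n n (.inr le_rfl) _).symm
    have c2 : Commute π (τ.Gp n) := (A.Gp_Cρ n n le_rfl _).symm
    have hπe : π err = err := by
      have a1 := congrArg (fun T : E →L[ℂ] E => T Ω) c1.eq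
      have a2 := congrArg (fun T : E →L[ℂ] E => T Ω) c2.eq
      simp only [mul_apply_eq_comp, hπΩ] at a1 a2
      rw [herr, map_sub, a1, a2]
    have hwd : w = ∑ k, τ.ρ n (kb (Pi.single k 1) (lg n).ω) (τ.V ((lg n).Z k)) := A.defect n
    have hw2 : ‖w‖ ^ 2 ≤ (lg n).s2 := by
      rw [hwd]
      refine (rho_col_sq _ (lg n).ω_uv _).trans (le_of_eq ?_)
      simp only [τ.norm_V]; rfl
    have hπw : ‖π w‖ = (lg n).d := by
      have : π w = τ.V (∑ k, conj ((lg n).ω k) • (lg n).Z k) := by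
        rw [hwd, map_sum, map_sum]
        refine Finset.sum_congr rfl fun k _ => ?_
        rw [← mul_apply_eq_comp, hπ, ← map_mul, kb_mul_kb_single, map_smul, smul_apply, τ.ρ_V,
          map_smul]
      rw [this, τ.norm_V]; rfl
    have hGs : star (τ.G 0 n) ∈ unitary (E →L[ℂ] E) := Unitary.star_mem (A.G_unit 0 n)
    have hin : ‖⟪star (τ.G 0 n) w, err⟫_ℂ‖ ≤ (lg n).d * ‖err‖ := by
      have a1 := congrArg (fun T : E →L[ℂ] E => T w) c1.eq
      simp only [mul_apply_eq_comp] at a1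
      rw [← hπe, hπ, rho_inner, ← hπ, a1, hπe, ← hπw, ← drift_unit_norm hGs (π w)]
      exact norm_inner_le_norm _ _
    have hsq : ‖star (τ.G 0 n) w + err‖ ^ 2 ≤ (lg n).s2 + 2 * ((lg n).d * ‖err‖) + ‖err‖ ^ 2 := by
      rw [@norm_add_sq ℂ, drift_unit_norm hGs]
      have := (RCLike.re_le_norm ⟪star (τ.G 0 n) w, err⟫_ℂ).trans hin
      linarith
    rw [Finset.sum_range_succ, Finset.sum_range_succ]
    set D := ∑ m ∈ Finset.range n, (lg m).d
    set S := ∑ m ∈ Finset.range n, (lg m).s2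
    have hD : 0 ≤ D := Finset.sum_nonneg fun m _ => norm_nonneg _
    have hs : ∀ m, 0 ≤ (lg m).s2 := fun m => Finset.sum_nonneg fun k _ => sq_nonneg _
    have hS : 0 ≤ S := Finset.sum_nonneg fun m _ => hs m
    have hd : 0 ≤ (lg n).d := norm_nonneg _
    have r1 : √S ≤ √(S + (lg n).s2) := Real.sqrt_le_sqrt (by linarith [hs n])
    have r2 := Real.sq_sqrt hS
    have r3 := Real.sq_sqrt (add_nonneg hS (hs n))
    have r4 := Real.sqrt_nonneg S
    refine (pow_le_pow_iff_left₀ (norm_nonneg _) (by positivity) two_ne_zero).1 (hsq.trans ?_)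
    have r5 : (‖err‖ + (lg n).d) ^ 2 ≤ (D + √S + (lg n).d) ^ 2 :=
      pow_le_pow_left₀ (by positivity) (by linarith) 2
    nlinarith [mul_le_mul_of_nonneg_left r1 (add_nonneg hD hd), sq_nonneg (lg n).d]

end Crest.Agent.KN
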