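import Mathlib

/-!
Row 78 (S0103): job statements.  `LIN` (a linear lift `M → N` close to the identity) is proved by a
"collision walk" with finite legs; `LIN` + vanishing cohomology + hyperreflexivity give S0103.
Each job is a `Prop`; prove it in the file named in table `kn_jobs`, other jobs enter as hypotheses.
-/

set_option autoImplicit false
universe u v

namespace Crest.Agent.KN

open scoped InnerProductSpace BigOperators Kronecker ComplexConjugate BoundedContinuousFunction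
open Filter Topology

section basic
variable {H : Type u} [NormedAddCommGroup H] [InnerProductSpace ℂ H] [CompleteSpace H]

/-- One-sided near inclusion. -/
def Near (M N : VonNeumannAlgebra H) (δ : ℝ) : Prop := ∀ x ∈ M, ∃ y ∈ N, ‖x - y‖ ≤ δ * ‖x‖

/-- Weak operator convergence. -/
def WLim {α : Type v} (𝓕 : Filter α) (T : α → H →L[ℂ] H) (S : H →L[ℂ] H) : Prop :=
  ∀ η ξ : H, Tendsto (fun a => ⟪η, T a ξ⟫_ℂ) 𝓕 (𝓝 ⟪η, S ξ⟫_ℂ)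

/-- The column `r` has norm at most `c`. -/
def Col {m : ℕ} (r : Fin m → H →L[ℂ] H) (c : ℝ) : Prop :=
  ∀ ξ : H, ∑ i, ‖r i ξ‖ ^ 2 ≤ c ^ 2 * ‖ξ‖ ^ 2

/-- The algebra of a von Neumann algebra. -/
abbrev Al (M : VonNeumannAlgebra H) : Type u := M.toStarSubalgebra

theorem isClosed_vn (M : VonNeumannAlgebra H) : IsClosed (M.toStarSubalgebra : Set (H →L[ℂ] H)) := by
  have : (M.toStarSubalgebra : Set (H →L[ℂ] H)) = Set.centralizer (Set.centralizer (M : Set _)) :=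
    M.centralizer_centralizer.symm
  rw [this]
  exact Set.isClosed_centralizer _

noncomputable instance (M : VonNeumannAlgebra H) : CStarAlgebra (Al M) :=
  haveI := isClosed_vn M
  StarSubalgebra.cstarAlgebra M.toStarSubalgebra

end basic

/-! ## Part N4: from `LIN` to S0103 -/

/-- Job WL: bounded families have weak ultralimits (Riesz representation of the limit form;
see `HH/Wot.lean`, `wotLim`). -/
def JobWL : Prop :=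
  ∀ (H : Type u) [NormedAddCommGroup H] [InnerProductSpace ℂ H] [CompleteSpace H]
    (α : Type v) (𝒰 : Ultrafilter α) (T : α → H →L[ℂ] H) (c : ℝ), (∀ᶠ a in (𝒰 : Filter α), ‖T a‖ ≤ c) →
    ∃ S : H →L[ℂ] H, ‖S‖ ≤ c ∧ WLim (𝒰 : Filter α) T S

/-- Hyperreflexivity for representations of C*-algebras.  Job ADS: `∃ C ≥ 1, ADS C`.
Proof: `H0164.ad (S0165.result)` (`H0164.AD`) for the von Neumann algebra `P = π(A)''`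
(build it from `StarSubalgebra.centralizer`), real and imaginary parts of `Y`, and Kaplansky density
(self-adjoint contractions of `P` are strong limits of `π` of self-adjoint contractions: `H0164.C1`
`bicomm`, `sa_dense`, `kap`; `t ↦ 2t/(1+t²)` trick; if `π` is not isometric lift through cfc in `A`) to get
`‖[Y,a]‖ ≤ 4 g ‖a‖` on `P`. -/
def ADS (C : ℝ) : Prop :=
  ∀ (E : Type u) [NormedAddCommGroup E] [InnerProductSpace ℂ E] [CompleteSpace E]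
    (A : Type u) [CStarAlgebra A] (π : A →⋆ₐ[ℂ] (E →L[ℂ] E)) (Y : E →L[ℂ] E) (g : ℝ), 0 ≤ g →
    (∀ a, ‖Y * π a - π a * Y‖ ≤ g * ‖a‖) →
    ∃ Y₀ : E →L[ℂ] E, (∀ a, Commute Y₀ (π a)) ∧ ‖Y - Y₀‖ ≤ C * g

/-- Linear lifting. -/
def LIN (C δ₀ : ℝ) : Prop :=
  ∀ (H : Type u) [NormedAddCommGroup H] [InnerProductSpace ℂ H] [CompleteSpace H]
    (M N : VonNeumannAlgebra H) (δ : ℝ), 0 ≤ δ → δ ≤ δ₀ → Near M N δ → Near N M δ →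
    ∃ L : Al M →ₗ[ℂ] (H →L[ℂ] H), (∀ x, L x ∈ N) ∧ ∀ x, ‖L x - x‖ ≤ C * δ * ‖x‖

/-- Quantitative vanishing of `H²` and `H³`. -/
def Stab (A : Type u) [CStarAlgebra A] (K : ℝ) : Prop :=
  ∀ (c : A →L[ℂ] A →L[ℂ] A) (η : ℝ), 0 ≤ η →
    (∀ x y z, ‖x * c y z - c (x * y) z + c x (y * z) - c x y * z‖ ≤ η * ‖x‖ * ‖y‖ * ‖z‖) →
    ∃ g : A →L[ℂ] A, ‖g‖ ≤ K * (‖c‖ + η) ∧
      ∀ x y, ‖c x y - (x * g y - g (x * y) + g x * y)‖ ≤ K * η * ‖x‖ * ‖y‖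

/-- Job UNI.  For `n = 1, 2`: there is `K` with: every cocycle `f` of degree `n+1` on any `M` is `dg` with
`‖g‖ ≤ K ‖f‖`.  Otherwise take `(H_j, M_j, f_j)` with `‖f_j‖ ≤ 1` and no primitive of norm `≤ j`; on
`lp H 2` let `M = ⊕ M_j` (centralizer of the coordinate-wise embedded commutants `sg_j x' ev_j`), `f = ⊕ f_j`;
`S0161.result` gives `g`; `g_j (a) = ev_j g(sg a ev) sg_j` is a primitive of `f_j` of norm `≤ ‖g‖`.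
Then: `dc` is a 3-cocycle, `dc = dc'` with `‖c'‖ ≤ Kη`, `c - c' = dg`. -/
def JobUNI : Prop :=
  ∃ K : ℝ, 0 ≤ K ∧ ∀ (H : Type u) [NormedAddCommGroup H] [InnerProductSpace ℂ H] [CompleteSpace H]
    (M : VonNeumannAlgebra H), Stab (Al M) K

/-- Job JOH (Johnson / Raeburn–Taylor, Newton iteration).  `c = m - mul` has
`dc (x,y,z) = c (c x y) z - c x (c y z)`, so `η = 2‖c‖²`; take `g` from `Stab`, symmetrise
`g ↦ (g + g♯)/2`, `g♯ x = star (g (star x))`; `S = 1 - g`, `m₁ x y = S⁻¹ (m (S x) (S y))` has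
`‖m₁ - mul‖ ≤ C ‖c‖²`; `T = lim S₁ S₂ ⋯ S_k`. -/
def JobJOH : Prop :=
  ∀ K : ℝ, 0 ≤ K → ∃ ε₀ C : ℝ, 0 < ε₀ ∧ 0 ≤ C ∧ ∀ (A : Type u) [CStarAlgebra A], Stab A K →
    ∀ (m : A →L[ℂ] A →L[ℂ] A) (ε : ℝ), 0 ≤ ε → ε ≤ ε₀ →
      (∀ x y z, m (m x y) z = m x (m y z)) → (∀ x y, star (m x y) = m (star y) (star x)) →
      (∀ x y, ‖m x y - x * y‖ ≤ ε * ‖x‖ * ‖y‖) →
      ∃ T : A →L[ℂ] A, (∀ x, ‖T x - x‖ ≤ C * ε * ‖x‖) ∧ (∀ x y, T (x * y) = m (T x) (T y)) ∧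
        ∀ x, T (star x) = star (T x)

/-- Job SPAT (from `ADS`).  `θ 1` is a projection at distance `< 1` from `1`, so `θ 1 = 1`.  On
`WithLp 2 (H × H)` (or `PiLp 2 (Fin 2 → H)`) let `π x = diag (θ x, x)`, `Y = [[0,1],[0,0]]`; the corner
`t` of `Y₀` has `θ x t = t x`, `‖t - 1‖ ≤ Cε`; `t⋆ t` commutes with `M`; `u = t (t⋆ t)^{-1/2}`. -/
def JobSPAT : Prop :=
  ∃ ε₀ C : ℝ, 0 < ε₀ ∧ 0 ≤ C ∧
    ∀ (H : Type u) [NormedAddCommGroup H] [InnerProductSpace ℂ H] [CompleteSpace H]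
      (M : VonNeumannAlgebra H) (θ : Al M →ₗ[ℂ] (H →L[ℂ] H)) (ε : ℝ), 0 ≤ ε → ε ≤ ε₀ →
      (∀ x y, θ (x * y) = θ x * θ y) → (∀ x, θ (star x) = star (θ x)) →
      (∀ x, ‖θ x - x‖ ≤ ε * ‖x‖) →
      ∃ u : H →L[ℂ] H, u ∈ unitary (H →L[ℂ] H) ∧ ‖u - 1‖ ≤ C * ε ∧
        ∀ x : Al M, θ x = u * x * star u

/-- The statement S0103.  Job FINAL: `LIN C δ₀ → JobUNI → JobJOH → JobSPAT → S103`: symmetrise `L`
(`(L x + star (L (star x)))/2`), `L : M → N` is bijective with bounded inverse (near `id`, and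
`Near N M δ`: successive approximation), `m x y = L⁻¹ (L x * L y)`, `θ = L ∘ T` is onto `N`. -/
def S103 : Prop :=
  ∀ ε : ℝ, 0 < ε → ∃ δ : ℝ, 0 < δ ∧
    ∀ (H : Type u) [NormedAddCommGroup H] [InnerProductSpace ℂ H] [CompleteSpace H]
      (M N : VonNeumannAlgebra H),
      (∀ x ∈ M, ‖x‖ ≤ 1 → ∃ y ∈ N, ‖y‖ ≤ 1 ∧ ‖x - y‖ < δ) →
      (∀ y ∈ N, ‖y‖ ≤ 1 → ∃ x ∈ M, ‖x‖ ≤ 1 ∧ ‖y - x‖ < δ) →
      ∃ u : H →L[ℂ] H, u ∈ unitary (H →L[ℂ] H) ∧ ‖u - 1‖ < ε ∧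
        ∀ y : H →L[ℂ] H, y ∈ N ↔ ∃ x ∈ M, y = u * x * star u

/-! ## Legs and towers -/

/-- `|a⟩⟨b|`. -/
def kb {K : Type} (a b : K → ℂ) : Matrix K K ℂ := Matrix.vecMulVec a (star b)

/-- Unit vectors of `ℂ^K`. -/
def UV {K : Type} [Fintype K] (a : K → ℂ) : Prop := ∑ k, ‖a k‖ ^ 2 = 1

/-- `m ↦ 1 ⊗ m`. -/
def rHom (I J : Type) [Fintype I] [Fintype J] [DecidableEq I] [DecidableEq J] :
    Matrix J J ℂ →⋆ₐ[ℂ] Matrix (I × J) (I × J) ℂ where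
  toFun m := (1 : Matrix I I ℂ) ⊗ₖ m
  map_one' := Matrix.one_kronecker_one
  map_mul' a b := by rw [← Matrix.mul_kronecker_mul, one_mul]
  map_zero' := Matrix.kronecker_zero _
  map_add' a b := Matrix.kronecker_add _ _ _
  commutes' c := by
    rw [Algebra.algebraMap_eq_smul_one, Algebra.algebraMap_eq_smul_one, Matrix.kronecker_smul,
      Matrix.one_kronecker_one]
  map_star' a := by
    rw [Matrix.star_eq_conjTranspose, Matrix.star_eq_conjTranspose, Matrix.conjTranspose_kronecker,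
      Matrix.conjTranspose_one]

/-- `m ↦ m ⊗ 1`. -/
def lHom (I J : Type) [Fintype I] [Fintype J] [DecidableEq I] [DecidableEq J] :
    Matrix I I ℂ →⋆ₐ[ℂ] Matrix (I × J) (I × J) ℂ where
  toFun m := m ⊗ₖ (1 : Matrix J J ℂ)
  map_one' := Matrix.one_kronecker_one
  map_mul' a b := by rw [← Matrix.mul_kronecker_mul, one_mul]
  map_zero' := Matrix.zero_kronecker _
  map_add' a b := Matrix.add_kronecker _ _ _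
  commutes' c := by
    rw [Algebra.algebraMap_eq_smul_one, Algebra.algebraMap_eq_smul_one, Matrix.smul_kronecker,
      Matrix.one_kronecker_one]
  map_star' a := by
    rw [Matrix.star_eq_conjTranspose, Matrix.star_eq_conjTranspose, Matrix.conjTranspose_kronecker,
      Matrix.conjTranspose_one]

section legs
variable {H : Type u} [NormedAddCommGroup H] [InnerProductSpace ℂ H] [CompleteSpace H]

/-- Slice of `T` along the vector `ϑ` of the matrix system `ρ`, amplified back. -/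
noncomputable def avg {K : Type} [Fintype K] [DecidableEq K] (ρ : Matrix K K ℂ →⋆ₐ[ℂ] (H →L[ℂ] H))
    (ϑ : K → ℂ) (T : H →L[ℂ] H) : H →L[ℂ] H :=
  ∑ k, ρ (kb (Pi.single k 1) ϑ) * T * ρ (kb ϑ (Pi.single k 1))

/-- A finite leg `ℂ^I ⊗ ℂ^J` with vacuum `ω`, a unitary `U ∈ M_I(M)`, a partner `U' ∈ M_J(M')`, and slot
vectors `u h ⊗ g h` with `(1 ⊗ ⟨g h|) ω = √p u h`. -/
structure Leg (M : VonNeumannAlgebra H) (ζ : H) (ι : Type) where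
  I : Type
  J : Type
  [fI : Fintype I]
  [fJ : Fintype J]
  [dI : DecidableEq I]
  [dJ : DecidableEq J]
  ω : I × J → ℂ
  ω_uv : UV ω
  U : Matrix I I (H →L[ℂ] H)
  U_mem : ∀ i i', U i i' ∈ M
  U_l : star U * U = 1
  U_r : U * star U = 1
  U' : Matrix J J (H →L[ℂ] H)
  U'_mem : ∀ j j', U' j j' ∈ M.commutant
  U'_l : star U' * U' = 1
  U'_r : U' * star U' = 1
  p : ℝ
  p_pos : 0 < p
  p_le : p ≤ 1
  u : ι → I → ℂ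
  g : ι → J → ℂ
  u_uv : ∀ h, UV (u h)
  g_uv : ∀ h, UV (g h)
  slot : ∀ h i, ∑ j, conj (g h j) * ω (i, j) = (√p : ℝ) * u h i

attribute [instance] Leg.fI Leg.fJ Leg.dI Leg.dJ

namespace Leg
variable {M : VonNeumannAlgebra H} {ζ : H} {ι : Type} (l : Leg M ζ ι)

/-- Components of `(U'⋆ U⋆ - 1)(ζ ⊗ ω)`. -/
noncomputable def Z (k : l.I × l.J) : H :=
  ∑ k' : l.I × l.J, l.ω k' • ((star l.U') k.2 k'.2 * (star l.U) k.1 k'.1) ζ - l.ω k • ζ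

/-- Squared norm of the defect vector. -/
noncomputable def s2 : ℝ := ∑ k, ‖l.Z k‖ ^ 2

/-- Norm of the vacuum component of the defect vector. -/
noncomputable def d : ℝ := ‖∑ k, conj (l.ω k) • l.Z k‖

/-- The slice `⟨u h| U |u h⟩ ∈ M`. -/
noncomputable def sl (h : ι) : H →L[ℂ] H := ∑ i, ∑ i', (conj (l.u h i) * l.u h i') • l.U i i'

/-- The slot vector `u h ⊗ g h`. -/
def ϑ (h : ι) : l.I × l.J → ℂ := fun k => l.u h k.1 * l.g h k.2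

end Leg

/-- `E` plays the role of `H ⊗ ⨂ₙ (ℂ^{I n} ⊗ ℂ^{J n})`. -/
structure Tw {M : VonNeumannAlgebra H} {ζ : H} {ι : Type} (lg : ℕ → Leg M ζ ι) (E : Type u)
    [NormedAddCommGroup E] [InnerProductSpace ℂ E] [CompleteSpace E] where
  am : (H →L[ℂ] H) →⋆ₐ[ℂ] (E →L[ℂ] E)
  V : H →L[ℂ] E
  norm_V : ∀ ξ, ‖V ξ‖ = ‖ξ‖
  am_V : ∀ T ξ, am T (V ξ) = V (T ξ)
  ρ : ∀ n, Matrix ((lg n).I × (lg n).J) ((lg n).I × (lg n).J) ℂ →⋆ₐ[ℂ] (E →L[ℂ] E)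
  ρ_am : ∀ n m T, Commute (ρ n m) (am T)
  ρ_ρ : ∀ n n', n ≠ n' → ∀ m m', Commute (ρ n m) (ρ n' m')
  ρ_V : ∀ n ξ, ρ n (kb (lg n).ω (lg n).ω) (V ξ) = V ξ

namespace Tw
variable {M : VonNeumannAlgebra H} {ζ : H} {ι : Type} {lg : ℕ → Leg M ζ ι} {E : Type u}
  [NormedAddCommGroup E] [InnerProductSpace ℂ E] [CompleteSpace E] (τ : Tw lg E)

/-- The purifier system of leg `n`. -/
noncomputable def σ (n : ℕ) : Matrix (lg n).J (lg n).J ℂ →⋆ₐ[ℂ] (E →L[ℂ] E) :=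
  (τ.ρ n).comp (rHom _ _)

/-- The step unitary on leg `n`. -/
noncomputable def U (n : ℕ) : E →L[ℂ] E :=
  ∑ i, ∑ i', τ.am ((lg n).U i i') * τ.ρ n (lHom _ _ (Matrix.single i i' 1))

/-- The partner unitary on leg `n`. -/
noncomputable def U' (n : ℕ) : E →L[ℂ] E :=
  ∑ j, ∑ j', τ.am ((lg n).U' j j') * τ.σ n (Matrix.single j j' 1)

/-- `G n n' = U (n'-1) ⋯ U n`. -/
noncomputable def G (n : ℕ) : ℕ → (E →L[ℂ] E)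
  | 0 => 1
  | n' + 1 => if n ≤ n' then τ.U n' * G n n' else 1

/-- `Gp n = U' (n-1) ⋯ U' 0`. -/
noncomputable def Gp : ℕ → (E →L[ℂ] E)
  | 0 => 1
  | n + 1 => τ.U' n * Gp n

/-- Vacuum slice over the legs `n ≤ m < n'`. -/
noncomputable def cE (n : ℕ) : ℕ → (E →L[ℂ] E) → (E →L[ℂ] E)
  | 0, T => T
  | n' + 1, T => if n ≤ n' then cE n n' (avg (τ.ρ n') (lg n').ω T) else T

/-- `T` commutes with the full system of leg `n`. -/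
def Cρ (n : ℕ) (T : E →L[ℂ] E) : Prop := ∀ m, Commute T (τ.ρ n m)

/-- `T` commutes with the purifier of leg `n`. -/
def Cσ (n : ℕ) (T : E →L[ℂ] E) : Prop := ∀ m, Commute T (τ.σ n m)

/-- `T` commutes with the amplified commutant of `P`. -/
def Ca (P : VonNeumannAlgebra H) (T : E →L[ℂ] E) : Prop := ∀ y ∈ P.commutant, Commute T (τ.am y)

/-- The algebra generated by `am (M')` and the purifiers of the legs `< n`. -/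
def Pur (n : ℕ) : Subalgebra ℂ (E →L[ℂ] E) :=
  Algebra.adjoin ℂ ({T | ∃ y ∈ M.commutant, T = τ.am y} ∪ {T | ∃ m, m < n ∧ ∃ a, T = τ.σ m a})

end Tw
end legs

/-- Quantification over all towers. -/
def AllTw (P : ∀ (H : Type u) [NormedAddCommGroup H] [InnerProductSpace ℂ H] [CompleteSpace H]
    (M : VonNeumannAlgebra H) (ζ : H) (ι : Type) [Fintype ι] (lg : ℕ → Leg M ζ ι) (E : Type u)
    [NormedAddCommGroup E] [InnerProductSpace ℂ E] [CompleteSpace E], Tw lg E → Prop) : Prop :=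
  ∀ (H : Type u) [NormedAddCommGroup H] [InnerProductSpace ℂ H] [CompleteSpace H]
    (M : VonNeumannAlgebra H) (ζ : H) (ι : Type) [Fintype ι] (lg : ℕ → Leg M ζ ι) (E : Type u)
    [NormedAddCommGroup E] [InnerProductSpace ℂ E] [CompleteSpace E] (τ : Tw lg E),
    P H M ζ ι lg E τ

/-- Job TOW.  `E = lp (fun _ : (∀ n, I n × J n) => H) 2` (`KK/L2.lean`: `wp`, `sg`), `am T` diagonal,
`(ρ⁰ n m ξ) x = ∑ k, m (x n) k • ξ (update x n k)`; pick a unitary matrix `W n` with `W n ω = e_{k₀ n}`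
(orthonormal basis of `EuclideanSpace` extending `ω`), `ρ n m = ρ⁰ n (W m W⋆)`, `V = sg k₀`. -/
def JobTOW : Prop :=
  ∀ (H : Type u) [NormedAddCommGroup H] [InnerProductSpace ℂ H] [CompleteSpace H]
    (M : VonNeumannAlgebra H) (ζ : H) (ι : Type) (lg : ℕ → Leg M ζ ι),
    ∃ (E : Type u) (_ : NormedAddCommGroup E) (_ : InnerProductSpace ℂ E) (_ : CompleteSpace E),
      Nonempty (Tw lg E)

/-- Job AVG.  With `r k = ρ (kb (single k 1) ϑ)`: `star (r k) * r k' = δ π`, `π = ρ (kb ϑ ϑ)`,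
`∑ r k * star (r k) = 1`; `‖avg T ξ‖² = ∑ₖ ‖π T (r k)⋆ ξ‖²`. -/
structure AvgAPI {E : Type u} [NormedAddCommGroup E] [InnerProductSpace ℂ E] [CompleteSpace E]
    {K : Type} [Fintype K] [DecidableEq K] (ρ : Matrix K K ℂ →⋆ₐ[ℂ] (E →L[ℂ] E)) (ϑ : K → ℂ) :
    Prop where
  norm_le : ∀ T, ‖avg ρ ϑ T‖ ≤ ‖T‖
  col : ∀ (m : ℕ) (r : Fin m → E →L[ℂ] E) (c : ℝ), Col r c → Col (fun i => avg ρ ϑ (r i)) c
  add : ∀ S T, avg ρ ϑ (S + T) = avg ρ ϑ S + avg ρ ϑ T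
  sub : ∀ S T, avg ρ ϑ (S - T) = avg ρ ϑ S - avg ρ ϑ T
  smul : ∀ (c : ℂ) T, avg ρ ϑ (c • T) = c • avg ρ ϑ T
  comm : ∀ T m, Commute (avg ρ ϑ T) (ρ m)
  fix : ∀ T, (∀ m, Commute T (ρ m)) → avg ρ ϑ T = T
  mul_left : ∀ S T, (∀ m, Commute S (ρ m)) → avg ρ ϑ (S * T) = S * avg ρ ϑ T
  mul_right : ∀ S T, (∀ m, Commute S (ρ m)) → avg ρ ϑ (T * S) = avg ρ ϑ T * S
  keep : ∀ z T, (∀ m, Commute z (ρ m)) → Commute T z → Commute (avg ρ ϑ T) z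
  vac : ∀ (a : K → ℂ), UV a → ∀ T, avg ρ ϑ T * ρ (kb a a) = ρ (kb a ϑ) * T * ρ (kb ϑ a)
  wlim : ∀ (𝓕 : Filter ℕ) (T : ℕ → E →L[ℂ] E) (S : E →L[ℂ] E), WLim 𝓕 T S →
    WLim 𝓕 (fun a => avg ρ ϑ (T a)) (avg ρ ϑ S)

def JobAVG : Prop :=
  ∀ (E : Type u) [NormedAddCommGroup E] [InnerProductSpace ℂ E] [CompleteSpace E]
    (K : Type) [Fintype K] [DecidableEq K] (ρ : Matrix K K ℂ →⋆ₐ[ℂ] (E →L[ℂ] E)) (ϑ : K → ℂ),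
    UV ϑ → AvgAPI ρ ϑ

/-- Job TWA: algebra of a tower (matrix computations, inductions on `n'`). -/
structure TwAPI {H : Type u} [NormedAddCommGroup H] [InnerProductSpace ℂ H] [CompleteSpace H]
    {M : VonNeumannAlgebra H} {ζ : H} {ι : Type} {lg : ℕ → Leg M ζ ι} {E : Type u}
    [NormedAddCommGroup E] [InnerProductSpace ℂ E] [CompleteSpace E] (τ : Tw lg E) : Prop where
  ϑ_uv : ∀ n h, UV ((lg n).ϑ h)
  U_unit : ∀ n, τ.U n ∈ unitary (E →L[ℂ] E)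
  U'_unit : ∀ n, τ.U' n ∈ unitary (E →L[ℂ] E)
  U_U' : ∀ n n', Commute (τ.U n) (τ.U' n')
  U_Cρ : ∀ n m, m ≠ n → τ.Cρ m (τ.U n)
  U'_Cρ : ∀ n m, m ≠ n → τ.Cρ m (τ.U' n)
  defect : ∀ n, (star (τ.U' n) * star (τ.U n) - 1) (τ.V ζ) =
    ∑ k, τ.ρ n (kb (Pi.single k 1) (lg n).ω) (τ.V ((lg n).Z k))
  G_unit : ∀ n n', τ.G n n' ∈ unitary (E →L[ℂ] E)
  G_self : ∀ n, τ.G n n = 1
  G_mul : ∀ n n' n'', n ≤ n' → n' ≤ n'' → τ.G n n'' = τ.G n' n'' * τ.G n n'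
  G_succ : ∀ n, τ.G n (n + 1) = τ.U n
  G_Cρ : ∀ n n' m, (m < n ∨ n' ≤ m) → τ.Cρ m (τ.G n n')
  G_Cσ : ∀ n n' m, τ.Cσ m (τ.G n n')
  G_Ca : ∀ n n', τ.Ca M (τ.G n n')
  Gp_unit : ∀ n, τ.Gp n ∈ unitary (E →L[ℂ] E)
  Gp_mem : ∀ n, τ.Gp n ∈ τ.Pur n
  Gp_Cρ : ∀ n m, n ≤ m → τ.Cρ m (τ.Gp n)
  Cρ_Cσ : ∀ m T, τ.Cρ m T → τ.Cσ m T
  σ_Cρ : ∀ m n, m ≠ n → ∀ a, τ.Cρ n (τ.σ m a)
  slice : ∀ n h, avg (τ.ρ n) ((lg n).ϑ h) (τ.U n) = τ.am ((lg n).sl h)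
  label : ∀ n h ξ, ((√(lg n).p : ℝ) : ℂ) • τ.ρ n (kb ((lg n).ϑ h) (lg n).ω) (τ.V ξ) =
    τ.σ n (kb ((lg n).g h) ((lg n).g h)) (τ.V ξ)
  label_vac : ∀ n h, τ.ρ n (kb (lg n).ω (lg n).ω) * τ.σ n (kb ((lg n).g h) ((lg n).g h)) *
    τ.ρ n (kb (lg n).ω (lg n).ω) = ((lg n).p : ℂ) • τ.ρ n (kb (lg n).ω (lg n).ω)
  cE_self : ∀ n T, τ.cE n n T = T
  cE_succ : ∀ n T, τ.cE n (n + 1) T = avg (τ.ρ n) (lg n).ω T
  cE_cE : ∀ n n' n'' T, n ≤ n' → n' ≤ n'' → τ.cE n n'' T = τ.cE n n' (τ.cE n' n'' T)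
  cE_norm : ∀ n n' T, ‖τ.cE n n' T‖ ≤ ‖T‖
  cE_add : ∀ n n' S T, τ.cE n n' (S + T) = τ.cE n n' S + τ.cE n n' T
  cE_smul : ∀ n n' (c : ℂ) T, τ.cE n n' (c • T) = c • τ.cE n n' T
  cE_Cρ : ∀ n n' m T, n ≤ m → m < n' → τ.Cρ m (τ.cE n n' T)
  cE_left : ∀ n n' S T, (∀ m, n ≤ m → m < n' → τ.Cρ m S) → τ.cE n n' (S * T) = S * τ.cE n n' T
  cE_keep : ∀ n n' z T, (∀ m, n ≤ m → m < n' → τ.Cρ m z) → Commute T z → Commute (τ.cE n n' T) z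
  cE_wlim : ∀ n n' (𝓕 : Filter ℕ) (T : ℕ → E →L[ℂ] E) S, WLim 𝓕 T S →
    WLim 𝓕 (fun a => τ.cE n n' (T a)) (τ.cE n n' S)
  /-- on vectors that are vacuum on the legs `n ≤ m < n'`, `cE` is compression by a contraction -/
  cE_vac : ∀ n n', ∃ P : E →L[ℂ] E, ‖P‖ ≤ 1 ∧ (∀ m, m < n → τ.Cρ m P) ∧ ∀ T θ,
    (∀ m, n ≤ m → m < n' → τ.ρ m (kb (lg m).ω (lg m).ω) θ = θ) → τ.cE n n' T θ = P (T θ)

def JobTWA : Prop := AllTw.{u} fun _ _ _ _ _ _ _ _ _ _ _ _ _ τ => TwAPI τ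

/-- Job DRIFT.  `err (n+1) = U'ₙ (Gₙ⋆ (U'ₙ⋆ Uₙ⋆ - 1) Ω + err n)`; `err n` is fixed by the vacuum projection
`πₙ` of leg `n`, which commutes with `Gₙ = G 0 n`; `πₙ (U'⋆U⋆ - 1)Ω = V (∑ conj ω • Z)` has norm `d`, the
whole vector has squared norm `s2`; so `‖err (n+1)‖² ≤ (‖err n‖ + d)² + s2`. -/
def JobDRIFT : Prop := AllTw.{u} fun _ _ _ _ _ ζ _ _ lg _ _ _ _ τ => ∀ n,
  ‖star (τ.G 0 n) (τ.V ζ) - τ.Gp n (τ.V ζ)‖ ≤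
    ∑ m ∈ Finset.range n, (lg m).d + √(∑ m ∈ Finset.range n, (lg m).s2)

/-- Lifting of columns.  Job LIFT: `ADS C₀ → JobAVG → JobTWA → ∃ C ≥ 1, LIFT C`.  (1) `Near Q P δ` gives: every
`x' ∈ P'` is within `2C₀δ‖x'‖` of `Q'` (`ADS` for the inclusion of `Al Q`).  (2) On `PiLp 2 (Fin (m+1) → E)`
the operator `R` with first column `r` satisfies `‖[R, diag (am x')]‖ ≤ 4C₀δ c ‖x'‖`; `ADS` for
`x' ↦ diag (am x')` on `Al P.commutant`; take the first column of `R₀`.  (3) apply `avg` for the systems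
`ρ n` (`n ∈ A`, vector `ω`) and `σ n` (`n ∈ B`, any unit vector) one after the other (`col`, `keep`, `fix`). -/
def LIFT (C : ℝ) : Prop := AllTw.{u} fun H _ _ _ _ _ _ _ _ E _ _ _ τ =>
  ∀ (P Q : VonNeumannAlgebra H) (δ : ℝ), 0 ≤ δ → Near Q P δ →
    ∀ (A B : Finset ℕ), Disjoint A B → ∀ (m : ℕ) (r : Fin m → E →L[ℂ] E) (c : ℝ), 0 ≤ c → Col r c →
      (∀ i, τ.Ca Q (r i) ∧ (∀ n ∈ A, τ.Cρ n (r i)) ∧ ∀ n ∈ B, τ.Cσ n (r i)) →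
      ∃ r' : Fin m → E →L[ℂ] E, Col (fun i => r i - r' i) (C * δ * c) ∧
        ∀ i, τ.Ca P (r' i) ∧ (∀ n ∈ A, τ.Cρ n (r' i)) ∧ ∀ n ∈ B, τ.Cσ n (r' i)

/-- Job RIESZ.  In the closed subalgebra of operators preserving `X` and commuting with `A`, iterate
`x ↦ 3x² - 2x³` from `A` (`‖A² - A‖ ≤ 3δ+δ²`) to get an idempotent `P`, `‖P - A‖ ≤ 10δ`;
`B = (1 + (A - P))⁻¹` (Neumann series) satisfies `A B P = P`; `g k = B^k P g₀`. -/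
def JobRIESZ : Prop :=
  ∀ (𝔛 : Type u) [NormedAddCommGroup 𝔛] [NormedSpace ℂ 𝔛] [CompleteSpace 𝔛]
    (A A₀ : 𝔛 →L[ℂ] 𝔛) (X : Submodule ℂ 𝔛) (δ : ℝ) (g₀ i : 𝔛), IsClosed (X : Set 𝔛) →
    (∀ x ∈ X, A x ∈ X) → A₀ * A₀ = A₀ → ‖A₀‖ ≤ 1 → 0 ≤ δ → δ ≤ 1 / 100 → ‖A - A₀‖ ≤ δ → g₀ ∈ X →
    A₀ i = i → ‖i‖ ≤ 1 → ‖g₀ - i‖ ≤ δ →
    ∃ g : ℕ → 𝔛, (∀ k, g k ∈ X) ∧ (∀ k, g k = A (g (k + 1))) ∧ (∀ k, ‖g k‖ ≤ 2 * 2 ^ k) ∧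
      ‖g 0 - i‖ ≤ 20 * δ

/-- Job MART.  `φ n V ξ = πₙ φ (n+1) V ξ` (`AvgAPI.vac`, `ρ_V`), so `‖φ n V ξ‖` increases, is bounded, and
`‖(φ n' - φ a) V ξ‖² = ‖φ n' V ξ‖² - ‖φ a V ξ‖² ≤ t(a) → 0`.  With `ℓₙ = σ n (kb g g)` (a projection commuting
with all `φ`): `pₙ ‖Y ρ(kb ϑ ω) V ξ‖² = ‖ℓₙ Y V ξ‖²` (`label`).  Split `φ n' - φ n = (φ n' - φ a) - (φ n - φ a)`.
`∑ₙ ‖ℓₙ Y V ξ‖² = ⟨Y⋆Y V ξ, Z V ξ⟩ ≤ 2c √t(a) ‖Z V ξ‖`, `Z = ∑ ℓₙ`, `‖Z V ξ‖² ≤ (2 + 4)‖ξ‖²` (`label_vac`);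
`φ n - φ a` commutes with `ρ n`, so `‖ℓₙ (φ n - φ a) V ξ‖² = pₙ ‖(φ n - φ a) V ξ‖²`. -/
def JobMART : Prop := AllTw.{u} fun H _ _ _ _ _ ι _ lg E _ _ _ τ =>
  ∀ (φ : ℕ → E →L[ℂ] E) (c : ℝ), (∀ n, ‖φ n‖ ≤ c) → (∀ n m, n ≤ m → τ.Cρ m (φ n)) →
    (∀ n m, τ.Cσ m (φ n)) → (∀ n, φ n = avg (τ.ρ n) (lg n).ω (φ (n + 1))) →
    ∀ (h : ι) (ξ : H) (η : ℝ), 0 < η → ∃ N₀, ∀ a b n', N₀ ≤ a → b ≤ n' →
      ∑ n ∈ Finset.Ico a b, (lg n).p ≤ 2 →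
      ∑ n ∈ Finset.Ico a b, (lg n).p *
        ‖(φ n' - φ n) (τ.ρ n (kb ((lg n).ϑ h) (lg n).ω) (τ.V ξ))‖ ^ 2 ≤ η

/-- Job GOOD (helper9): asymptotically linear lifts along the walk. -/
def GOOD (C δ₀ : ℝ) : Prop := AllTw.{u} fun H _ _ _ M _ ι _ lg E _ _ _ τ =>
  ∀ (N : VonNeumannAlgebra H) (δ : ℝ), 0 ≤ δ → δ ≤ δ₀ → Near M N δ →
    ∃ f : ℕ → E →L[ℂ] E, (∀ n, τ.Ca N (f n) ∧ (∀ m, τ.Cσ m (f n)) ∧ ‖f n - τ.G 0 n‖ ≤ C * δ) ∧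
      ∀ lam : ι → ℂ, (∀ n, ∑ h, lam h • (lg n).sl h = 0) → ∀ (ξ : H) (η : ℝ), 0 < η →
        ∃ N₀, ∀ a b, N₀ ≤ a → ∑ n ∈ Finset.Ico a b, (lg n).p ≤ 2 →
          ∑ n ∈ Finset.Ico a b, (lg n).p *
            ‖(∑ h, lam h • avg (τ.ρ n) ((lg n).ϑ h) (f (n + 1))) (τ.V ξ)‖ ^ 2 ≤ η

/-- Strongly null sequences of `N̂` are small on uniformly integrable vectors of `M̂`.
Job VV: `LIFT C → JobTWA → VV C`.  If not, the bad set is in `𝒰`.  For `w ∈ Pur n`, `q k (w (V ξ)) → 0`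
(`Pur n ⊆` span of (product of `σ`'s) `* am T`; `q k` commutes with the `σ`'s).  Choose bad `n₁, …, n_m` with
`‖q (n_j) (z (n_i) V ζ)‖ ≤ η/(4m)` for `i < j`.  `b = √(1 - q⋆q)` has `‖(1-b)θ‖ ≤ ‖qθ‖`;
`r i = q_i b_{i+1} ⋯ b_m` is a column of norm `≤ 1`; lift it (`LIFT` with `P = M`, `Q = N`, `A = ∅`,
`B = range (max nᵢ)`); some `i` has `‖r' i V ζ‖ ≤ (1 + Cδ)‖ζ‖/√m`; `r' i` commutes with `Pur nᵢ ∋ z nᵢ`. -/
def VV (C : ℝ) : Prop := AllTw.{u} fun H _ _ _ M ζ _ _ _ E _ _ _ τ =>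
  ∀ (N : VonNeumannAlgebra H) (δ : ℝ), 0 ≤ δ → Near N M δ →
    ∀ (𝒰 : Ultrafilter ℕ) (q z : ℕ → E →L[ℂ] E) (R c : ℝ), 0 ≤ c →
      (∀ n, ‖q n‖ ≤ 1 ∧ τ.Ca N (q n) ∧ ∀ m, τ.Cσ m (q n)) →
      (∀ ξ, Tendsto (fun n => q n (τ.V ξ)) (𝒰 : Filter ℕ) (𝓝 0)) →
      (∀ n, z n ∈ τ.Pur n ∧ ‖z n‖ ≤ R ∧ ‖z n (τ.V ζ)‖ ≤ c) →
      ∀ η : ℝ, 0 < η → ∀ᶠ n in (𝒰 : Filter ℕ), ‖q n (z n (τ.V ζ))‖ ≤ C * δ * c + η

/-- The output of the walk.  Job UNDO: from `TOW, AVG, TWA, DRIFT, LIFT C₁, GOOD C₂ δ₀, VV C₁` get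
`∃ C δ₀', WALK C δ₀'`.  `F n h = avg (ρ n) (ϑ h) (f (n+1))` is within `C₂δ` of `am (sl h) * G 0 n` (`slice`,
`mul_right`, `G_mul`).  `a n λ = ∑ λ h • F n h`; since `p ≤ 1` is not summable, windows with `1 ≤ ∑ p ≤ 2`
start anywhere, so the filter `atTop ⊓ ⨅_{λ ∈ Λ, ξ} comap (a · λ (V ξ)) (𝓝 0)` is `NeBot`; `𝒰` an ultrafilter
below it.  `Aₙ = ∑_λ a⋆a`, `qₙ = Aₙ (ε' + Aₙ)⁻¹` (cfc), `‖a (1 - q)‖² ≤ ε'`, `‖q θ‖ ≤ ‖A θ‖/ε'`.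
`wₙ` = lift of `G 0 n` (`LIFT`, `m = 1`, `P = N`, `Q = M`, `A = B = ∅`);
`ℓ h = V⋆ F n h (1 - qₙ) wₙ⋆ V ∈ N`.  Closeness: `(G 0 n)⋆ V (x' ζ) = am x' (G 0 n)⋆ V ζ` is within
`2ε‖x'‖` of `zₙ V ζ`, `zₙ = am x' * Gp n ∈ Pur n` (`DRIFT`), and `VV`. -/
def WALK (C δ₀ : ℝ) : Prop :=
  ∀ (H : Type u) [NormedAddCommGroup H] [InnerProductSpace ℂ H] [CompleteSpace H]
    (M N : VonNeumannAlgebra H) (δ : ℝ), 0 ≤ δ → δ ≤ δ₀ → Near M N δ → Near N M δ →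
    ∀ (ζ : H) (ι : Type) [Fintype ι] (lg : ℕ → Leg M ζ ι) (ε : ℝ), 0 ≤ ε →
      ¬ Summable (fun n => (lg n).p) → (∀ n, ∑ m ∈ Finset.range n, (lg m).d ≤ ε) →
      (∀ n, ∑ m ∈ Finset.range n, (lg m).s2 ≤ ε ^ 2) →
      ∀ (Λ : Finset (ι → ℂ)), (∀ lam ∈ Λ, ∀ n, ∑ h, lam h • (lg n).sl h = 0) →
      ∀ (X' : Finset (H →L[ℂ] H)), (∀ x' ∈ X', x' ∈ M.commutant) → ∀ η : ℝ, 0 < η →
        ∃ (n : ℕ) (ℓ : ι → H →L[ℂ] H), (∀ h, ℓ h ∈ N ∧ ‖ℓ h‖ ≤ 4) ∧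
          (∀ lam ∈ Λ, ‖∑ h, lam h • ℓ h‖ ≤ η) ∧
          ∀ h, ∀ x' ∈ X', ‖(ℓ h - (lg n).sl h) (x' ζ)‖ ≤ C * δ * ‖x' ζ‖ + η + C * ε * ‖x'‖

end Crest.Agent.KN
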