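import Crest.Agent.KN.Defs
import Crest.Agent.KK.L2

/-!
Row 78 (S0103): job statements, part 2 (construction of legs, localisation, net limit).
-/

set_option autoImplicit false
universe u v

namespace Crest.Agent.KN

open scoped InnerProductSpace BigOperators ComplexConjugate ZeroAtInfty
open Filter Topology Crest.Agent.KK

section defs
variable {H : Type u} [NormedAddCommGroup H] [InnerProductSpace ℂ H] [CompleteSpace H]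

/-- `y ± i √(1 - y²)`. -/
noncomputable def Fs (b : Bool) (y : H →L[ℂ] H) : H →L[ℂ] H :=
  y + (cond b Complex.I (-Complex.I)) • cfc (fun t : ℝ => √(1 - t ^ 2)) y

/-- A family of legs with common `I, J, ω, u, g, p`. -/
structure PreLeg (M : VonNeumannAlgebra H) (ζ : H) (ι : Type) where
  I : Type
  J : Type
  [fI : Fintype I]
  [fJ : Fintype J]
  [dI : DecidableEq I]
  [dJ : DecidableEq J]
  ω : I × J → ℂ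
  ω_uv : UV ω
  U : ι → Matrix I I (H →L[ℂ] H)
  U_mem : ∀ h i i', U h i i' ∈ M
  U_l : ∀ h, star (U h) * U h = 1
  U_r : ∀ h, U h * star (U h) = 1
  U' : ι → Matrix J J (H →L[ℂ] H)
  U'_mem : ∀ h j j', U' h j j' ∈ M.commutant
  U'_l : ∀ h, star (U' h) * U' h = 1
  U'_r : ∀ h, U' h * star (U' h) = 1
  p : ℝ
  p_pos : 0 < p
  p_le : p ≤ 1
  u : I → ℂ
  g : J → ℂ
  u_uv : UV u
  g_uv : UV g
  slot : ∀ i, ∑ j, conj (g j) * ω (i, j) = (√p : ℝ) * u i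

attribute [instance] PreLeg.fI PreLeg.fJ PreLeg.dI PreLeg.dJ

/-- The `h`-th leg of a family. -/
def PreLeg.leg {M : VonNeumannAlgebra H} {ζ : H} {ι : Type} (l : PreLeg M ζ ι) (h : ι) :
    Leg M ζ Unit where
  I := l.I
  J := l.J
  ω := l.ω
  ω_uv := l.ω_uv
  U := l.U h
  U_mem := l.U_mem h
  U_l := l.U_l h
  U_r := l.U_r h
  U' := l.U' h
  U'_mem := l.U'_mem h
  U'_l := l.U'_l h
  U'_r := l.U'_r h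
  p := l.p
  p_pos := l.p_pos
  p_le := l.p_le
  u := fun _ => l.u
  g := fun _ => l.g
  u_uv := fun _ => l.u_uv
  g_uv := fun _ => l.g_uv
  slot := fun _ => l.slot

/-- Convolution of sequences. -/
noncomputable def cv (a b : ℤ → ℂ) (n : ℤ) : ℂ := ∑' k, a k * b (n - k)

/-- The scalar data: `bb` a symmetric probability with finite first moment, `κ` a unit vector, `μ` finitely
supported with `u = μ * κ ≠ 0`. -/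
structure Sc where
  bb : ℤ → ℝ
  κ : ℤ → ℂ
  μ : ℤ →₀ ℂ
  bb_nonneg : ∀ n, 0 ≤ bb n
  bb_even : ∀ n, bb (-n) = bb n
  bb_sum : HasSum bb 1
  bb_mom : Summable fun n : ℤ => |(n : ℝ)| * bb n
  κ_sum : HasSum (fun n => ‖κ n‖ ^ 2) 1
  u_ne : ∃ n, cv μ κ n ≠ 0

/-- `c = bb * κ`. -/
noncomputable def Sc.c (s : Sc) : ℤ → ℂ := cv (fun n => (s.bb n : ℂ)) s.κ
/-- `u = μ * κ`. -/
noncomputable def Sc.u (s : Sc) : ℤ → ℂ := cv s.μ s.κ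
/-- The weights of the slice, `|bb * u|² / ‖u‖²`. -/
noncomputable def Sc.w (s : Sc) (n : ℤ) : ℝ :=
  ‖cv (fun n => (s.bb n : ℂ)) s.u n‖ ^ 2 / ∑' k, ‖s.u k‖ ^ 2

/-- Discrete modular data: `D n = Δ^{iτn}`, `a i n = σ_{τn}(xᵢ)`, `a' i n = J (a i n) J`. -/
structure DMD (M : VonNeumannAlgebra H) (ζ : H) (ι : Type) (s : Sc) where
  D : ℤ → H →L[ℂ] H
  D_zero : D 0 = 1
  D_add : ∀ m n, D (m + n) = D m * D n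
  D_star : ∀ n, star (D n) = D (-n)
  D_ζ : ∀ n, D n ζ = ζ
  a : ι → ℤ → H →L[ℂ] H
  a' : ι → ℤ → H →L[ℂ] H
  a_mem : ∀ i n, a i n ∈ M
  a'_mem : ∀ i n, a' i n ∈ M.commutant
  a_sa : ∀ i n, IsSelfAdjoint (a i n)
  a'_sa : ∀ i n, IsSelfAdjoint (a' i n)
  a_le : ∀ i n, ‖a i n‖ ≤ 1 / 2
  a'_le : ∀ i n, ‖a' i n‖ ≤ 1 / 2
  a_cov : ∀ i n k, D k * a i n = a i (n + k) * D k
  a'_cov : ∀ i n k, D k * a' i n = a' i (n + k) * D k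
  kms : ∀ i n m, ∑' k : ℤ, ((s.bb (n - k) : ℂ) * s.c (k - m)) • a i k ζ =
    ∑' k : ℤ, ((s.bb (k - m) : ℂ) * s.c (n - k)) • a' i k ζ

/-- Shift by `k` on `ℓ²(ℤ × ℤ, H)`. -/
noncomputable def sh (H : Type u) [NormedAddCommGroup H] [InnerProductSpace ℂ H] (k : ℤ × ℤ) :
    L2 (ℤ × ℤ) H →L[ℂ] L2 (ℤ × ℤ) H := pm H (Equiv.addRight k)

/-- Convolution with `bb` in the first variable. -/
noncomputable def Sc.b1 (s : Sc) (H : Type u) [NormedAddCommGroup H] [InnerProductSpace ℂ H] :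
    L2 (ℤ × ℤ) H →L[ℂ] L2 (ℤ × ℤ) H := ∑' k : ℤ, (s.bb k : ℂ) • sh H (k, 0)

/-- Convolution with `bb` in the second variable. -/
noncomputable def Sc.b2 (s : Sc) (H : Type u) [NormedAddCommGroup H] [InnerProductSpace ℂ H] :
    L2 (ℤ × ℤ) H →L[ℂ] L2 (ℤ × ℤ) H := ∑' k : ℤ, (s.bb k : ℂ) • sh H (0, k)

namespace DMD
variable {M : VonNeumannAlgebra H} {ζ : H} {ι : Type} {s : Sc} (δ : DMD M ζ ι s)

/-- `y = b π(x) b`. -/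
noncomputable def y (i : ι) : L2 (ℤ × ℤ) H →L[ℂ] L2 (ℤ × ℤ) H :=
  s.b1 H * dg (fun q : ℤ × ℤ => δ.a i q.1) * s.b1 H

/-- `y' = b π'(x) b`. -/
noncomputable def y' (i : ι) : L2 (ℤ × ℤ) H →L[ℂ] L2 (ℤ × ℤ) H :=
  s.b2 H * dg (fun q : ℤ × ℤ => δ.a' i q.2) * s.b2 H

/-- The defect operator `U'⋆ U⋆ - 1` for `U = Fs b y`, `U' = Fs (!b) y'`. -/
noncomputable def df (i : ι) (b : Bool) : L2 (ℤ × ℤ) H →L[ℂ] L2 (ℤ × ℤ) H :=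
  Fs b (δ.y' i) * Fs (!b) (δ.y i) - 1

end DMD

/-- `V` is the vacuum isometry `ξ ↦ ((n,m) ↦ v m κ (n-m) ξ)`. -/
def IsVac (s : Sc) (v : ℤ → ℝ) (V : H →L[ℂ] L2 (ℤ × ℤ) H) : Prop :=
  ∀ ξ q, (V ξ : L2 (ℤ × ℤ) H) q = ((v q.2 : ℂ) * s.κ (q.1 - q.2)) • ξ

/-- The normalised tent of width `S`. -/
noncomputable def tent (S : ℕ) (m : ℤ) : ℝ :=
  max 0 (1 - |(m : ℝ)| / S) / √(∑ k ∈ Finset.Icc (-(S : ℤ)) S, (max 0 (1 - |(k : ℝ)| / S)) ^ 2)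

end defs

/-- Job POLY.  `r = cfc √(1-t²) y`, `r² = 1 - y²`, `r ≥ 4/5`.  `strong`: approximate `√(1-t²)` uniformly on
`[-1/2,1/2]` by real polynomials (Weierstrass, `cfc_polynomial`/`norm_cfc_le`).  `psi`: `r' - r =
(r + r')⁻¹ (y + y') (y - y')`, `r + r' = 2(1 - e)` with `‖e‖ ≤ 1/5`, Neumann series; `Fs b y' * Fs (!b) y - 1 =
(Fs b y' - Fs b y) * Fs (!b) y`; `r` lies in the closed subalgebra (polynomial approximation again). -/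
structure PolyAPI (E : Type u) [NormedAddCommGroup E] [InnerProductSpace ℂ E] [CompleteSpace E] :
    Prop where
  star_Fs : ∀ (b : Bool) (y : E →L[ℂ] E), IsSelfAdjoint y → star (Fs b y) = Fs (!b) y
  mul_Fs : ∀ (b : Bool) (y : E →L[ℂ] E), IsSelfAdjoint y → ‖y‖ ≤ 1 / 2 → Fs b y * Fs (!b) y = 1
  add_Fs : ∀ (y : E →L[ℂ] E), Fs true y + Fs false y = (2 : ℂ) • y
  comm : ∀ (b : Bool) (y T : E →L[ℂ] E), IsSelfAdjoint y → Commute T y → Commute T (Fs b y)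
  strong : ∀ (b : Bool) (y : ℕ → E →L[ℂ] E) (y₀ : E →L[ℂ] E), (∀ k, IsSelfAdjoint (y k)) →
    (∀ k, ‖y k‖ ≤ 1 / 2) → IsSelfAdjoint y₀ → ‖y₀‖ ≤ 1 / 2 →
    (∀ θ, Tendsto (fun k => y k θ) atTop (𝓝 (y₀ θ))) →
    ∀ θ, Tendsto (fun k => Fs b (y k) θ) atTop (𝓝 (Fs b y₀ θ))
  psi : ∀ (b : Bool) (y y' : E →L[ℂ] E), IsSelfAdjoint y → IsSelfAdjoint y' → ‖y‖ ≤ 1 / 2 →
    ‖y'‖ ≤ 1 / 2 → Commute y y' →
    ∃ Ψ ∈ closure (Algebra.adjoin ℂ {y, y'} : Set (E →L[ℂ] E)), Fs b y' * Fs (!b) y - 1 = Ψ * (y - y')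

def JobPOLY : Prop :=
  ∀ (E : Type u) [NormedAddCommGroup E] [InnerProductSpace ℂ E] [CompleteSpace E], PolyAPI E

/-- Job ABS (adiabatic estimate).  `Z₀ = (y - y')Θζ` has `∑ (1+|m|) ‖P m Z₀‖ < ∞`.  Put
`Z₁ = ∑ₘ W m`, `W m₀ = ∑_{k ≥ 0} P m₀ Γ k Z₀ = - ∑_{k < 0} P m₀ Γ k Z₀`, so `‖W m₀‖ ≤ ∑_{|m| ≥ |m₀|} ‖P m Z₀‖`,
`∑ ‖P m Z₁‖ < ∞` and `Z₀ = Z₁ - Γ 1 Z₁`.  Abel summation: `(y - y') V_S ζ = ∑ₘ dv m • Γ m Z₁`,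
`dv m = v m - v (m-1)`, `∑ dv² ≤ C/S²`, and for `Z` with `|||Z||| = ∑ ‖P m Z‖ < ∞`,
`‖∑ dv m • Γ m Z‖ ≤ ‖dv‖₂ |||Z|||` (orthogonality slice by slice).  For `T` in `adjoin {y,y'}` (commutes with
`Γ`, preserves `||| ||| < ∞`), `V_S⋆ ∑ dv m Γ m T Z₁ = ∑ₖ ∑_{m'} dv (m'+k) v m' • D m' (Θ⋆ Γ k T Z₁)`; the weights
`S dv (m'+k) v m'` have bounded `ℓ¹` norm, sum `→ 0` and total variation `→ 0`, so each inner sum times `S` tends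
to `0` (split `H = ker (1 - D 1) ⊕ closure (range (1 - D 1))`), dominated convergence in `k`.  Closure: by
the first bound. -/
def JobABS : Prop :=
  ∀ (H E : Type u) [NormedAddCommGroup H] [InnerProductSpace ℂ H] [CompleteSpace H]
    [NormedAddCommGroup E] [InnerProductSpace ℂ E] [CompleteSpace E]
    (Γ P : ℤ → E →L[ℂ] E) (D : ℤ → H →L[ℂ] H) (Θ : H →L[ℂ] E) (ζ : H) (y y' : E →L[ℂ] E)
    (β : ℤ → ℝ),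
    Γ 0 = 1 → (∀ m n, Γ (m + n) = Γ m * Γ n) → (∀ n, star (Γ n) = Γ (-n)) →
    D 0 = 1 → (∀ m n, D (m + n) = D m * D n) → (∀ n, star (D n) = D (-n)) → (∀ n, D n ζ = ζ) →
    (∀ m, IsSelfAdjoint (P m)) → (∀ m m', P m * P m' = if m = m' then P m else 0) →
    (∀ θ, HasSum (fun m => P m θ) θ) → (∀ m k, Γ k * P m = P (m + k) * Γ k) →
    (∀ ξ, P 0 (Θ ξ) = Θ ξ) → (∀ ξ, ‖Θ ξ‖ = ‖ξ‖) →
    (∀ k, Commute (Γ k) y) → (∀ k, Commute (Γ k) y') → Commute y y' → (∀ m, Commute (P m) y) →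
    (Summable fun m : ℤ => (1 + |(m : ℝ)|) * β m) → (∀ m m', ‖P m * y' * P m'‖ ≤ β (m - m')) →
    (∀ m₀, HasSum (fun k => P m₀ (Γ k ((y - y') (Θ ζ)))) 0) →
    ∀ V : ℕ → H →L[ℂ] E, (∀ S ξ, V S ξ = ∑ m ∈ Finset.Icc (-(S : ℤ)) S,
      (tent S m : ℂ) • Γ m (Θ (D (-m) ξ))) →
    ∀ Ψ ∈ closure (Algebra.adjoin ℂ {y, y'} : Set (E →L[ℂ] E)),
      (∃ C : ℝ, ∀ S : ℕ, 1 ≤ S → ‖Ψ ((y - y') (V S ζ))‖ ≤ C / S) ∧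
      Tendsto (fun S : ℕ => (S : ℝ) *
        ‖ContinuousLinearMap.adjoint (V S) (Ψ ((y - y') (V S ζ)))‖) atTop (𝓝 0)

/-- Job INF: `JobPOLY → JobABS → JobINF`.  `Γ k = sh (k,k) * dg (D k)`, `P m = dg (indicator (q.2 = m))`,
`Θ ξ = ((n,m) ↦ δ_{m,0} κ n ξ)`, `β = bb * bb` (times `1/2`); `b1, b2` are self-adjoint contractions; the
relation `∑ₖ P m₀ Γ k (y - y') Θ ζ = 0` holds coordinatewise by `DMD.kms` (summable since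
`‖P m₀ Γ k Z₀‖ = ‖P (m₀-k) Z₀‖`). -/
def JobINF : Prop :=
  ∀ (H : Type u) [NormedAddCommGroup H] [InnerProductSpace ℂ H] [CompleteSpace H]
    (M : VonNeumannAlgebra H) (ζ : H) (ι : Type) (s : Sc) (δ : DMD M ζ ι s),
    (∀ i, IsSelfAdjoint (δ.y i) ∧ ‖δ.y i‖ ≤ 1 / 2 ∧ IsSelfAdjoint (δ.y' i) ∧ ‖δ.y' i‖ ≤ 1 / 2) ∧
    ∃ V : ℕ → H →L[ℂ] L2 (ℤ × ℤ) H, (∀ S, 1 ≤ S → IsVac s (tent S) (V S)) ∧ ∀ i b,
      (∃ C : ℝ, ∀ S : ℕ, 1 ≤ S → ‖δ.df i b (V S ζ)‖ ≤ C / S) ∧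
      Tendsto (fun S : ℕ => (S : ℝ) * ‖ContinuousLinearMap.adjoint (V S) (δ.df i b (V S ζ))‖)
        atTop (𝓝 0)

/-- Job CUT: `JobPOLY → JobCUT`.  `I = J = Icc (-R) R`, `Q₁, Q₂` the diagonal projections on `|n| ≤ R`, `|m| ≤ R`,
`U = Fs b (Q₁ y Q₁)`, `U' = Fs (!b) (Q₂ y' Q₂)`, entries `ev (n,0) U sg (n',0)`, `ev (0,m) U' sg (0,m')`.
`U` commutes with `sh (0,k)`, with the projections on `q.2 = m`, with `Q₁` and with `dg x'` (`x' ∈ M'`), so it acts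
on the first index by its entries, which lie in `M` and form a unitary matrix.  `ω (n,m) = v m κ (n-m) / N_R`,
`g m = conj (μ m) / (v m √K)`, `K = ∑ |μ m|²/v m²`, `u` = normalised restriction of `s.u`,
`p = ‖u|_R‖²/(K N_R²)` (`≤ 1` by Cauchy–Schwarz).  `Z` is the defect vector `(U'⋆U⋆ - 1) Q₁ V ζ / N_R`; let
`R → ∞` (`PolyAPI.strong`).  `sl true + sl false = 2 ⟨u, y u⟩ = 2 ∑ₖ |(bb * u_R) k|² a i k`. -/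
def JobCUT : Prop :=
  ∀ (H : Type u) [NormedAddCommGroup H] [InnerProductSpace ℂ H] [CompleteSpace H]
    (M : VonNeumannAlgebra H) (ζ : H) (ι : Type) [Fintype ι] (s : Sc) (δ : DMD M ζ ι s),
    (∀ i, IsSelfAdjoint (δ.y i) ∧ ‖δ.y i‖ ≤ 1 / 2 ∧ IsSelfAdjoint (δ.y' i) ∧ ‖δ.y' i‖ ≤ 1 / 2) →
    ∀ (v : ℤ → ℝ) (B : Finset ℤ) (V : H →L[ℂ] L2 (ℤ × ℤ) H), (∀ m, m ∉ B → v m = 0) →
      ∑ m ∈ B, v m ^ 2 = 1 → (∀ m ∈ s.μ.support, 0 < v m) → IsVac s v V →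
      ∀ (A : Finset ℤ) (η : ℝ), 0 < η → ∃ l : PreLeg M ζ (ι × Bool),
        |l.p - (∑' k, ‖s.u k‖ ^ 2) / ∑ m ∈ s.μ.support, ‖s.μ m‖ ^ 2 / v m ^ 2| ≤ η ∧
        (∀ h, (l.leg h).s2 ≤ ‖δ.df h.1 h.2 (V ζ)‖ ^ 2 + η ∧
          (l.leg h).d ≤ ‖ContinuousLinearMap.adjoint V (δ.df h.1 h.2 (V ζ))‖ + η) ∧
        ∃ w : ℤ → ℝ, (∀ n, 0 ≤ w n) ∧ Summable w ∧ ∑' n, w n ≤ 1 ∧ (∀ n ∈ A, |w n - s.w n| ≤ η) ∧
          ∀ i, (l.leg (i, true)).sl () + (l.leg (i, false)).sl () =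
            (2 : ℂ) • ∑' n, (w n : ℂ) • δ.a i n

/-- Job SUM.  `I × ι`, `J × ι`, `ω ((i,h),(j,h')) = δ_{hh'} ω (i,j)/√|ι|`, block diagonal unitaries
(`Matrix.blockDiagonal`), `u h = u ⊗ e_h`, `g h = g ⊗ e_h`. -/
def JobSUM : Prop :=
  ∀ (H : Type u) [NormedAddCommGroup H] [InnerProductSpace ℂ H] [CompleteSpace H]
    (M : VonNeumannAlgebra H) (ζ : H) (ι : Type) [Fintype ι] [Nonempty ι] (l : PreLeg M ζ ι),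
    ∃ L : Leg M ζ ι, L.p = l.p / Fintype.card ι ∧ (∀ h, L.sl h = (l.leg h).sl ()) ∧
      (∀ c, (∀ h, (l.leg h).d ≤ c) → L.d ≤ c) ∧ ∀ c, (∀ h, (l.leg h).s2 ≤ c) → L.s2 ≤ c

/-- Job SCAL1 (Fourier analysis).  `ψ` a real even smooth bump, `bb n ∝ |𝓕ψ_T (τ n/2π)|²` normalised;
`B θ = ∑ bb n e^{-iθτn}` is `L = 2π/τ`-periodic, smooth and vanishes for `T ≤ |θ| ≤ L - T` (Poisson summation,
`SchwartzMap.tsum_eq_tsum_fourier`).  `κ`, `μ₀` = Fourier coefficients (samples of the Fourier transform) of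
`γ χ e^{-a/2}` and `γ⁻¹ B e^{a/2}`, `χ` a smooth bump equal to `1` on `[-T,T]`, supported in `[-T-1,T+1]`,
`L > 2T + T₀ + 2`.  Then `c` = coefficients of `γ B e^{-a/2}`, and both sides of the identity equal
`(1/L) ∫ γ B(a) B(a+ν) e^{-a/2} e^{i(ν+a)τn - iaτm} da`. -/
def JobSCAL1 : Prop :=
  ∀ T₀ t η : ℝ, 0 < T₀ → 0 < t → 0 < η → ∃ (τ : ℝ) (bb : ℤ → ℝ) (κ μ₀ : ℤ → ℂ), 0 < τ ∧ τ ≤ t ∧
    (∀ n, 0 ≤ bb n) ∧ (∀ n, bb (-n) = bb n) ∧ HasSum bb 1 ∧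
    (Summable fun n : ℤ => |(n : ℝ)| * bb n) ∧ HasSum (fun n => ‖κ n‖ ^ 2) 1 ∧
    (Summable fun n => ‖μ₀ n‖) ∧ (∀ n, cv μ₀ κ n = bb n) ∧
    (∑' n : ℤ, if t < |τ * n| then bb n else 0) ≤ η ∧
    ∀ ν : ℝ, |ν| ≤ T₀ → ∀ n m : ℤ,
      ∑' k : ℤ, (bb (n - k) : ℂ) * cv (fun n => (bb n : ℂ)) κ (k - m) *
          Complex.exp (Complex.I * (ν * τ * k)) =
        Complex.exp (ν / 2) * ∑' k : ℤ, (bb (k - m) : ℂ) * cv (fun n => (bb n : ℂ)) κ (n - k) *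
          Complex.exp (Complex.I * (ν * τ * k))

/-- Job SCAL2: `JobSCAL1 → JobSCAL`.  In `L2 ℤ ℂ` let `b = ∑' bb k • shift k` (contraction),
`u⋆ = N^{-1/2} 1_{[0,N)}`, `N = ⌊t₁/τ⌋`, `t ≪ t₁`: `‖shift k u⋆ - u⋆‖² ≤ 2|k|/N`, so `‖b u⋆ - u⋆‖` is small;
`b u⋆ = (μ₀ * u⋆) * κ` with `μ₀ * u⋆ ∈ ℓ¹`; `μ` = a finite truncation; `A = [0,N)`. -/
def JobSCAL : Prop :=
  ∀ T₀ t₁ η : ℝ, 0 < T₀ → 0 < t₁ → 0 < η → ∃ (τ : ℝ) (s : Sc) (A : Finset ℤ), 0 < τ ∧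
    (∀ n ∈ A, |τ * n| ≤ t₁) ∧ 1 - η ≤ ∑ n ∈ A, s.w n ∧
    ∀ ν : ℝ, |ν| ≤ T₀ → ∀ n m : ℤ,
      ∑' k : ℤ, (s.bb (n - k) : ℂ) * s.c (k - m) * Complex.exp (Complex.I * (ν * τ * k)) =
        Complex.exp (ν / 2) * ∑' k : ℤ, (s.bb (k - m) : ℂ) * s.c (n - k) *
          Complex.exp (Complex.I * (ν * τ * k))

/-- Tomita–Takesaki data (`Φ φ = φ(log Δ)`, `D t = Δ^{it}`). -/
structure TTD {H : Type u} [NormedAddCommGroup H] [InnerProductSpace ℂ H] [CompleteSpace H]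
    (M : VonNeumannAlgebra H) (ζ : H) where
  D : ℝ → H →L[ℂ] H
  J : H →L⋆[ℂ] H
  Φ : C₀(ℝ, ℂ) →⋆ₙₐ[ℂ] (H →L[ℂ] H)
  D_zero : D 0 = 1
  D_add : ∀ s t, D (s + t) = D s * D t
  D_star : ∀ t, star (D t) = D (-t)
  D_cont : ∀ ξ, Continuous fun t => D t ξ
  D_ζ : ∀ t, D t ζ = ζ
  D_mem : ∀ t, ∀ x ∈ M, D t * x * D (-t) ∈ M
  J_J : ∀ ξ, J (J ξ) = ξ
  J_inner : ∀ ξ η, ⟪J ξ, J η⟫_ℂ = ⟪η, ξ⟫_ℂ
  J_ζ : J ζ = ζ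
  J_D : ∀ t ξ, J (D t ξ) = D t (J ξ)
  J_mem : ∀ x ∈ M, ∃ x' ∈ M.commutant, ∀ ξ, x' ξ = J (x (J ξ))
  Φ_D : ∀ (t : ℝ) (φ ψ : C₀(ℝ, ℂ)), (∀ ν : ℝ, ψ ν = Complex.exp (Complex.I * (ν * t)) * φ ν) →
    D t * Φ φ = Φ ψ
  Φ_kms : ∀ (φ ψ : C₀(ℝ, ℂ)), (∀ ν : ℝ, ψ ν = Complex.exp (ν / 2) * φ ν) →
    ∀ x ∈ M, IsSelfAdjoint x → Φ ψ (x ζ) = Φ φ (J (x ζ))
  Φ_nondeg : ∀ ξ, (∀ φ, Φ φ ξ = 0) → ξ = 0

/-- Cyclic vectors. -/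
def Cyc {H : Type u} [NormedAddCommGroup H] [InnerProductSpace ℂ H] [CompleteSpace H]
    (M : VonNeumannAlgebra H) (ζ : H) : Prop := Dense {ξ | ∃ x ∈ M, ξ = x ζ}

/-- Job TT (lead; Rieffel–van Daele: `Δ = (2 - R) R⁻¹`, `(2-R)^{1/2} ξ = R^{1/2} J ξ` on `M_sa ζ`). -/
def JobTT : Prop :=
  ∀ (H : Type u) [NormedAddCommGroup H] [InnerProductSpace ℂ H] [CompleteSpace H]
    (M : VonNeumannAlgebra H) (ζ : H), Cyc M ζ → Cyc M.commutant ζ → Nonempty (TTD M ζ)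

/-- Job BAND: `JobSCAL → JobBAND`.  `k ≥ 0` a continuous integrable probability density concentrated near `0`
whose transform `k̂ ν = ∫ k t e^{iνt} dt` has compact support `⊆ [-T₀,T₀]` (`k = |𝓕ψ|²` normalised, scaled).
`x_T ξ = ∫ k t • D t (x (D (-t) ξ)) dt` is in `M`, self-adjoint, `‖x_T‖ ≤ ‖x‖`, linear in `x`,
`x_T ζ = Φ k̂ (x ζ)`, `J x_T ζ = Φ k̂ (J x ζ) = Φ (e^{ν/2} k̂) (x ζ)` (test with `Φ φ`, `Φ_nondeg`, `Φ` is bounded).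
`a i n = D (τn) x_T D (-τn)`, `a' = J a J`; `kms` = `Φ` applied to the scalar identity times `k̂`. -/
def JobBAND : Prop :=
  ∀ (H : Type u) [NormedAddCommGroup H] [InnerProductSpace ℂ H] [CompleteSpace H]
    (M : VonNeumannAlgebra H) (ζ : H), Nonempty (TTD M ζ) →
    ∀ (ι : Type) [Fintype ι] (x : ι → H →L[ℂ] H), (∀ i, x i ∈ M ∧ IsSelfAdjoint (x i) ∧ ‖x i‖ ≤ 1 / 2) →
    ∀ η : ℝ, 0 < η → ∃ (s : Sc) (δ : DMD M ζ ι s) (A : Finset ℤ), 1 - η ≤ ∑ n ∈ A, s.w n ∧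
      (∀ i, ∀ n ∈ A, ‖δ.a i n ζ - x i ζ‖ ≤ η) ∧
      ∀ lam : ι → ℂ, ∑ i, lam i • x i = 0 → ∀ n, ∑ i, lam i • δ.a i n = 0

/-- Legs for a vector with modular data.  Job LEG0: `JobINF → JobCUT → JobBAND → LEG0`
(choose `S` large: `K ≤ C S` since `tent S m ^ 2 ≥ 1/(12 S)` for `|m| ≤ S/2`; then `η'` in `CUT`). -/
def LEG0 : Prop :=
  ∀ (H : Type u) [NormedAddCommGroup H] [InnerProductSpace ℂ H] [CompleteSpace H]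
    (M : VonNeumannAlgebra H) (ζ : H), Nonempty (TTD M ζ) →
    ∀ (ι : Type) [Fintype ι] (x : ι → H →L[ℂ] H), (∀ i, x i ∈ M ∧ IsSelfAdjoint (x i) ∧ ‖x i‖ ≤ 1 / 2) →
    ∀ η : ℝ, 0 < η → ∃ l : PreLeg M ζ (ι × Bool),
      (∀ h, (l.leg h).d ≤ η * l.p ∧ (l.leg h).s2 ≤ η * l.p) ∧
      (∀ lam : ι → ℂ, ∑ i, lam i • x i = 0 →
        ∑ i, lam i • ((l.leg (i, true)).sl () + (l.leg (i, false)).sl ()) = 0) ∧
      ∀ i, ‖((l.leg (i, true)).sl () + (l.leg (i, false)).sl () - (2 : ℂ) • x i) ζ‖ ≤ η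

/-- Reduction to a cyclic and separating vector. -/
structure Red {H : Type u} [NormedAddCommGroup H] [InnerProductSpace ℂ H] [CompleteSpace H]
    (M : VonNeumannAlgebra H) (ζ : H) (H₀ : Type u) [NormedAddCommGroup H₀] [InnerProductSpace ℂ H₀]
    [CompleteSpace H₀] where
  W : H₀ →L[ℂ] H
  M₀ : VonNeumannAlgebra H₀
  ζ₀ : H₀
  κ : Al M₀ →⋆ₙₐ[ℂ] (H →L[ℂ] H)
  κ' : Al M₀.commutant →⋆ₙₐ[ℂ] (H →L[ℂ] H)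
  norm_W : ∀ ξ, ‖W ξ‖ = ‖ξ‖
  W_ζ : W ζ₀ = ζ
  cyc : Cyc M₀ ζ₀
  cyc' : Cyc M₀.commutant ζ₀
  κ_mem : ∀ T, κ T ∈ M
  κ'_mem : ∀ T, κ' T ∈ M.commutant
  κ_W : ∀ T ξ, κ T (W ξ) = W ((T : H₀ →L[ℂ] H₀) ξ)
  κ'_W : ∀ T ξ, κ' T (W ξ) = W ((T : H₀ →L[ℂ] H₀) ξ)
  comp_mem : ∀ x ∈ M, ContinuousLinearMap.adjoint W ∘L x ∘L W ∈ M₀
  κ_comp : ∀ x (hx : x ∈ M), κ ⟨_, comp_mem x hx⟩ = κ 1 * x * κ 1
  κ_one : ∀ z ∈ M.commutant, κ 1 (z ζ) = z ζ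

/-- Job RED.  `e ∈ M` the projection on `closure (M'ζ)`, `e' ∈ M'` the projection on `closure (Mζ)`,
`H₀ = range (e e')`, `M₀` = centralizer of `{W⋆ z W : z ∈ M'}`.  Induction lemma (use it for `(M,e)` and for
`(M',e')`): if `T` commutes with the compressions of `P'`, then `z ζ ↦ z W T ζ₀` (`z ∈ P'`) is bounded by `‖T‖`
(`‖z W T ζ₀‖² = ‖(W⋆z⋆zW)^{1/2} T ζ₀‖² ≤ ‖T‖² ‖zζ‖²`), extend by `0` on `(P'ζ)^⊥`: `κ T ∈ P`, `κ T = e κ T e`,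
`κ T W = W T`; an element of `ePe` is determined by its value at `ζ`, which gives the `⋆`-hom properties.  For
`κ'`: `T ∈ M₀'` commutes with the compressions of `M`, which lie in `M₀`. -/
def JobRED : Prop :=
  ∀ (H : Type u) [NormedAddCommGroup H] [InnerProductSpace ℂ H] [CompleteSpace H]
    (M : VonNeumannAlgebra H) (ζ : H),
    ∃ (H₀ : Type u) (_ : NormedAddCommGroup H₀) (_ : InnerProductSpace ℂ H₀) (_ : CompleteSpace H₀),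
      Nonempty (Red M ζ H₀)

/-- Legs for an arbitrary vector.  Job LEG: `JobRED → JobTT → LEG0 → JobSUM → LEG`.  Transport the `PreLeg` for
`(M₀, ζ₀, W⋆ xᵢ W)`: `U ↦ κ U + (± i)(1 - κ 1)`, `U' ↦ κ' U' + (1 - κ' 1)` (diagonal), `Z ↦ W Z`,
`sl ↦ κ sl ± i (1 - κ 1)`; then `JobSUM` (if `ι` is empty use `ι ⊕ Unit` or a trivial leg). -/
def LEG : Prop :=
  ∀ (H : Type u) [NormedAddCommGroup H] [InnerProductSpace ℂ H] [CompleteSpace H]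
    (M : VonNeumannAlgebra H) (ζ : H), ∃ e ∈ M, IsSelfAdjoint e ∧
      (∀ z ∈ M.commutant, e (z ζ) = z ζ) ∧
    ∀ (ι : Type) [Fintype ι] [Nonempty ι] (x : ι → H →L[ℂ] H),
      (∀ i, x i ∈ M ∧ IsSelfAdjoint (x i) ∧ ‖x i‖ ≤ 1 / 2) →
      ∀ η : ℝ, 0 < η → ∃ l : Leg M ζ (ι × Bool), l.d ≤ η * l.p ∧ l.s2 ≤ η * l.p ∧
        (∀ lam : ι → ℂ, ∑ i, lam i • x i = 0 → ∑ h : ι × Bool, lam h.1 • l.sl h = 0) ∧
        ∀ i, ‖(l.sl (i, true) + l.sl (i, false) - (2 : ℂ) • (e * x i * e)) ζ‖ ≤ η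

/-- Local linear lifting.  Job LOC: `LEG → WALK C δ₀ → LOC C δ₀`.  Amplify to `PiLp 2 (Fin (m+1) → H)` (`M ⊗ 1` =
centralizer of the diagonal `M'` and the matrix units), `ζ = (ξ₀,…,ξ_m)`, test vectors `e_{0k} ζ`.  Legs `l j`
with `η_j = ε' 2^{-j}`; `lg n = l ⌊P n⌋`, `P n = ∑_{m<n} p`: `∑ p = ∞`, `∑ 2^{-⌊P n⌋} pₙ ≤ 4`
(`1 - 2^{-p} ≥ p/2`).  `ℓ i = (ℓ (i,true) + ℓ (i,false))/2` compressed to the `0`-th coordinate. -/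
def LOC (C δ₀ : ℝ) : Prop :=
  ∀ (H : Type u) [NormedAddCommGroup H] [InnerProductSpace ℂ H] [CompleteSpace H]
    (M N : VonNeumannAlgebra H) (δ : ℝ), 0 ≤ δ → δ ≤ δ₀ → Near M N δ → Near N M δ →
    ∀ (ι : Type) [Fintype ι] [Nonempty ι] (x : ι → H →L[ℂ] H),
      (∀ i, x i ∈ M ∧ IsSelfAdjoint (x i) ∧ ‖x i‖ ≤ 1 / 2) →
      ∀ (Λ : Finset (ι → ℂ)), (∀ lam ∈ Λ, ∑ i, lam i • x i = 0) →
      ∀ (m : ℕ) (ξ : Fin m → H) (η : ℝ), 0 < η →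
        ∃ ℓ : ι → H →L[ℂ] H, (∀ i, ℓ i ∈ N ∧ ‖ℓ i‖ ≤ 4) ∧ (∀ lam ∈ Λ, ‖∑ i, lam i • ℓ i‖ ≤ η) ∧
          ∀ i k k', ‖⟪ξ k', (ℓ i - x i) (ξ k)⟫_ℂ‖ ≤ C * δ * ‖ξ k‖ * ‖ξ k'‖ + η

/-- Job NET: `JobWL → LOC C δ₀ → LIN (4 * C) δ₀`.  `𝓑` = self-adjoint elements of `M` of norm `≤ 1/2`; index set
`Finset 𝓑 × Finset (𝓑 →₀ ℂ) × Finset H × ℕ`, an ultrafilter below `atTop`; `LOC` (enumerate the finset by
`Fin`) gives `ℓ_α : 𝓑 → N`; weak limits `ℓ x ∈ N`, `‖ℓ x - x‖ ≤ Cδ`, all finite relations hold exactly; descend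
`Finsupp.linearCombination ℓ` along the surjection `(𝓑 →₀ ℂ) → Al M`. -/
def JobNET : Prop :=
  ∀ C δ₀ : ℝ, 0 ≤ C → LOC.{u} C δ₀ → LIN.{u} (4 * C) δ₀

end Crest.Agent.KN
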