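import Crest.Agent.KN.RIESZ

/-! Row 78, job GOOD: asymptotically linear lifts along the collision walk. -/

set_option autoImplicit false
universe u v

namespace Crest.Agent.KN

open scoped InnerProductSpace BigOperators ComplexConjugate BoundedContinuousFunction
open Filter Topology

namespace GOODx

section wl
variable {E : Type u} [NormedAddCommGroup E] [InnerProductSpace ℂ E] [CompleteSpace E]
  {𝓕 : Filter ℕ} {T T' : ℕ → E →L[ℂ] E} {S S' : E →L[ℂ] E}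

omit [CompleteSpace E] in
lemma wl_unique [𝓕.NeBot] (h : WLim 𝓕 T S) (h' : WLim 𝓕 T' S') (e : ∀ᶠ a in 𝓕, T a = T' a) :
    S = S' := by
  ext ξ
  refine ext_inner_left ℂ fun η => tendsto_nhds_unique (h η ξ) ((h' η ξ).congr' ?_)
  exact e.mono fun a ha => by simp only [ha]

omit [CompleteSpace E] in
lemma wl_const (S : E →L[ℂ] E) : WLim 𝓕 (fun _ => S) S := fun _ _ => tendsto_const_nhds

lemma wl_mul_left (h : WLim 𝓕 T S) (z : E →L[ℂ] E) : WLim 𝓕 (fun a => z * T a) (z * S) :=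
  fun η ξ => by
    simpa only [ContinuousLinearMap.mul_apply, ← ContinuousLinearMap.adjoint_inner_left z] using
      h (ContinuousLinearMap.adjoint z η) ξ

omit [CompleteSpace E] in
lemma wl_mul_right (h : WLim 𝓕 T S) (z : E →L[ℂ] E) : WLim 𝓕 (fun a => T a * z) (S * z) :=
  fun η ξ => h η (z ξ)

omit [CompleteSpace E] in
lemma wl_add (h : WLim 𝓕 T S) (h' : WLim 𝓕 T' S') : WLim 𝓕 (fun a => T a + T' a) (S + S') :=
  fun η ξ => by
    simpa only [ContinuousLinearMap.add_apply, inner_add_right] using (h η ξ).add (h' η ξ)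

omit [CompleteSpace E] in
lemma wl_smul (h : WLim 𝓕 T S) (c : ℂ) : WLim 𝓕 (fun a => c • T a) (c • S) :=
  fun η ξ => by
    simpa only [ContinuousLinearMap.smul_apply, inner_smul_right] using (h η ξ).const_mul c

lemma wl_comm [𝓕.NeBot] (h : WLim 𝓕 T S) {z : E →L[ℂ] E} (hz : ∀ᶠ a in 𝓕, Commute (T a) z) :
    Commute S z := wl_unique (wl_mul_right h z) (wl_mul_left h z) hz

omit [CompleteSpace E] in
/-- Weak lower semicontinuity of weighted sums of squared norms. -/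
lemma lsc [𝓕.NeBot] (W : Finset ℕ) (p : ℕ → ℝ) (hp : ∀ n, 0 ≤ p n) (y : ℕ → E) (x : ℕ → ℕ → E)
    (h : ∀ n ∈ W, Tendsto (fun a => ⟪y n, x n a⟫_ℂ) 𝓕 (𝓝 ⟪y n, y n⟫_ℂ)) (c : ℝ)
    (hc : ∀ᶠ a in 𝓕, ∑ n ∈ W, p n * ‖x n a‖ ^ 2 ≤ c) : ∑ n ∈ W, p n * ‖y n‖ ^ 2 ≤ c := by
  have h1 : Tendsto (fun a => ∑ n ∈ W, p n * (⟪y n, x n a⟫_ℂ).re) 𝓕
      (𝓝 (∑ n ∈ W, p n * ‖y n‖ ^ 2)) := tendsto_finset_sum _ fun n hn => by
    have := (Complex.continuous_re.tendsto _).comp (h n hn)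
    rw [inner_self_eq_norm_sq_to_K] at this
    have e : ((‖y n‖ : ℂ) ^ 2).re = ‖y n‖ ^ 2 := by
      rw [← Complex.ofReal_pow, Complex.ofReal_re]
    exact (e ▸ this : Tendsto _ _ (𝓝 (‖y n‖ ^ 2))).const_mul _
  have h2 := le_of_tendsto h1 (b := (∑ n ∈ W, p n * ‖y n‖ ^ 2 + c) / 2) (hc.mono fun a ha => by
    have : ∑ n ∈ W, p n * (⟪y n, x n a⟫_ℂ).re ≤
        ∑ n ∈ W, (p n * ‖y n‖ ^ 2 + p n * ‖x n a‖ ^ 2) / 2 := Finset.sum_le_sum fun n _ => by
      have t1 : (⟪y n, x n a⟫_ℂ).re ≤ ‖y n‖ * ‖x n a‖ :=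
        (Complex.re_le_norm _).trans (norm_inner_le_norm _ _)
      have t2 : ‖y n‖ * ‖x n a‖ ≤ (‖y n‖ ^ 2 + ‖x n a‖ ^ 2) / 2 := by
        nlinarith [sq_nonneg (‖y n‖ - ‖x n a‖)]
      have := mul_le_mul_of_nonneg_left (t1.trans t2) (hp n)
      linarith
    rw [← Finset.sum_div, Finset.sum_add_distrib] at this
    linarith)
  linarith

end wl

section kb
variable {K : Type} [Fintype K] [DecidableEq K]

omit [Fintype K] [DecidableEq K] in
lemma star_kb (a b : K → ℂ) : star (kb a b) = kb b a := by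
  ext i j
  simp [kb, Matrix.vecMulVec_apply, mul_comm]

omit [DecidableEq K] in
lemma kb_mul {b : K → ℂ} (hb : UV b) (a c : K → ℂ) : kb a b * kb b c = kb a c := by
  ext i j
  have : ∑ k, conj (b k) * b k = 1 := by
    simp only [Complex.conj_mul']
    exact_mod_cast hb
  simp only [kb, Matrix.mul_apply, Matrix.vecMulVec_apply, Pi.star_apply, RCLike.star_def]
  calc ∑ k, a i * conj (b k) * (b k * conj (c j)) = a i * conj (c j) * ∑ k, conj (b k) * b k := by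
        rw [Finset.mul_sum]; exact Finset.sum_congr rfl fun k _ => by ring
    _ = _ := by rw [this, mul_one]

variable {E : Type u} [NormedAddCommGroup E] [InnerProductSpace ℂ E] [CompleteSpace E]

lemma norm_kb (ρ : Matrix K K ℂ →⋆ₐ[ℂ] (E →L[ℂ] E)) {a b : K → ℂ} (ha : UV a) (hb : UV b) :
    ‖ρ (kb a b)‖ ≤ 1 := by
  have h : IsStarProjection (star (ρ (kb a b)) * ρ (kb a b)) := by
    refine ⟨?_, IsSelfAdjoint.star_mul_self _⟩
    rw [IsIdempotentElem, ← map_star, ← map_mul, ← map_mul, star_kb, kb_mul ha, kb_mul hb]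
  have h1 := h.norm_le
  rw [CStarRing.norm_star_mul_self] at h1
  nlinarith [norm_nonneg (ρ (kb a b))]

lemma comm_star (ρ : Matrix K K ℂ →⋆ₐ[ℂ] (E →L[ℂ] E)) {T : E →L[ℂ] E}
    (h : ∀ m, Commute T (ρ m)) (m : Matrix K K ℂ) : Commute (star T) (ρ m) := by
  have := (h (star m)).star_star
  rwa [← map_star, star_star] at this

end kb

variable {H : Type u} [NormedAddCommGroup H] [InnerProductSpace ℂ H] [CompleteSpace H]
  {M : VonNeumannAlgebra H} {ζ : H} {ι : Type} [Fintype ι] {lg : ℕ → Leg M ζ ι} {E : Type u}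
  [NormedAddCommGroup E] [InnerProductSpace ℂ E] [CompleteSpace E] (τ : Tw lg E)

open Classical in
/-- Weak limit along the hyperfilter. -/
noncomputable def wl (T : ℕ → E →L[ℂ] E) : E →L[ℂ] E :=
  if h : ∃ S, WLim (hyperfilter ℕ : Filter ℕ) T S then h.choose else 0

lemma wl_spec (a : JobWL.{u, 0}) {T : ℕ → E →L[ℂ] E} {c : ℝ} (h : ∀ n, ‖T n‖ ≤ c) :
    WLim (hyperfilter ℕ : Filter ℕ) T (wl T) ∧ ‖wl T‖ ≤ c := by
  obtain ⟨S, h1, h2⟩ := a E ℕ (hyperfilter ℕ) T c (Eventually.of_forall h)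
  have h3 : WLim (hyperfilter ℕ : Filter ℕ) T (wl T) := by
    unfold wl
    rw [dif_pos ⟨S, h2⟩]
    exact (⟨S, h2⟩ : ∃ S, WLim (hyperfilter ℕ : Filter ℕ) T S).choose_spec
  refine ⟨h3, ?_⟩
  rwa [wl_unique h3 h2 (Eventually.of_forall fun _ => rfl)]

lemma ev_ge (n : ℕ) : ∀ᶠ a in (hyperfilter ℕ : Filter ℕ), n ≤ a :=
  Nat.hyperfilter_le_atTop (eventually_ge_atTop n)

variable (a : JobWL.{u, 0}) (c : TwAPI τ)

omit [Fintype ι] in
include c in
lemma bd {w : ℕ → ℕ → E →L[ℂ] E} {γ : ℝ} (hw : ∀ n n', ‖w n n'‖ ≤ γ) (g : ℕ →ᵇ (E →L[ℂ] E))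
    (n n' : ℕ) : ‖τ.cE n n' (star (w n n') * g n')‖ ≤ γ * ‖g‖ :=
  (c.cE_norm _ _ _).trans ((norm_mul_le _ _).trans (by
    rw [norm_star]
    exact mul_le_mul (hw n n') (g.norm_coe_le_norm n') (norm_nonneg _)
      ((norm_nonneg _).trans (hw n n'))))

/-- The averaging operator. -/
noncomputable def Aw (w : ℕ → ℕ → E →L[ℂ] E) (γ : ℝ) (hw : ∀ n n', ‖w n n'‖ ≤ γ) :
    (ℕ →ᵇ (E →L[ℂ] E)) →L[ℂ] (ℕ →ᵇ (E →L[ℂ] E)) :=
  LinearMap.mkContinuous
    { toFun := fun g => BoundedContinuousFunction.ofNormedAddCommGroupDiscrete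
        (fun n => wl fun n' => τ.cE n n' (star (w n n') * g n')) (γ * ‖g‖)
        fun n => (wl_spec a (bd τ c hw g n)).2
      map_add' := fun g g' => by
        ext1 n
        refine wl_unique (wl_spec a (bd τ c hw (g + g') n)).1
          (wl_add (wl_spec a (bd τ c hw g n)).1 (wl_spec a (bd τ c hw g' n)).1)
          (Eventually.of_forall fun n' => ?_)
        simp only [BoundedContinuousFunction.add_apply, mul_add, c.cE_add]
      map_smul' := fun t g => by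
        ext1 n
        refine wl_unique (wl_spec a (bd τ c hw (t • g) n)).1
          (wl_smul (wl_spec a (bd τ c hw g n)).1 t) (Eventually.of_forall fun n' => ?_)
        simp only [BoundedContinuousFunction.smul_apply, mul_smul_comm, c.cE_smul] } γ
    fun g => (BoundedContinuousFunction.norm_le (mul_nonneg ((norm_nonneg _).trans (hw 0 0))
      (norm_nonneg _))).2 fun n => (wl_spec a (bd τ c hw g n)).2

variable {w : ℕ → ℕ → E →L[ℂ] E} {γ : ℝ} (hw : ∀ n n', ‖w n n'‖ ≤ γ)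

omit [Fintype ι] in
lemma Aw_wl (g : ℕ →ᵇ (E →L[ℂ] E)) (n : ℕ) :
    WLim (hyperfilter ℕ : Filter ℕ) (fun n' => τ.cE n n' (star (w n n') * g n'))
      (Aw τ a c w γ hw g n) := (wl_spec a (bd τ c hw g n)).1

omit [Fintype ι] in
lemma norm_Aw : ‖Aw τ a c w γ hw‖ ≤ γ :=
  LinearMap.mkContinuous_norm_le _ ((norm_nonneg _).trans (hw 0 0)) _

omit [Fintype ι] in
lemma Aw_Cρ (g : ℕ →ᵇ (E →L[ℂ] E)) {n m : ℕ} (h : n ≤ m) : τ.Cρ m (Aw τ a c w γ hw g n) :=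
  fun x => wl_comm (Aw_wl τ a c hw g n) ((ev_ge (m + 1)).mono fun _ h' => c.cE_Cρ _ _ _ _ h h' x)

omit [Fintype ι] in
lemma Aw_Cσ (hρ : ∀ n n' m, m < n → τ.Cρ m (w n n')) (g : ℕ →ᵇ (E →L[ℂ] E))
    (hg : ∀ n m, m < n → τ.Cσ m (g n)) (n m : ℕ) : τ.Cσ m (Aw τ a c w γ hw g n) := by
  rcases le_or_gt n m with h | h
  · exact c.Cρ_Cσ _ _ (Aw_Cρ τ a c hw g h)
  · intro x
    refine wl_comm (Aw_wl τ a c hw g n) ((ev_ge n).mono fun n' h' => ?_)
    refine c.cE_keep _ _ _ _ (fun m' h1 _ => c.σ_Cρ m m' (by omega) x) ?_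
    exact (comm_star (τ.σ m) (c.Cρ_Cσ _ _ (hρ n n' m h)) x).mul_left (hg n' m (by omega) x)

omit [Fintype ι] in
lemma Aw_Ca (N : VonNeumannAlgebra H) (hN : ∀ n n', τ.Ca N (w n n')) (g : ℕ →ᵇ (E →L[ℂ] E))
    (hg : ∀ n, τ.Ca N (g n)) (n : ℕ) : τ.Ca N (Aw τ a c w γ hw g n) := by
  intro y hy
  refine wl_comm (Aw_wl τ a c hw g n) (Eventually.of_forall fun n' => ?_)
  refine c.cE_keep _ _ _ _ (fun m' _ _ x => (τ.ρ_am m' x y).symm) (Commute.mul_left ?_ (hg n' y hy))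
  have := (hN n n' (star y) (star_mem hy)).star_star
  rwa [← map_star, star_star] at this

omit [Fintype ι] in
include c in
lemma norm_G (n n' : ℕ) : ‖τ.G n n'‖ ≤ 1 := by
  have h : IsStarProjection (star (τ.G n n') * τ.G n n') := by
    rw [(c.G_unit n n').1]; exact IsStarProjection.one _
  have h1 := h.norm_le
  rw [CStarRing.norm_star_mul_self] at h1
  nlinarith [norm_nonneg (τ.G n n')]

omit [Fintype ι] in
lemma A0_harm (g : ℕ →ᵇ (E →L[ℂ] E)) {n n' : ℕ} (h : n ≤ n') :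
    τ.cE n n' (star (τ.G n n') * Aw τ a c τ.G 1 (norm_G τ c) g n') =
      Aw τ a c τ.G 1 (norm_G τ c) g n := by
  refine wl_unique (c.cE_wlim n n' _ _ _ (wl_mul_left (Aw_wl τ a c (norm_G τ c) g n') _))
    (Aw_wl τ a c (norm_G τ c) g n) ((ev_ge n').mono fun n'' h' => ?_)
  rw [← c.cE_left n' n'' _ _ fun m h1 _ => comm_star (τ.ρ m) (c.G_Cρ n n' m (Or.inr h1)),
    ← c.cE_cE _ _ _ _ h h', c.G_mul n n' n'' h h', star_mul, mul_assoc]

omit [Fintype ι] in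
lemma A0_idem : Aw τ a c τ.G 1 (norm_G τ c) * Aw τ a c τ.G 1 (norm_G τ c) =
    Aw τ a c τ.G 1 (norm_G τ c) := by
  ext1 g; ext1 n
  exact wl_unique (Aw_wl τ a c (norm_G τ c) _ n) (wl_const _)
    ((ev_ge n).mono fun n' h => A0_harm τ a c g h)

omit [Fintype ι] in
lemma cE_fix (b : JobAVG.{u}) (n : ℕ) (T : E →L[ℂ] E) (hT : ∀ m, n ≤ m → τ.Cρ m T) :
    ∀ n', τ.cE n n' T = T
  | 0 => rfl
  | n' + 1 => by
    rw [Tw.cE]
    split_ifs with h
    · rw [(b E _ (τ.ρ n') _ (lg n').ω_uv).fix T (hT n' h), cE_fix b n T hT n']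
    · rfl

/-- The relation vector. -/
noncomputable def rel (lam : ι → ℂ) (ξ : H) (n : ℕ) (T : E →L[ℂ] E) : E :=
  (∑ h, lam h • avg (τ.ρ n) ((lg n).ϑ h) T) (τ.V ξ)

variable (b : JobAVG.{u}) (lam : ι → ℂ) (ξ : H)

include b c in
lemma rel_eq (n : ℕ) (T : E →L[ℂ] E) : rel τ lam ξ n T = ∑ h, lam h •
    τ.ρ n (kb (lg n).ω ((lg n).ϑ h)) (T (τ.ρ n (kb ((lg n).ϑ h) (lg n).ω) (τ.V ξ))) := by
  simp only [rel, ContinuousLinearMap.sum_apply, ContinuousLinearMap.smul_apply]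
  refine Finset.sum_congr rfl fun h _ => ?_
  have := congrArg (fun S => S (τ.V ξ)) ((b E _ (τ.ρ n) _ (c.ϑ_uv n h)).vac _ (lg n).ω_uv T)
  simp only [ContinuousLinearMap.mul_apply, τ.ρ_V] at this
  rw [this]

include b c in
lemma rel_add (n : ℕ) (S T : E →L[ℂ] E) :
    rel τ lam ξ n (S + T) = rel τ lam ξ n S + rel τ lam ξ n T := by
  simp only [rel_eq τ c b, ContinuousLinearMap.add_apply, map_add, smul_add, Finset.sum_add_distrib]

include b c in
lemma rel_le (n : ℕ) (T : E →L[ℂ] E) : ‖rel τ lam ξ n T‖ ≤ (∑ h, ‖lam h‖) * ‖T‖ * ‖ξ‖ := by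
  refine (ContinuousLinearMap.le_opNorm _ _).trans ?_
  rw [τ.norm_V]
  gcongr
  rw [Finset.sum_mul]
  refine (norm_sum_le _ _).trans (Finset.sum_le_sum fun h _ => ?_)
  rw [norm_smul]
  gcongr
  exact (b E _ (τ.ρ n) _ (c.ϑ_uv n h)).norm_le T

include b in
/-- The contraction estimate. -/
lemma rel_Aw (hρ : ∀ n n' m, m < n → τ.Cρ m (w n n')) (g : ℕ →ᵇ (E →L[ℂ] E)) (W : Finset ℕ)
    (ν : ℕ → ℕ) (hν : ∀ n ∈ W, n < ν n) (B : ℝ)
    (hB : ∀ᶠ n' in (hyperfilter ℕ : Filter ℕ),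
      ∑ n ∈ W, (lg n).p * ‖rel τ lam ξ n (g n')‖ ^ 2 ≤ B) :
    ∑ n ∈ W, (lg n).p * ‖rel τ lam ξ n (Aw τ a c w γ hw g (ν n))‖ ^ 2 ≤ γ ^ 2 * B := by
  have hγ : 0 ≤ γ := (norm_nonneg _).trans (hw 0 0)
  refine lsc (𝓕 := (hyperfilter ℕ : Filter ℕ)) W _ (fun n => (lg n).p_pos.le) _
    (fun n n' => rel τ lam ξ n (τ.cE (ν n) n' (star (w (ν n) n') * g n'))) (fun n _ => ?_) _
    (hB.mono fun n' h => ?_)
  · suffices H : ∀ y : E, Tendsto (fun n' => ⟪y,
        rel τ lam ξ n (τ.cE (ν n) n' (star (w (ν n) n') * g n'))⟫_ℂ) (hyperfilter ℕ : Filter ℕ)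
        (𝓝 ⟪y, rel τ lam ξ n (Aw τ a c w γ hw g (ν n))⟫_ℂ) from H _
    intro y
    simp only [rel, ContinuousLinearMap.sum_apply, ContinuousLinearMap.smul_apply, inner_sum,
      inner_smul_right]
    exact tendsto_finset_sum _ fun h _ => (((b E _ (τ.ρ n) _ (c.ϑ_uv n h)).wlim _ _ _
      (Aw_wl τ a c hw g (ν n))) y (τ.V ξ)).const_mul _
  · refine le_trans ?_ (mul_le_mul_of_nonneg_left h (sq_nonneg γ))
    rw [Finset.mul_sum]
    refine Finset.sum_le_sum fun n hn => ?_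
    have key : ‖rel τ lam ξ n (τ.cE (ν n) n' (star (w (ν n) n') * g n'))‖ ≤
        γ * ‖rel τ lam ξ n (g n')‖ := by
      obtain ⟨P, p1, p2, p3⟩ := c.cE_vac (ν n) n'
      have e : rel τ lam ξ n (τ.cE (ν n) n' (star (w (ν n) n') * g n')) =
          (P * star (w (ν n) n')) (rel τ lam ξ n (g n')) := by
        simp only [rel_eq τ c b, map_sum, map_smul]
        refine Finset.sum_congr rfl fun h _ => ?_
        congr 1
        rw [p3]
        · have hc : Commute (P * star (w (ν n) n')) (τ.ρ n (kb (lg n).ω ((lg n).ϑ h))) :=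
            (p2 n (hν n hn) _).mul_left (comm_star (τ.ρ n) (hρ _ _ n (hν n hn)) _)
          exact (congrArg (fun S => S (g n' (τ.ρ n (kb ((lg n).ϑ h) (lg n).ω) (τ.V ξ)))) hc.eq).symm
        · intro m h1 _
          have := congrArg (fun S => S (τ.V ξ)) (τ.ρ_ρ m n (by have := hν n hn; omega)
            (kb (lg m).ω (lg m).ω) (kb ((lg n).ϑ h) (lg n).ω)).eq
          simpa only [ContinuousLinearMap.mul_apply, τ.ρ_V] using this
      rw [e]
      refine (ContinuousLinearMap.le_opNorm _ _).trans ?_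
      gcongr
      refine (norm_mul_le _ _).trans ?_
      rw [norm_star]
      nlinarith [hw (ν n) n', norm_nonneg (w (ν n) n'), norm_nonneg P]
    have := (lg n).p_pos.le
    calc (lg n).p * ‖rel τ lam ξ n (τ.cE (ν n) n' (star (w (ν n) n') * g n'))‖ ^ 2
        ≤ (lg n).p * (γ * ‖rel τ lam ξ n (g n')‖) ^ 2 := by gcongr
      _ = _ := by ring

include b in
/-- The martingale part. -/
lemma rel_A0 (hl : ∀ n, ∑ h, lam h • (lg n).sl h = 0) (g : ℕ →ᵇ (E →L[ℂ] E)) {n n' : ℕ}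
    (hn : n < n') :
    ‖rel τ lam ξ n (Aw τ a c τ.G 1 (norm_G τ c) g n')‖ ^ 2 ≤ (∑ h, ‖lam h‖ ^ 2) * ∑ h,
      ‖(star (τ.G 0 n') * Aw τ a c τ.G 1 (norm_G τ c) g n' -
        star (τ.G 0 n) * Aw τ a c τ.G 1 (norm_G τ c) g n)
        (τ.ρ n (kb ((lg n).ϑ h) (lg n).ω) (τ.V ξ))‖ ^ 2 := by
  set φ := star (τ.G 0 n) * Aw τ a c τ.G 1 (norm_G τ c) g n with hφ
  set φ' := star (τ.G 0 n') * Aw τ a c τ.G 1 (norm_G τ c) g n' with hφ'
  have e1 : Aw τ a c τ.G 1 (norm_G τ c) g n' = τ.G 0 n' * φ + τ.G 0 n' * (φ' - φ) := by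
    rw [← mul_add, add_sub_cancel, hφ', ← mul_assoc, (c.G_unit 0 n').2, one_mul]
  have e2 : rel τ lam ξ n (τ.G 0 n' * φ) = 0 := by
    have h1 : τ.Cρ n (τ.G 0 n * φ) := by
      rw [hφ, ← mul_assoc, (c.G_unit 0 n).2, one_mul]
      exact Aw_Cρ τ a c _ g le_rfl
    have h2 : ∀ h, avg (τ.ρ n) ((lg n).ϑ h) (τ.G 0 n' * φ) =
        τ.G (n + 1) n' * (τ.am ((lg n).sl h) * (τ.G 0 n * φ)) := fun h => by
      have A := b E _ (τ.ρ n) _ (c.ϑ_uv n h)
      rw [c.G_mul 0 (n + 1) n' (by omega) hn, c.G_mul 0 n (n + 1) (by omega) (by omega), c.G_succ,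
        mul_assoc, A.mul_left _ _ (c.G_Cρ _ _ n (Or.inl (by omega))), mul_assoc,
        A.mul_right _ _ h1, c.slice]
    have h3 : ∑ h, lam h • avg (τ.ρ n) ((lg n).ϑ h) (τ.G 0 n' * φ) =
        τ.G (n + 1) n' * (τ.am (∑ h, lam h • (lg n).sl h) * (τ.G 0 n * φ)) := by
      simp only [h2, map_sum, map_smul, Finset.sum_mul, Finset.mul_sum, smul_mul_assoc,
        mul_smul_comm]
    rw [rel, h3, hl, map_zero, zero_mul, mul_zero, ContinuousLinearMap.zero_apply]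
  rw [e1, rel_add τ c b, e2, zero_add, rel_eq τ c b]
  refine le_trans ?_ (Finset.sum_mul_sq_le_sq_mul_sq _ _ _)
  gcongr
  refine (norm_sum_le _ _).trans (Finset.sum_le_sum fun h _ => ?_)
  rw [norm_smul]
  gcongr
  have t1 := norm_kb (τ.ρ n) (lg n).ω_uv (c.ϑ_uv n h)
  have t2 := norm_G τ c 0 n'
  refine (ContinuousLinearMap.le_opNorm _ _).trans ?_
  rw [ContinuousLinearMap.mul_apply]
  have t3 := (τ.G 0 n').le_opNorm ((φ' - φ) (τ.ρ n (kb ((lg n).ϑ h) (lg n).ω) (τ.V ξ)))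
  calc _ ≤ 1 * (1 * ‖(φ' - φ) (τ.ρ n (kb ((lg n).ϑ h) (lg n).ω) (τ.V ξ))‖) := by
        gcongr; exact t3.trans (by gcongr)
    _ = _ := by ring

include b in
lemma mart_A0 (m : JobMART.{u}) (hl : ∀ n, ∑ h, lam h • (lg n).sl h = 0)
    (g : ℕ →ᵇ (E →L[ℂ] E)) (hg : ∀ n m, m < n → τ.Cσ m (g n)) (η : ℝ) (hη : 0 < η) :
    ∀ᶠ s in atTop, ∀ t n', t ≤ n' → ∑ n ∈ Finset.Ico s t, (lg n).p ≤ 2 →
      ∑ n ∈ Finset.Ico s t, (lg n).p *
        ‖rel τ lam ξ n (Aw τ a c τ.G 1 (norm_G τ c) g n')‖ ^ 2 ≤ η := by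
  set L := ∑ h, ‖lam h‖ ^ 2 with hL
  have hL0 : 0 ≤ L := Finset.sum_nonneg fun _ _ => by positivity
  set η' := η / ((L + 1) * (Fintype.card ι + 1)) with hη'
  have hη0 : 0 < η' := by positivity
  let φ : ℕ → E →L[ℂ] E := fun n => star (τ.G 0 n) * Aw τ a c τ.G 1 (norm_G τ c) g n
  have hm := m H M ζ ι lg E τ φ (1 * ‖Aw τ a c τ.G 1 (norm_G τ c) g‖)
    (fun n => (norm_mul_le _ _).trans (mul_le_mul (by rw [norm_star]; exact norm_G τ c 0 n)
      (BoundedContinuousFunction.norm_coe_le_norm _ n) (norm_nonneg _) zero_le_one))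
    (fun n m h x => (comm_star (τ.ρ m) (c.G_Cρ 0 n m (Or.inr h)) x).mul_left
      (Aw_Cρ τ a c _ g h x))
    (fun n m x => (comm_star (τ.σ m) (c.G_Cσ 0 n m) x).mul_left
      (Aw_Cσ τ a c _ (fun n n' m h => c.G_Cρ n n' m (Or.inl h)) g hg n m x))
    (fun n => by
      have A := b E _ (τ.ρ n) _ (lg n).ω_uv
      simp only [φ]
      rw [← A0_harm τ a c g (Nat.le_succ n), c.cE_succ,
        ← A.mul_left _ _ (comm_star (τ.ρ n) (c.G_Cρ 0 n n (Or.inr le_rfl))),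
        c.G_mul 0 n (n + 1) (by omega) (by omega), star_mul, mul_assoc])
  have h1 : ∀ᶠ s in atTop, ∀ h : ι, ∀ t n', t ≤ n' → ∑ n ∈ Finset.Ico s t, (lg n).p ≤ 2 →
      ∑ n ∈ Finset.Ico s t, (lg n).p *
        ‖(φ n' - φ n) (τ.ρ n (kb ((lg n).ϑ h) (lg n).ω) (τ.V ξ))‖ ^ 2 ≤ η' := by
    rw [eventually_all]
    intro h
    obtain ⟨N₀, hN⟩ := hm h ξ η' hη0
    exact (eventually_ge_atTop N₀).mono fun s hs t n' h1 h2 => hN s t n' hs h1 h2
  refine h1.mono fun s hs t n' h1 h2 => ?_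
  calc _ ≤ ∑ n ∈ Finset.Ico s t, (lg n).p * (L * ∑ h,
        ‖(φ n' - φ n) (τ.ρ n (kb ((lg n).ϑ h) (lg n).ω) (τ.V ξ))‖ ^ 2) :=
        Finset.sum_le_sum fun n hn => mul_le_mul_of_nonneg_left
          (rel_A0 τ a c b lam ξ hl g (by have := (Finset.mem_Ico.1 hn).2; omega)) (lg n).p_pos.le
    _ = L * ∑ h, ∑ n ∈ Finset.Ico s t, (lg n).p *
        ‖(φ n' - φ n) (τ.ρ n (kb ((lg n).ϑ h) (lg n).ω) (τ.V ξ))‖ ^ 2 := by
        rw [Finset.sum_comm, Finset.mul_sum]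
        refine Finset.sum_congr rfl fun n _ => ?_
        rw [← Finset.mul_sum]; ring
    _ ≤ L * ∑ _h : ι, η' := by gcongr with h; exact hs h t n' h1 h2
    _ ≤ η := by
        rw [Finset.sum_const, Finset.card_univ, nsmul_eq_mul]
        have : η = (L + 1) * ((Fintype.card ι + 1) * η') := by rw [hη']; field_simp
        rw [this]
        gcongr <;> linarith

end GOODx

open GOODx in
theorem good {C₁ : ℝ} (h1 : 1 ≤ C₁) (a : JobWL.{u, 0}) (b : JobAVG.{u}) (c : JobTWA.{u})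
    (e : LIFT.{u} C₁) (m : JobMART.{u}) : ∃ C δ₀ : ℝ, 0 ≤ C ∧ 0 < δ₀ ∧ GOOD.{u} C δ₀ := by
  refine ⟨31 * C₁, 1 / (100 * C₁), by positivity, by positivity, ?_⟩
  intro H _ _ _ M ζ ι _ lg E _ _ _ τ N δ hδ0 hδ hMN
  have c := c H M ζ ι lg E τ
  set γ := C₁ * δ with hγ
  have hγ0 : 0 ≤ γ := by positivity
  have hγ1 : γ ≤ 1 / 100 := by
    rw [le_div_iff₀ (by positivity)] at hδ
    rw [hγ]; linarith
  have hlift : ∀ n n', ∃ y : E →L[ℂ] E, ‖y - τ.G n n'‖ ≤ γ ∧ τ.Ca N y ∧ (∀ m, m < n → τ.Cρ m y) ∧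
      ∀ m, n ≤ m → m < n' → τ.Cσ m y := fun n n' => by
    obtain ⟨r', r1, r2⟩ := e H M ζ ι lg E τ N M δ hδ0 hMN (Finset.range n) (Finset.Ico n n')
      (Finset.disjoint_left.2 fun x hx hx' => by
        have := Finset.mem_range.1 hx; have := (Finset.mem_Ico.1 hx').1; omega)
      1 (fun _ => τ.G n n') 1 zero_le_one (fun ξ => by
        rw [Fin.sum_univ_one]
        have := (τ.G n n').le_opNorm ξ
        have h2 := norm_G τ c n n'
        rw [← mul_pow]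
        gcongr
        exact this.trans (by gcongr))
      fun _ => ⟨c.G_Ca n n', fun x hx => c.G_Cρ n n' x (Or.inl (Finset.mem_range.1 hx)),
        fun x _ => c.G_Cσ n n' x⟩
    refine ⟨r' 0, ?_, (r2 0).1, fun x hx => (r2 0).2.1 x (Finset.mem_range.2 hx),
      fun x h1 h2 => (r2 0).2.2 x (Finset.mem_Ico.2 ⟨h1, h2⟩)⟩
    rw [norm_sub_rev]
    refine ContinuousLinearMap.opNorm_le_bound _ hγ0 fun ξ => ?_
    have := r1 ξ
    rw [Fin.sum_univ_one, mul_one, ← mul_pow] at this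
    exact (pow_le_pow_iff_left₀ (norm_nonneg _) (by positivity) two_ne_zero).1 this
  choose y y1 y2 y3 y4 using hlift
  have hy1 : ∀ n n', ‖y n n'‖ ≤ 2 := fun n n' => by
    have := norm_add_le (y n n' - τ.G n n') (τ.G n n')
    rw [sub_add_cancel] at this
    linarith [y1 n n', norm_G τ c n n']
  set A0 := Aw τ a c τ.G 1 (norm_G τ c) with hA0
  set A := Aw τ a c y 2 hy1 with hA
  set D := Aw τ a c (fun n n' => y n n' - τ.G n n') γ y1 with hD
  have hAD : A = A0 + D := by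
    ext1 g; ext1 n
    refine wl_unique (Aw_wl τ a c hy1 g n) (wl_add (Aw_wl τ a c (norm_G τ c) g n)
      (Aw_wl τ a c y1 g n)) (Eventually.of_forall fun n' => ?_)
    rw [← c.cE_add, ← add_mul, ← star_add, add_sub_cancel]
  let X : Submodule ℂ (ℕ →ᵇ (E →L[ℂ] E)) :=
    { carrier := {g | (∀ n, τ.Ca N (g n)) ∧ ∀ n m, m < n → τ.Cσ m (g n)}
      add_mem' := fun {g g'} h h' => ⟨fun n z hz => (h.1 n z hz).add_left (h'.1 n z hz),
        fun n m hm x => (h.2 n m hm x).add_left (h'.2 n m hm x)⟩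
      zero_mem' := ⟨fun n z _ => Commute.zero_left _, fun n m _ x => Commute.zero_left _⟩
      smul_mem' := fun t g h => ⟨fun n z hz => (h.1 n z hz).smul_left t,
        fun n m hm x => (h.2 n m hm x).smul_left t⟩ }
  have hXc : IsClosed (X : Set (ℕ →ᵇ (E →L[ℂ] E))) := by
    have hcl : ∀ (n : ℕ) (z : E →L[ℂ] E), IsClosed {g : ℕ →ᵇ (E →L[ℂ] E) | Commute (g n) z} :=
      fun n z => isClosed_eq (by fun_prop) (by fun_prop)
    have : (X : Set (ℕ →ᵇ (E →L[ℂ] E))) =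
        (⋂ n, ⋂ z ∈ N.commutant, {g | Commute (g n) (τ.am z)}) ∩
          ⋂ n, ⋂ m, ⋂ _ : m < n, ⋂ x, {g | Commute (g n) (τ.σ m x)} := by
      ext g
      simp only [Set.mem_inter_iff, Set.mem_iInter, Set.mem_setOf_eq]
      rfl
    rw [this]
    exact (isClosed_iInter fun n => isClosed_biInter fun z _ => hcl n _).inter
      (isClosed_iInter fun n => isClosed_iInter fun m => isClosed_iInter fun _ =>
        isClosed_iInter fun x => hcl n _)
  have hAX : ∀ g ∈ X, A g ∈ X := fun g hg =>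
    ⟨Aw_Ca τ a c hy1 N y2 g hg.1, fun n m _ => Aw_Cσ τ a c hy1 y3 g hg.2 n m⟩
  let g₀ : ℕ →ᵇ (E →L[ℂ] E) :=
    BoundedContinuousFunction.ofNormedAddCommGroupDiscrete (y 0) 2 (hy1 0)
  let i : ℕ →ᵇ (E →L[ℂ] E) :=
    BoundedContinuousFunction.ofNormedAddCommGroupDiscrete (τ.G 0) 1 (norm_G τ c 0)
  have hi : A0 i = i := by
    ext1 n
    refine wl_unique (Aw_wl τ a c (norm_G τ c) i n) (wl_const _) ((ev_ge n).mono fun n' h => ?_)
    change τ.cE n n' (star (τ.G n n') * τ.G 0 n') = τ.G 0 n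
    rw [c.G_mul 0 n n' (by omega) h, ← mul_assoc, (c.G_unit n n').1, one_mul]
    exact cE_fix τ b n _ (fun m hm => c.G_Cρ 0 n m (Or.inr hm)) n'
  obtain ⟨g, g1, g2, g3, g4⟩ := riesz A A0 X γ g₀ i hXc hAX (A0_idem τ a c) (norm_Aw τ a c _) hγ1
    (by rw [hAD, add_sub_cancel_left]; exact norm_Aw τ a c y1)
    ⟨y2 0, fun n m hm => y4 0 n m (by omega) hm⟩ hi
    ((BoundedContinuousFunction.norm_le zero_le_one).2 (norm_G τ c 0))
    ((BoundedContinuousFunction.norm_le hγ0).2 (y1 0))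
  refine ⟨g 0, fun n => ⟨(g1 0).1 n, fun m => ?_, ?_⟩, fun lam hl ξ η hη => ?_⟩
  · rw [g2 0]; exact Aw_Cσ τ a c hy1 y3 _ (g1 1).2 n m
  · have := ((g 0 - i).norm_coe_le_norm n).trans g4
    rw [hγ, ← mul_assoc] at this
    exact this
  · set Q := 2 * ((∑ h, ‖lam h‖) * 2 * ‖ξ‖) ^ 2 with hQ
    have hQ0 : 0 ≤ Q := by positivity
    obtain ⟨k, hk⟩ : ∃ k : ℕ, (1 / 2 : ℝ) ^ k * (4 * Q) ≤ η / 8 := by
      have := (tendsto_pow_atTop_nhds_zero_of_lt_one (r := (1 / 2 : ℝ)) (by norm_num)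
        (by norm_num)).mul_const (4 * Q)
      rw [zero_mul] at this
      exact (this.eventually (ge_mem_nhds (by positivity : 0 < η / 8))).exists
    have hev : ∀ᶠ s in atTop, ∀ j ∈ Finset.range (k + 2), ∀ t n', t ≤ n' →
        ∑ n ∈ Finset.Ico s t, (lg n).p ≤ 2 →
        ∑ n ∈ Finset.Ico s t, (lg n).p * ‖rel τ lam ξ n (A0 (g j) n')‖ ^ 2 ≤ η / 32 := by
      rw [eventually_all_finset]
      exact fun j _ => mart_A0 τ a c b lam ξ m hl (g j) (g1 j).2 _ (by positivity)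
    obtain ⟨N₀, hN⟩ := eventually_atTop.1 hev
    refine ⟨N₀, fun s t hs hp => ?_⟩
    have key : ∀ j, j ≤ k → ∀ᶠ n' in (hyperfilter ℕ : Filter ℕ),
        ∑ n ∈ Finset.Ico s t, (lg n).p * ‖rel τ lam ξ n (g (k + 1 - j) n')‖ ^ 2 ≤
          η / 8 + (1 / 8) ^ j * (4 ^ (k + 1) * Q) := by
      intro j
      induction j with
      | zero =>
        intro _
        refine Eventually.of_forall fun n' => ?_
        have t1 : ∀ n, ‖rel τ lam ξ n (g (k + 1) n')‖ ≤ 2 ^ (k + 1) * ((∑ h, ‖lam h‖) * 2 * ‖ξ‖) :=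
          fun n => (rel_le τ c b lam ξ n _).trans (by
            have := ((g (k + 1)).norm_coe_le_norm n').trans (g3 (k + 1))
            calc _ ≤ (∑ h, ‖lam h‖) * (2 * 2 ^ (k + 1)) * ‖ξ‖ := by gcongr
              _ = _ := by ring)
        calc _ ≤ ∑ n ∈ Finset.Ico s t, (lg n).p * (2 ^ (k + 1) * ((∑ h, ‖lam h‖) * 2 * ‖ξ‖)) ^ 2 :=
              Finset.sum_le_sum fun n _ => by
                have := (lg n).p_pos.le
                gcongr; exact t1 n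
          _ ≤ 2 * (2 ^ (k + 1) * ((∑ h, ‖lam h‖) * 2 * ‖ξ‖)) ^ 2 := by
              rw [← Finset.sum_mul]; gcongr
          _ = 4 ^ (k + 1) * Q := by
              rw [hQ, mul_pow, ← pow_mul, mul_comm (k + 1) 2, pow_mul]; norm_num; ring
          _ ≤ _ := by rw [pow_zero, one_mul]; linarith
      | succ j ih =>
        intro hj
        have ih := ih (by omega)
        refine (ev_ge t).mono fun n' hn' => ?_
        have e1 : k + 1 - j = (k + 1 - (j + 1)) + 1 := by omega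
        rw [g2 (k + 1 - (j + 1)), ← e1, hAD]
        have t1 := hN s hs (k + 1 - j) (Finset.mem_range.2 (by omega)) t n' hn' hp
        have t2 := rel_Aw τ a c y1 b lam ξ (fun n n' m h x => (y3 n n' m h x).sub_left
          (c.G_Cρ n n' m (Or.inl h) x)) (g (k + 1 - j)) (Finset.Ico s t) (fun _ => n')
          (fun n hn => by have := (Finset.mem_Ico.1 hn).2; omega) _ ih
        have t3 : ∑ n ∈ Finset.Ico s t, (lg n).p *
            ‖rel τ lam ξ n ((A0 + D) (g (k + 1 - j)) n')‖ ^ 2 ≤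
            2 * ∑ n ∈ Finset.Ico s t, (lg n).p * ‖rel τ lam ξ n (A0 (g (k + 1 - j)) n')‖ ^ 2 +
            2 * ∑ n ∈ Finset.Ico s t, (lg n).p * ‖rel τ lam ξ n (D (g (k + 1 - j)) n')‖ ^ 2 := by
          rw [Finset.mul_sum, Finset.mul_sum, ← Finset.sum_add_distrib]
          refine Finset.sum_le_sum fun n _ => ?_
          rw [ContinuousLinearMap.add_apply, BoundedContinuousFunction.add_apply, rel_add τ c b]
          set x := rel τ lam ξ n (A0 (g (k + 1 - j)) n')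
          set z := rel τ lam ξ n (D (g (k + 1 - j)) n')
          have u1 : ‖x + z‖ ^ 2 ≤ 2 * ‖x‖ ^ 2 + 2 * ‖z‖ ^ 2 := by
            have : ‖x + z‖ ^ 2 ≤ (‖x‖ + ‖z‖) ^ 2 := by gcongr; exact norm_add_le x z
            nlinarith [sq_nonneg (‖x‖ - ‖z‖)]
          have := mul_le_mul_of_nonneg_left u1 (lg n).p_pos.le
          linarith
        have t4 : γ ^ 2 ≤ 1 / 16 := by nlinarith
        have t5 : 0 ≤ (1 / 8 : ℝ) ^ j * (4 ^ (k + 1) * Q) := by positivity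
        have t6 := mul_le_mul_of_nonneg_right t4
          (by positivity : 0 ≤ η / 8 + (1 / 8 : ℝ) ^ j * (4 ^ (k + 1) * Q))
        rw [pow_succ]
        linarith
    have h2 := rel_Aw τ a c hy1 b lam ξ y3 (g (k + 1 - k)) (Finset.Ico s t) (fun n => n + 1)
      (fun n _ => Nat.lt_succ_self n) _ (key k le_rfl)
    have e1 : k + 1 - k = 0 + 1 := by omega
    rw [e1, ← hA, ← g2 0] at h2
    have e2 : (1 / 8 : ℝ) ^ k * (4 ^ (k + 1) * Q) = (1 / 2) ^ k * (4 * Q) := by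
      rw [pow_succ, show (1 / 2 : ℝ) = 1 / 8 * 4 by norm_num, mul_pow]; ring
    rw [e2] at h2
    refine h2.trans ?_
    linarith

end Crest.Agent.KN
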