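import Crest.Agent.KN.Defs2

/-! Row 78 (S0103): job INF (the infinite model). -/

set_option autoImplicit false
set_option linter.unusedSectionVars false
universe u

namespace Crest.Agent.KN

open scoped InnerProductSpace BigOperators
open Filter Topology Crest.Agent.KK

namespace INFx

variable {H : Type u} [NormedAddCommGroup H] [InnerProductSpace ℂ H] [CompleteSpace H]

theorem exists_iso {α : Type} (w : α → ℂ) (hw : HasSum (fun q => ‖w q‖ ^ 2) 1) :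
    ∃ Θ : H →L[ℂ] L2 α H, (∀ ξ q, Θ ξ q = w q • ξ) ∧ ∀ ξ, ‖Θ ξ‖ = ‖ξ‖ := by
  have h1 : ∀ ξ : H, HasSum (fun q => ‖w q • ξ‖ ^ (2 : ENNReal).toReal) (‖ξ‖ ^ 2) := fun ξ => by
    simpa [norm_smul, mul_pow] using hw.mul_right (‖ξ‖ ^ 2)
  let L : H →ₗ[ℂ] L2 α H :=
    { toFun := fun ξ => ⟨fun q => w q • ξ, memℓp_gen (h1 ξ).summable⟩
      map_add' := fun ξ η => lp.ext (funext fun q => by simp)
      map_smul' := fun c ξ => lp.ext (funext fun q => by simp [smul_comm c]) }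
  have h2 : ∀ ξ, ‖L ξ‖ = ‖ξ‖ := fun ξ => by
    have := (lp.hasSum_norm (p := 2) (by norm_num) (L ξ)).unique (h1 ξ)
    simp only [ENNReal.toReal_ofNat, Real.rpow_ofNat] at this
    exact (pow_left_inj₀ (norm_nonneg _) (norm_nonneg _) two_ne_zero).1 this
  exact ⟨L.mkContinuous 1 fun ξ => by rw [h2, one_mul], fun _ _ => rfl, h2⟩

theorem sh_sg (k x : ℤ × ℤ) (v : H) : sh H k (sg x v) = sg (x + k) v := wp_sg _ (bdd_const 1) x v

theorem sh_apply (k : ℤ × ℤ) (ξ : L2 (ℤ × ℤ) H) (q : ℤ × ℤ) : sh H k ξ q = ξ (q - k) := by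
  rw [sh, wp_apply _ (bdd_const 1), sub_eq_add_neg]; rfl

theorem norm_sh (k : ℤ × ℤ) : ‖sh H k‖ ≤ 1 :=
  norm_wp_le _ zero_le_one fun _ => ContinuousLinearMap.norm_id_le

theorem star_sh (k : ℤ × ℤ) : star (sh H k) = sh H (-k) := by
  rw [sh, star_wp _ (bdd_const 1)]; simp [sh]

theorem dg_sg {d : ℤ × ℤ → H →L[ℂ] H} (h : Bdd d) (x : ℤ × ℤ) (v : H) :
    dg d (sg x v) = sg x (d x v) := wp_sg _ h x v

theorem dg_apply {d : ℤ × ℤ → H →L[ℂ] H} (h : Bdd d) (ξ : L2 (ℤ × ℤ) H) (q : ℤ × ℤ) :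
    dg d ξ q = d q (ξ q) := wp_apply _ h ξ q

theorem dg_sa {d : ℤ × ℤ → H →L[ℂ] H} (h : Bdd d) (h' : ∀ q, IsSelfAdjoint (d q)) :
    IsSelfAdjoint (dg d) := by
  rw [IsSelfAdjoint, star_wp _ h]; simp [(h' _).star_eq]

/-- convolution along the direction `e` -/
noncomputable def bq (s : Sc) (H : Type u) [NormedAddCommGroup H] [InnerProductSpace ℂ H]
    (e : ℤ → ℤ × ℤ) : L2 (ℤ × ℤ) H →L[ℂ] L2 (ℤ × ℤ) H := ∑' k : ℤ, (s.bb k : ℂ) • sh H (e k)

variable (s : Sc)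

theorem term_le (e : ℤ → ℤ × ℤ) (k : ℤ) : ‖(s.bb k : ℂ) • sh H (e k)‖ ≤ s.bb k := by
  rw [norm_smul, Complex.norm_real, Real.norm_of_nonneg (s.bb_nonneg k)]
  exact mul_le_of_le_one_right (s.bb_nonneg k) (norm_sh _)

theorem bq_sum (e : ℤ → ℤ × ℤ) : HasSum (fun k => (s.bb k : ℂ) • sh H (e k)) (bq s H e) :=
  (Summable.of_norm_bounded s.bb_sum.summable (term_le s e)).hasSum

theorem norm_bq (e : ℤ → ℤ × ℤ) : ‖bq s H e‖ ≤ 1 := tsum_of_norm_bounded s.bb_sum (term_le s e)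

theorem bq_sa (e : ℤ → ℤ × ℤ) (he : ∀ k, e (-k) = -e k) : IsSelfAdjoint (bq s H e) := by
  refine (bq_sum (H := H) s e).star.unique ?_
  have := (Equiv.neg ℤ).hasSum_iff.2 (bq_sum (H := H) s e)
  simpa [Function.comp_def, star_sh, s.bb_even, he] using this

theorem bq_comm (e : ℤ → ℤ × ℤ) {T : L2 (ℤ × ℤ) H →L[ℂ] L2 (ℤ × ℤ) H}
    (h : ∀ k, Commute T (sh H (e k))) : Commute T (bq s H e) :=
  Commute.tsum_right _ fun k => (h k).smul_right _

theorem bq_apply (e : ℤ → ℤ × ℤ) (ξ : L2 (ℤ × ℤ) H) (q : ℤ × ℤ) :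
    HasSum (fun k => (s.bb k : ℂ) • ξ (q - e k)) (bq s H e ξ q) := by
  have := ((bq_sum s e).mapL (ContinuousLinearMap.apply ℂ _ ξ)).mapL (ev q)
  simpa [sh_apply] using this

theorem b1_apply (ξ : L2 (ℤ × ℤ) H) (n m : ℤ) :
    HasSum (fun l => (s.bb (n - l) : ℂ) • ξ (l, m)) (s.b1 H ξ (n, m)) := by
  have := (Equiv.subLeft n).hasSum_iff.2 (bq_apply s (fun k => (k, 0)) ξ (n, m))
  simpa [Function.comp_def] using! this

theorem b2_apply (ξ : L2 (ℤ × ℤ) H) (n m : ℤ) :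
    HasSum (fun l => (s.bb (m - l) : ℂ) • ξ (n, l)) (s.b2 H ξ (n, m)) := by
  have := (Equiv.subLeft m).hasSum_iff.2 (bq_apply s (fun k => (0, k)) ξ (n, m))
  simpa [Function.comp_def] using! this

theorem sand {e : ℤ → ℤ × ℤ} (he : ∀ k, e (-k) = -e k) {d : ℤ × ℤ → H →L[ℂ] H}
    (h : ∀ q, ‖d q‖ ≤ 1 / 2) (h' : ∀ q, IsSelfAdjoint (d q)) :
    IsSelfAdjoint (bq s H e * dg d * bq s H e) ∧ ‖bq s H e * dg d * bq s H e‖ ≤ 1 / 2 := by
  constructor
  · have := (dg_sa ⟨_, h⟩ h').conjugate (bq s H e)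
    rwa [(bq_sa (H := H) s e he).star_eq] at this
  · have a := norm_bq (H := H) s e
    have b : ‖dg d‖ ≤ 1 / 2 := norm_wp_le _ (by norm_num) h
    calc _ ≤ ‖bq s H e‖ * ‖dg d‖ * ‖bq s H e‖ := norm_mul₃_le
      _ ≤ 1 * (1 / 2) * 1 := by gcongr
      _ = _ := by norm_num

/-- slice projections -/
noncomputable def PP (H : Type u) [NormedAddCommGroup H] [InnerProductSpace ℂ H] (m : ℤ) :
    L2 (ℤ × ℤ) H →L[ℂ] L2 (ℤ × ℤ) H := dg fun q => if q.2 = m then 1 else 0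

theorem P_le (m : ℤ) (q : ℤ × ℤ) : ‖(if q.2 = m then 1 else 0 : H →L[ℂ] H)‖ ≤ 1 := by
  split_ifs
  · exact ContinuousLinearMap.norm_id_le
  · simp

theorem norm_P (m : ℤ) : ‖PP H m‖ ≤ 1 := norm_wp_le _ zero_le_one (P_le m)

theorem P_sg (m : ℤ) (x : ℤ × ℤ) (v : H) : PP H m (sg x v) = if x.2 = m then sg x v else 0 := by
  rw [PP, dg_sg ⟨1, P_le m⟩]; split_ifs <;> simp

theorem P_apply (m : ℤ) (ξ : L2 (ℤ × ℤ) H) (q : ℤ × ℤ) :
    PP H m ξ q = if q.2 = m then ξ q else 0 := by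
  rw [PP, dg_apply ⟨1, P_le m⟩]; split_ifs <;> simp

theorem P_mul (m m' : ℤ) : PP H m * PP H m' = if m = m' then PP H m else 0 :=
  ext_sg fun x v => by
    rw [mul_apply_eq_comp, P_sg]
    split_ifs with a b b
    · rfl
    · rw [P_sg, if_neg (by omega)]; rfl
    · rw [P_sg, if_neg (by omega), map_zero]
    · simp

theorem P_sum (θ : L2 (ℤ × ℤ) H) : HasSum (fun m => PP H m θ) θ := by
  refine HasSum.prod_fiberwise ((Equiv.prodComm ℤ ℤ).hasSum_iff.2 (hasSum_sg θ)) fun m => ?_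
  have := (Function.Injective.hasSum_iff (g := fun n : ℤ => (n, m))
    (fun a b h => (Prod.ext_iff.1 h).1) (fun x hx => ?_)).2 (hasSum_sg (PP H m θ))
  · simpa [Function.comp_def, P_apply] using this
  · rw [P_apply, if_neg fun h => hx ⟨x.1, by rw [← h]⟩, map_zero]

theorem sh_P (k : ℤ × ℤ) (m : ℤ) : sh H k * PP H m = PP H (m + k.2) * sh H k :=
  ext_sg fun x v => by
    simp only [mul_apply_eq_comp, P_sg, sh_sg, Prod.snd_add, add_left_inj]
    split_ifs <;> simp [sh_sg]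

theorem P_dg (m : ℤ) {d : ℤ × ℤ → H →L[ℂ] H} (h : Bdd d) : Commute (PP H m) (dg d) :=
  ext_sg fun x v => by
    simp only [mul_apply_eq_comp, P_sg, dg_sg h]
    split_ifs <;> simp [dg_sg h]

theorem P_b2 (m n : ℤ) : ‖PP H m * s.b2 H * PP H n‖ ≤ s.bb (m - n) := by
  have h1 := ((bq_sum (H := H) s fun k => (0, k)).mul_left (PP H m)).mul_right (PP H n)
  have h2 : ∀ k, k ≠ m - n → PP H m * (s.bb k : ℂ) • sh H (0, k) * PP H n = 0 := fun k hk => by
    rw [mul_smul_comm, smul_mul_assoc, mul_assoc, sh_P, ← mul_assoc, P_mul, if_neg (by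
      simp only; omega), zero_mul, smul_zero]
  rw [show PP H m * s.b2 H * PP H n = _ from h1.unique (hasSum_single _ h2)]
  calc _ ≤ ‖PP H m‖ * ‖(s.bb (m - n) : ℂ) • sh H (0, m - n)‖ * ‖PP H n‖ := norm_mul₃_le
    _ ≤ 1 * s.bb (m - n) * 1 := by
      gcongr
      exacts [mul_nonneg zero_le_one (s.bb_nonneg _), norm_P _,
        term_le s (fun k => (0, k)) _, norm_P _]
    _ = _ := by ring

theorem conv_sum {f : ℤ → ℝ} (h : Summable f) (h0 : ∀ n, 0 ≤ f n) :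
    Summable fun p : ℤ × ℤ => f p.2 * f (p.1 - p.2) :=
  (h.mul_of_nonneg h h0 h0).comp_injective (i := fun p : ℤ × ℤ => (p.2, p.1 - p.2))
    fun a b e => by
      simp only [Prod.mk.injEq] at e
      exact Prod.ext (by omega) e.1

theorem exists_beta : ∃ β : ℤ → ℝ, (Summable fun m : ℤ => (1 + |(m : ℝ)|) * β m) ∧ Summable β ∧
    ∀ m, HasSum (fun j => s.bb j * s.bb (m - j)) (β m) := by
  have b0 := s.bb_nonneg
  have h1 := conv_sum s.bb_sum.summable b0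
  have f0 : ∀ n : ℤ, 0 ≤ (1 + |(n : ℝ)|) * s.bb n := fun n => mul_nonneg (by positivity) (b0 n)
  have h2 := conv_sum (f := fun n : ℤ => (1 + |(n : ℝ)|) * s.bb n)
    (by simpa [add_mul] using s.bb_sum.summable.add s.bb_mom) f0
  refine ⟨fun m => ∑' j, s.bb j * s.bb (m - j), .of_nonneg_of_le (fun m => mul_nonneg
    (by positivity) (tsum_nonneg fun j => mul_nonneg (b0 _) (b0 _))) (fun m => ?_) h2.prod,
    h1.prod, fun m => (h1.prod_factor m).hasSum⟩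
  rw [← tsum_mul_left]
  refine ((h1.prod_factor m).mul_left _).tsum_le_tsum (fun j => ?_) (h2.prod_factor m)
  have : |(m : ℝ)| ≤ |(j : ℝ)| + |((m - j : ℤ) : ℝ)| := by
    have := abs_add_le (j : ℝ) ((m - j : ℤ) : ℝ)
    rwa [show (j : ℝ) + ((m - j : ℤ) : ℝ) = m by push_cast; ring] at this
  have e := mul_nonneg (b0 j) (b0 (m - j))
  have e2 := mul_nonneg (abs_nonneg (j : ℝ)) (abs_nonneg ((m - j : ℤ) : ℝ))
  simp only
  nlinarith [mul_le_mul_of_nonneg_right this e, mul_nonneg e e2]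

theorem P_y' {d : ℤ × ℤ → H →L[ℂ] H} (h : ∀ q, ‖d q‖ ≤ 1 / 2) {β : ℤ → ℝ}
    (hβ : ∀ m, HasSum (fun j => s.bb j * s.bb (m - j)) (β m)) (m m' : ℤ) :
    ‖PP H m * (s.b2 H * dg d * s.b2 H) * PP H m'‖ ≤ β (m - m') := by
  have h1 := ((bq_sum (H := H) s fun k => (0, k)).mul_left (PP H m * s.b2 H * dg d)).mul_right
    (PP H m')
  have e : PP H m * (s.b2 H * dg d * s.b2 H) * PP H m' =
      PP H m * s.b2 H * dg d * bq s H (fun k => (0, k)) * PP H m' := by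
    simp only [mul_assoc]; rfl
  rw [e, ← h1.tsum_eq]
  refine tsum_of_norm_bounded (hβ _) fun j => ?_
  have e2 : PP H m * s.b2 H * dg d * (s.bb j : ℂ) • sh H (0, j) * PP H m' =
      (s.bb j : ℂ) • (PP H m * s.b2 H * PP H (m' + j) * dg d * sh H (0, j)) := by
    rw [mul_smul_comm, smul_mul_assoc, mul_assoc _ (sh H _), sh_P, mul_assoc _ (PP H (m' + j)),
      (P_dg _ ⟨_, h⟩).eq]
    simp only [mul_assoc]
  rw [e2, norm_smul, Complex.norm_real, Real.norm_of_nonneg (s.bb_nonneg j)]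
  refine mul_le_mul_of_nonneg_left ?_ (s.bb_nonneg j)
  have b : ‖dg d‖ ≤ 1 := norm_wp_le _ zero_le_one fun q => (h q).trans (by norm_num)
  calc _ ≤ ‖PP H m * s.b2 H * PP H (m' + j)‖ * ‖dg d‖ * ‖sh H (0, j)‖ := norm_mul₃_le
    _ ≤ s.bb (m - (m' + j)) * 1 * 1 := by
      gcongr
      exacts [mul_nonneg (s.bb_nonneg _) zero_le_one, s.bb_nonneg _, P_b2 s _ _, norm_sh _]
    _ = _ := by rw [mul_one, mul_one, sub_sub]

theorem kappa_le (n : ℤ) : ‖s.κ n‖ ≤ 1 := by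
  have := le_hasSum s.κ_sum n fun _ _ => sq_nonneg _
  exact (pow_le_one_iff_of_nonneg (norm_nonneg _) two_ne_zero).1 this

theorem c_sum (n : ℤ) : HasSum (fun k => (s.bb k : ℂ) * s.κ (n - k)) (s.c n) :=
  (Summable.of_norm_bounded s.bb_sum.summable fun k => by
    rw [norm_mul, Complex.norm_real, Real.norm_of_nonneg (s.bb_nonneg k)]
    exact mul_le_of_le_one_right (s.bb_nonneg k) (kappa_le s _)).hasSum

variable {s} {M : VonNeumannAlgebra H} {ζ : H} {ι : Type} (δ : DMD M ζ ι s)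

/-- the diagonal flow -/
noncomputable def GG (k : ℤ) : L2 (ℤ × ℤ) H →L[ℂ] L2 (ℤ × ℤ) H :=
  wp (Equiv.addRight (k, k)) fun _ => δ.D k

theorem G_sg (k : ℤ) (x : ℤ × ℤ) (v : H) : GG δ k (sg x v) = sg (x + (k, k)) (δ.D k v) :=
  wp_sg _ (bdd_const _) x v

theorem G_apply (k : ℤ) (ξ : L2 (ℤ × ℤ) H) (q : ℤ × ℤ) :
    GG δ k ξ q = δ.D k (ξ (q - (k, k))) := by
  rw [GG, wp_apply _ (bdd_const _), sub_eq_add_neg]; rfl

theorem G_bq (k : ℤ) (e : ℤ → ℤ × ℤ) : Commute (GG δ k) (bq s H e) :=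
  bq_comm s e fun j => ext_sg fun x v => by
    simp only [mul_apply_eq_comp, G_sg, sh_sg, add_right_comm x]

theorem bA (i : ι) : Bdd fun q : ℤ × ℤ => δ.a i q.1 := ⟨_, fun _ => δ.a_le i _⟩
theorem bA' (i : ι) : Bdd fun q : ℤ × ℤ => δ.a' i q.2 := ⟨_, fun _ => δ.a'_le i _⟩

theorem G_y (k : ℤ) (i : ι) : Commute (GG δ k) (δ.y i) :=
  ((G_bq δ k _).mul_right (ext_sg fun x v => by
    simp only [mul_apply_eq_comp, G_sg, dg_sg (bA δ i), Prod.fst_add]
    rw [← mul_apply_eq_comp, δ.a_cov]; rfl)).mul_right (G_bq δ k _)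

theorem G_y' (k : ℤ) (i : ι) : Commute (GG δ k) (δ.y' i) :=
  ((G_bq δ k _).mul_right (ext_sg fun x v => by
    simp only [mul_apply_eq_comp, G_sg, dg_sg (bA' δ i), Prod.snd_add]
    rw [← mul_apply_eq_comp, δ.a'_cov]; rfl)).mul_right (G_bq δ k _)

theorem y_y' (i : ι) : Commute (δ.y i) (δ.y' i) := by
  have h1 : Commute (s.b1 H) (s.b2 H) :=
    bq_comm s _ fun j => (bq_comm s (fun k => (k, 0)) (T := sh H (0, j)) fun k =>
      ext_sg fun x v => by simp only [mul_apply_eq_comp, sh_sg]; rw [add_right_comm]).symm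
  have h2 : Commute (dg fun q : ℤ × ℤ => δ.a i q.1) (s.b2 H) :=
    bq_comm s _ fun j => ext_sg fun x v => by
      simp only [mul_apply_eq_comp, sh_sg, dg_sg (bA δ i), Prod.fst_add, add_zero]
  have h3 : Commute (dg fun q : ℤ × ℤ => δ.a' i q.2) (s.b1 H) :=
    bq_comm s _ fun j => ext_sg fun x v => by
      simp only [mul_apply_eq_comp, sh_sg, dg_sg (bA' δ i), Prod.snd_add, add_zero]
  have h4 : Commute (dg fun q : ℤ × ℤ => δ.a i q.1) (dg fun q : ℤ × ℤ => δ.a' i q.2) :=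
    ext_sg fun x v => by
      simp only [mul_apply_eq_comp, dg_sg (bA' δ i), dg_sg (bA δ i)]
      rw [← mul_apply_eq_comp, VonNeumannAlgebra.mem_commutant_iff.1 (δ.a'_mem i _) _
        (δ.a_mem i _)]; rfl
  have h5 := (h1.mul_right h3.symm).mul_right h1
  exact (h5.mul_left ((h2.mul_right h4).mul_right h2)).mul_left h5

theorem P_y (m : ℤ) (i : ι) : Commute (PP H m) (δ.y i) := by
  have h : Commute (PP H m) (s.b1 H) := bq_comm s _ fun j => by
    have := sh_P (H := H) (j, 0) m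
    rw [add_zero] at this
    exact this.symm
  exact (h.mul_right (P_dg m (bA δ i))).mul_right h

theorem G_P (m k : ℤ) : GG δ k * PP H m = PP H (m + k) * GG δ k :=
  ext_sg fun x v => by
    simp only [mul_apply_eq_comp, P_sg, G_sg, Prod.snd_add, add_left_inj]
    split_ifs <;> simp [G_sg]

theorem norm_G (k : ℤ) : ‖GG δ k‖ ≤ 1 :=
  norm_wp_le _ zero_le_one fun _ => by
    have := CStarRing.norm_star_mul_self (x := δ.D k)
    rw [δ.D_star, ← δ.D_add, neg_add_cancel, δ.D_zero] at this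
    have h : ‖(1 : H →L[ℂ] H)‖ ≤ 1 := ContinuousLinearMap.norm_id_le
    nlinarith [norm_nonneg (δ.D k)]

theorem y_coord (i : ι) {θ : L2 (ℤ × ℤ) H} {k : ℤ}
    (hθ : ∀ q, θ q = (if q.2 = k then s.κ (q.1 - k) else 0) • ζ) (n m : ℤ) :
    δ.y i θ (n, m) = if k = m then ∑' l : ℤ, ((s.bb (n - l) : ℂ) * s.c (l - m)) • δ.a i l ζ
      else 0 := by
  have h1 : ∀ l, s.b1 H θ (l, m) = (if k = m then s.c (l - m) else 0) • ζ := fun l => by
    refine (bq_apply s (fun k => (k, 0)) θ (l, m)).unique ?_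
    simp only [hθ, Prod.mk_sub_mk, sub_zero, smul_smul]
    refine HasSum.smul_const ?_ ζ
    by_cases c : k = m
    · subst c
      simpa only [if_true, sub_right_comm l] using c_sum s (l - k)
    · simp [c, Ne.symm c]
  have h2 := b1_apply s (dg (fun q : ℤ × ℤ => δ.a i q.1) (s.b1 H θ)) n m
  simp only [dg_apply (bA δ i), h1, map_smul, smul_smul] at h2
  change s.b1 H (dg (fun q : ℤ × ℤ => δ.a i q.1) (s.b1 H θ)) (n, m) = _
  rw [← h2.tsum_eq]
  split_ifs <;> simp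

theorem y'_coord (i : ι) {θ : L2 (ℤ × ℤ) H} {k : ℤ}
    (hθ : ∀ q, θ q = (if q.2 = k then s.κ (q.1 - k) else 0) • ζ) (n m : ℤ) :
    HasSum (fun l => ((s.bb (m - l) : ℂ) * (s.bb (l - k) * s.κ (n - k))) • δ.a' i l ζ)
      (δ.y' i θ (n, m)) := by
  have h1 : ∀ l, s.b2 H θ (n, l) = ((s.bb (l - k) : ℂ) * s.κ (n - k)) • ζ := fun l => by
    refine (b2_apply s θ n l).unique ?_
    have := hasSum_single (f := fun j => (s.bb (l - j) : ℂ) • θ (n, j)) k fun j hj => by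
      simp [hθ, hj]
    simpa only [hθ (n, k), if_true, smul_smul] using this
  have h2 := b2_apply s (dg (fun q : ℤ × ℤ => δ.a' i q.2) (s.b2 H θ)) n m
  simpa only [dg_apply (bA' δ i), h1, map_smul, smul_smul] using! h2

theorem y'_tot (i : ι) (n m : ℤ) (z : ℤ → H) (hz : ∀ k, HasSum
    (fun l => ((s.bb (m - l) : ℂ) * (s.bb (l - k) * s.κ (n - k))) • δ.a' i l ζ) (z k)) :
    HasSum z (∑' l : ℤ, ((s.bb (l - m) : ℂ) * s.c (n - l)) • δ.a' i l ζ) := by
  have b0 := s.bb_nonneg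
  have hs : Summable fun p : ℤ × ℤ =>
      ((s.bb (m - p.2) : ℂ) * (s.bb (p.2 - p.1) * s.κ (n - p.1))) • δ.a' i p.2 ζ := by
    have := ((s.bb_sum.summable.mul_of_nonneg s.bb_sum.summable b0 b0).comp_injective
      (i := fun p : ℤ × ℤ => (m - p.2, p.2 - p.1)) fun a b e => by
        simp only [Prod.mk.injEq] at e
        exact Prod.ext (by omega) (by omega)).mul_right ‖ζ‖
    refine .of_norm_bounded this fun p => ?_
    simp only [norm_smul, norm_mul, Complex.norm_real, Real.norm_of_nonneg (b0 _),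
      Function.comp_def]
    have a1 : ‖δ.a' i p.2 ζ‖ ≤ ‖ζ‖ := by
      simpa using (δ.a' i p.2).le_of_opNorm_le ((δ.a'_le i _).trans (by norm_num : _ ≤ (1 : ℝ))) ζ
    exact mul_le_mul (mul_le_mul_of_nonneg_left
      (mul_le_of_le_one_right (b0 _) (kappa_le s _)) (b0 _)) a1 (norm_nonneg _)
      (mul_nonneg (b0 _) (b0 _))
  have h1 := hs.hasSum.prod_fiberwise hz
  have h2 := HasSum.prod_fiberwise ((Equiv.prodComm ℤ ℤ).hasSum_iff.2 hs.hasSum)
    (g := fun l => ((s.bb (l - m) : ℂ) * s.c (n - l)) • δ.a' i l ζ) fun l => by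
      have e := (Equiv.subRight l).hasSum_iff.2 (c_sum s (n - l))
      have := (e.mul_left (s.bb (l - m) : ℂ)).smul_const (δ.a' i l ζ)
      refine this.congr_fun fun k => ?_
      simp only [Function.comp_def, Equiv.subRight_apply, Equiv.prodComm_apply, Prod.swap_prod_mk]
      rw [← s.bb_even (m - l), ← s.bb_even (l - k), neg_sub, neg_sub, sub_sub_sub_cancel_right]
  rwa [h2.tsum_eq]

end INFx

open INFx in
theorem jobINF (h : JobPOLY.{u}) (h2 : JobABS.{u}) : JobINF.{u} := by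
  intro H _ _ _ M ζ ι s δ
  have hy : ∀ i, IsSelfAdjoint (δ.y i) ∧ ‖δ.y i‖ ≤ 1 / 2 := fun i =>
    sand s (by simp) (fun _ => δ.a_le i _) fun _ => δ.a_sa i _
  have hy' : ∀ i, IsSelfAdjoint (δ.y' i) ∧ ‖δ.y' i‖ ≤ 1 / 2 := fun i =>
    sand s (by simp) (fun _ => δ.a'_le i _) fun _ => δ.a'_sa i _
  refine ⟨fun i => ⟨(hy i).1, (hy i).2, hy' i⟩, ?_⟩
  obtain ⟨Θ, hΘ, nΘ⟩ := exists_iso (H := H) (fun q : ℤ × ℤ => if q.2 = 0 then s.κ q.1 else 0)
    ((Function.Injective.hasSum_iff (g := fun n : ℤ => (n, (0 : ℤ)))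
      (fun a b h => (Prod.ext_iff.1 h).1) fun x hx => by
        rw [if_neg fun h => hx ⟨x.1, by rw [← h]⟩]; simp).1 (by
          simpa [Function.comp_def] using s.κ_sum))
  obtain ⟨β, β1, β2, β3⟩ := exists_beta s
  have P0 : ∀ ξ, PP H 0 (Θ ξ) = Θ ξ := fun ξ => lp.ext (funext fun q => by
    rw [P_apply, hΘ]; split_ifs <;> simp)
  have Py' : ∀ i m m', ‖PP H m * δ.y' i * PP H m'‖ ≤ β (m - m') := fun i =>
    P_y' s (fun _ => δ.a'_le i _) β3
  let V : ℕ → H →L[ℂ] L2 (ℤ × ℤ) H := fun S => ∑ m ∈ Finset.Icc (-(S : ℤ)) S,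
    (tent S m : ℂ) • (GG δ m ∘L Θ ∘L δ.D (-m))
  have hV : ∀ S ξ, V S ξ = ∑ m ∈ Finset.Icc (-(S : ℤ)) S,
      (tent S m : ℂ) • GG δ m (Θ (δ.D (-m) ξ)) := fun S ξ => by
    simp only [V, ContinuousLinearMap.sum_apply]; rfl
  refine ⟨V, fun S hS ξ q => ?_, fun i b => ?_⟩
  · rw [← ev_apply, hV, map_sum]
    simp only [map_smul, ev_apply, G_apply, hΘ, Prod.fst_sub, Prod.snd_sub, sub_eq_zero,
      ← mul_apply_eq_comp, ← δ.D_add, add_neg_cancel, δ.D_zero, one_apply_eq_self, smul_smul]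
    simp only [mul_ite, mul_zero, ite_smul, zero_smul, Finset.sum_ite_eq]
    split_ifs with c
    · rfl
    · have S0 : (0 : ℝ) < S := by exact_mod_cast hS
      have : (S : ℝ) ≤ |(q.2 : ℝ)| := by
        rw [Finset.mem_Icc, ← abs_le, not_le] at c
        exact_mod_cast c.le
      rw [tent, max_eq_left (by rw [sub_nonpos, one_le_div S0]; exact this)]
      simp
  obtain ⟨Ψ, hΨ, e⟩ := (h _).psi b _ _ (hy i).1 (hy' i).1 (hy i).2 (hy' i).2 (y_y' δ i)
  simp only [DMD.df, e, mul_apply_eq_comp]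
  refine h2 H _ (GG δ) (PP H) δ.D Θ ζ _ _ β ?_ (fun m n => ?_) (fun n => ?_) δ.D_zero δ.D_add
    δ.D_star δ.D_ζ (fun m => dg_sa ⟨1, P_le m⟩ fun q => ?_) P_mul P_sum (G_P δ) P0 nΘ
    (G_y δ · i) (G_y' δ · i) (y_y' δ i) (P_y δ · i) β1 (Py' i) (fun m₀ => ?_) V hV Ψ hΨ
  · exact ext_sg fun x v => by rw [G_sg, δ.D_zero]; simp [Prod.mk_zero_zero]
  · exact ext_sg fun x v => by
      simp only [mul_apply_eq_comp, G_sg, δ.D_add, add_assoc, Prod.mk_add_mk, add_comm n]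
  · rw [GG, star_wp _ (bdd_const _)]; simp [GG, δ.D_star]
  · split_ifs
    exacts [.one _, .zero _]
  have hθ : ∀ k q, GG δ k (Θ ζ) q = (if q.2 = k then s.κ (q.1 - k) else 0) • ζ := fun k q => by
    simp only [G_apply, hΘ, map_smul, δ.D_ζ, Prod.fst_sub, Prod.snd_sub, sub_eq_zero]
  have ap : ∀ {S T : L2 (ℤ × ℤ) H →L[ℂ] L2 (ℤ × ℤ) H}, Commute S T → ∀ v, S (T v) = T (S v) :=
    fun h v => congrArg (fun R : L2 (ℤ × ℤ) H →L[ℂ] L2 (ℤ × ℤ) H => R v) h.eq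
  have hs : Summable fun k => PP H m₀ (GG δ k ((δ.y i - δ.y' i) (Θ ζ))) := by
    simp only [sub_apply, map_sub]
    refine Summable.sub (summable_of_ne_finset_zero (s := {m₀}) fun k hk => ?_) ?_
    · rw [← P0, ← ap (P_y δ 0 i), ← mul_apply_eq_comp (GG δ k), G_P, ← mul_apply_eq_comp,
        ← mul_assoc, P_mul, if_neg (by simp at hk; omega), zero_mul]; rfl
    · refine .of_norm_bounded ((β2.comp_injective (i := fun k => m₀ - k - 0)
        fun a b e => by simp only at e; omega).mul_right ‖Θ ζ‖) fun k => ?_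
      have e1 : PP H m₀ (GG δ k (δ.y' i (Θ ζ))) =
          GG δ k ((PP H (m₀ - k) * δ.y' i * PP H 0) (Θ ζ)) := by
        simp only [mul_apply_eq_comp, P0]
        rw [← mul_apply_eq_comp (GG δ k) (PP H _), G_P, sub_add_cancel]; rfl
      rw [e1]
      refine ((GG δ k).le_of_opNorm_le (norm_G δ k) _).trans ?_
      rw [one_mul]
      exact ContinuousLinearMap.le_of_opNorm_le _ (Py' i _ _) _
  suffices ∑' k, PP H m₀ (GG δ k ((δ.y i - δ.y' i) (Θ ζ))) = 0 from this ▸ hs.hasSum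
  refine lp.ext (funext fun q => (hs.hasSum.mapL (ev q)).unique ?_)
  obtain ⟨n, m⟩ := q
  simp only [ev_apply, P_apply]
  split_ifs with c
  · have a1 := (hasSum_ite_eq m (∑' l : ℤ, ((s.bb (n - l) : ℂ) * s.c (l - m)) • δ.a i l ζ)).sub
      (y'_tot δ i n m _ fun k => y'_coord δ i (hθ k) n m)
    rw [δ.kms, sub_self] at a1
    refine a1.congr_fun fun k => ?_
    rw [← δ.kms, ← y_coord δ i (hθ k), sub_apply, map_sub, ap (G_y δ k i), ap (G_y' δ k i)]; rfl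
  · exact hasSum_zero

end Crest.Agent.KN
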