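import Crest.Agent.KN.Defs2

/-! Row 78 (S0103), job LEG: legs for an arbitrary vector. -/

set_option autoImplicit false
universe u

namespace Crest.Agent.KN

open scoped InnerProductSpace BigOperators ComplexConjugate
open Filter Topology

namespace LG

theorem unit_abs {B : Type*} [Ring B] [StarRing B] [Algebra ℂ B] [StarModule ℂ B] (a e : B) (c : ℂ)
    (hc : conj c * c = 1) (h1 : star a * a = e) (h2 : a * star a = e) (h3 : e * a = a)
    (h4 : a * e = a) (h5 : star e = e) (h6 : e * e = e) :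
    star (a + c • (1 - e)) * (a + c • (1 - e)) = 1 ∧ (a + c • (1 - e)) * star (a + c • (1 - e)) = 1 := by
  have h7 : star a * e = star a := by rw [← h5, ← star_mul, h3]
  have h8 : e * star a = star a := by rw [← h5, ← star_mul, h4]
  have s1 : star a * (1 - e) = 0 := by rw [mul_sub, mul_one, h7, sub_self]
  have s2 : (1 - e) * a = 0 := by rw [sub_mul, one_mul, h3, sub_self]
  have s3 : (1 - e) * (1 - e) = 1 - e := by
    rw [sub_mul, one_mul, mul_sub, mul_one, h6, sub_self, sub_zero]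
  have s4 : a * (1 - e) = 0 := by rw [mul_sub, mul_one, h4, sub_self]
  have s5 : (1 - e) * star a = 0 := by rw [sub_mul, one_mul, h8, sub_self]
  have hs : star (a + c • (1 - e)) = star a + conj c • (1 - e) := by
    rw [star_add, star_smul, star_sub, star_one, h5]; rfl
  rw [hs]
  constructor
  · simp only [add_mul, mul_add, mul_smul_comm, smul_mul_assoc, h1, s1, s2, s3, smul_zero, add_zero,
      zero_add, smul_smul, mul_comm c, hc, one_smul]
    abel
  · simp only [add_mul, mul_add, mul_smul_comm, smul_mul_assoc, h2, s3, s4, s5, smul_zero, add_zero,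
      zero_add, smul_smul, hc, one_smul]
    abel

section
variable {H : Type u} [NormedAddCommGroup H] [InnerProductSpace ℂ H] [CompleteSpace H]
  {H₀ : Type u} [NormedAddCommGroup H₀] [InnerProductSpace ℂ H₀] [CompleteSpace H₀]
  {P : VonNeumannAlgebra H₀} (κ : Al P →⋆ₙₐ[ℂ] (H →L[ℂ] H))
  {I : Type} [Fintype I] [DecidableEq I]

/-- A matrix with entries in `P`. -/
def mk' (V : Matrix I I (H₀ →L[ℂ] H₀)) (hV : ∀ i i', V i i' ∈ P) : Matrix I I (Al P) :=
  Matrix.of fun i i' => ⟨V i i', hV i i'⟩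

/-- The transported matrix. -/
noncomputable def tr (V : Matrix I I (H₀ →L[ℂ] H₀)) (hV : ∀ i i', V i i' ∈ P) (c : ℂ) :
    Matrix I I (H →L[ℂ] H) :=
  (mk' V hV).map κ + c • (1 - (1 : Matrix I I (Al P)).map κ)

theorem tr_apply (V : Matrix I I (H₀ →L[ℂ] H₀)) (hV : ∀ i i', V i i' ∈ P) (c : ℂ) (i i' : I) :
    tr κ V hV c i i' = κ ⟨V i i', hV i i'⟩ + if i = i' then c • (1 - κ 1) else 0 := by
  simp only [tr, mk', Matrix.add_apply, Matrix.map_apply, Matrix.of_apply, Matrix.smul_apply,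
    Matrix.sub_apply, Matrix.one_apply]
  split_ifs <;> simp

theorem map_star' (A : Matrix I I (Al P)) : star (A.map κ) = (star A).map κ := by
  ext1 i j
  simp only [Matrix.star_apply, Matrix.map_apply, map_star]

theorem tr_unit (V : Matrix I I (H₀ →L[ℂ] H₀)) (hV : ∀ i i', V i i' ∈ P) (c : ℂ)
    (hc : conj c * c = 1) (h1 : star V * V = 1) (h2 : V * star V = 1) :
    star (tr κ V hV c) * tr κ V hV c = 1 ∧ tr κ V hV c * star (tr κ V hV c) = 1 := by
  have inj : ∀ A B : Matrix I I (Al P), A.map P.toStarSubalgebra.subtype =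
      B.map P.toStarSubalgebra.subtype → A = B := fun A B h => by
    ext1 i j
    exact Subtype.ext (congrFun (congrFun h i) j)
  have e0 : (mk' V hV).map P.toStarSubalgebra.subtype = V := rfl
  have e1 : (star (mk' V hV)).map P.toStarSubalgebra.subtype = star V := rfl
  have e2 : (1 : Matrix I I (Al P)).map P.toStarSubalgebra.subtype = 1 :=
    Matrix.map_one _ (map_zero _) (map_one _)
  have k1 : star (mk' V hV) * mk' V hV = 1 := inj _ _ (by rw [Matrix.map_mul, e0, e1, e2, h1])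
  have k2 : mk' V hV * star (mk' V hV) = 1 := inj _ _ (by rw [Matrix.map_mul, e0, e1, e2, h2])
  refine unit_abs _ _ c hc ?_ ?_ ?_ ?_ ?_ ?_
  · rw [map_star', ← Matrix.map_mul, k1]
  · rw [map_star', ← Matrix.map_mul, k2]
  · rw [← Matrix.map_mul, one_mul]
  · rw [← Matrix.map_mul, mul_one]
  · rw [map_star', star_one]
  · rw [← Matrix.map_mul, one_mul]

theorem tr_mem {Q : VonNeumannAlgebra H} (hκ : ∀ T, κ T ∈ Q) (V : Matrix I I (H₀ →L[ℂ] H₀))
    (hV : ∀ i i', V i i' ∈ P) (c : ℂ) (i i' : I) : tr κ V hV c i i' ∈ Q := by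
  rw [tr_apply]
  refine Q.toStarSubalgebra.add_mem (hκ _) ?_
  split_ifs
  · exact Q.toStarSubalgebra.smul_mem
      (Q.toStarSubalgebra.sub_mem Q.toStarSubalgebra.one_mem (hκ _)) _
  · exact Q.toStarSubalgebra.zero_mem

theorem tr_star_W {W : H₀ →L[ℂ] H} (hW : ∀ T ξ, κ T (W ξ) = W ((T : H₀ →L[ℂ] H₀) ξ))
    (V : Matrix I I (H₀ →L[ℂ] H₀)) (hV : ∀ i i', V i i' ∈ P) (c : ℂ) (i i' : I) (ξ : H₀) :
    (star (tr κ V hV c)) i i' (W ξ) = W ((star V) i i' ξ) := by
  have h1 : star (κ 1) = κ 1 := by rw [← map_star, star_one]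
  have h2 : (1 - κ 1) (W ξ) = 0 := by
    rw [ContinuousLinearMap.sub_apply, hW]; simp
  rw [Matrix.star_apply, Matrix.star_apply, tr_apply, star_add, ← map_star,
    ContinuousLinearMap.add_apply, hW]
  split_ifs
  · rw [star_smul, star_sub, star_one, h1, ContinuousLinearMap.smul_apply, h2, smul_zero, add_zero]
    rfl
  · rw [star_zero, ContinuousLinearMap.zero_apply, add_zero]
    rfl

end

section
variable {H : Type u} [NormedAddCommGroup H] [InnerProductSpace ℂ H] [CompleteSpace H]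
  {M : VonNeumannAlgebra H} {ζ : H}
  {H₀ : Type u} [NormedAddCommGroup H₀] [InnerProductSpace ℂ H₀] [CompleteSpace H₀]
  (R : Red M ζ H₀) {ι : Type} (l : PreLeg R.M₀ R.ζ₀ ι) (c : ι → ℂ) (hc : ∀ h, conj (c h) * c h = 1)

/-- The transported family of legs. -/
noncomputable def trL : PreLeg M ζ ι where
  I := l.I
  J := l.J
  ω := l.ω
  ω_uv := l.ω_uv
  U h := tr R.κ (l.U h) (l.U_mem h) (c h)
  U_mem h := tr_mem R.κ R.κ_mem _ _ _
  U_l h := (tr_unit R.κ _ _ _ (hc h) (l.U_l h) (l.U_r h)).1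
  U_r h := (tr_unit R.κ _ _ _ (hc h) (l.U_l h) (l.U_r h)).2
  U' h := tr R.κ' (l.U' h) (l.U'_mem h) 1
  U'_mem h := tr_mem R.κ' R.κ'_mem _ _ _
  U'_l h := (tr_unit R.κ' _ _ _ (by simp) (l.U'_l h) (l.U'_r h)).1
  U'_r h := (tr_unit R.κ' _ _ _ (by simp) (l.U'_l h) (l.U'_r h)).2
  p := l.p
  p_pos := l.p_pos
  p_le := l.p_le
  u := l.u
  g := l.g
  u_uv := l.u_uv
  g_uv := l.g_uv
  slot := l.slot

theorem trL_Z (h : ι) (k : l.I × l.J) : ((trL R l c hc).leg h).Z k = R.W ((l.leg h).Z k) := by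
  show ∑ k' : l.I × l.J, l.ω k' • ((star (tr R.κ' (l.U' h) (l.U'_mem h) 1)) k.2 k'.2 *
      (star (tr R.κ (l.U h) (l.U_mem h) (c h))) k.1 k'.1) ζ - l.ω k • ζ =
    R.W (∑ k' : l.I × l.J, l.ω k' • ((star (l.U' h)) k.2 k'.2 * (star (l.U h)) k.1 k'.1) R.ζ₀ -
      l.ω k • R.ζ₀)
  rw [map_sub, map_sum, map_smul, R.W_ζ]
  congr 1
  refine Finset.sum_congr rfl fun k' _ => ?_
  rw [map_smul, ContinuousLinearMap.mul_apply, ContinuousLinearMap.mul_apply,
    ← tr_star_W R.κ' R.κ'_W _ (l.U'_mem h) 1, ← tr_star_W R.κ R.κ_W _ (l.U_mem h) (c h), R.W_ζ]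

theorem trL_s2 (h : ι) : ((trL R l c hc).leg h).s2 = (l.leg h).s2 := by
  show ∑ k : l.I × l.J, ‖((trL R l c hc).leg h).Z k‖ ^ 2 = ∑ k : l.I × l.J, ‖(l.leg h).Z k‖ ^ 2
  refine Finset.sum_congr rfl fun k _ => ?_
  rw [trL_Z, R.norm_W]

theorem trL_d (h : ι) : ((trL R l c hc).leg h).d = (l.leg h).d := by
  show ‖∑ k : l.I × l.J, conj (l.ω k) • ((trL R l c hc).leg h).Z k‖ =
    ‖∑ k : l.I × l.J, conj (l.ω k) • (l.leg h).Z k‖
  rw [← R.norm_W, map_sum]
  congr 1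
  refine Finset.sum_congr rfl fun k _ => ?_
  rw [trL_Z, map_smul]

theorem sl_mem (h : ι) : (l.leg h).sl () ∈ R.M₀ :=
  R.M₀.toStarSubalgebra.sum_mem fun i _ => R.M₀.toStarSubalgebra.sum_mem fun i' _ =>
    R.M₀.toStarSubalgebra.smul_mem (l.U_mem h i i') _

theorem trL_sl (h : ι) :
    ((trL R l c hc).leg h).sl () = R.κ ⟨_, sl_mem R l h⟩ + c h • (1 - R.κ 1) := by
  have e : (⟨_, sl_mem R l h⟩ : Al R.M₀) =
      ∑ i, ∑ i', (conj (l.u i) * l.u i') • (⟨l.U h i i', l.U_mem h i i'⟩ : Al R.M₀) := by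
    apply Subtype.ext
    show ∑ i, ∑ i', (conj (l.u i) * l.u i') • l.U h i i' = _
    simp
  have hu : ∑ i, conj (l.u i) * l.u i = 1 := by
    have := l.u_uv
    unfold UV at this
    simp only [Complex.conj_mul']
    exact_mod_cast this
  show ∑ i, ∑ i', (conj (l.u i) * l.u i') • tr R.κ (l.U h) (l.U_mem h) (c h) i i' = _
  rw [e]
  simp only [tr_apply, smul_add, Finset.sum_add_distrib, map_sum, map_smul, smul_ite, smul_zero,
    Finset.sum_ite_eq, Finset.mem_univ, if_true]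
  rw [← Finset.sum_smul, hu, one_smul]

end

end LG

open LG in
theorem leg (h1 : JobRED.{u}) (h2 : JobTT.{u}) (h3 : LEG0.{u}) (h4 : JobSUM.{u}) : LEG.{u} := by
  intro H _ _ _ M ζ
  obtain ⟨H₀, _, _, _, ⟨R⟩⟩ := h1 H M ζ
  refine ⟨R.κ 1, R.κ_mem _, by rw [IsSelfAdjoint, ← map_star, star_one], R.κ_one, ?_⟩
  intro ι _ _ x hx η hη
  have hW : ‖R.W‖ ≤ 1 := R.W.opNorm_le_bound zero_le_one fun ξ => by rw [R.norm_W, one_mul]
  set x₀ : ι → H₀ →L[ℂ] H₀ := fun i => ContinuousLinearMap.adjoint R.W ∘L x i ∘L R.W with hx₀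
  have hx' : ∀ i, x₀ i ∈ R.M₀ ∧ IsSelfAdjoint (x₀ i) ∧ ‖x₀ i‖ ≤ 1 / 2 := by
    intro i
    refine ⟨R.comp_mem _ (hx i).1, (hx i).2.1.adjoint_conj R.W, ?_⟩
    have a1 := (ContinuousLinearMap.adjoint R.W).opNorm_comp_le (x i ∘L R.W)
    have a2 := (x i).opNorm_comp_le R.W
    rw [LinearIsometryEquiv.norm_map] at a1
    have a3 := (hx i).2.2
    have a4 : ‖x i ∘L R.W‖ ≤ 1 / 2 := a2.trans (by nlinarith [norm_nonneg (x i), norm_nonneg R.W])
    exact a1.trans (by nlinarith [norm_nonneg (x i ∘L R.W), norm_nonneg R.W])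
  have hN : (1 : ℝ) ≤ Fintype.card (ι × Bool) := by exact_mod_cast Fintype.card_pos
  obtain ⟨l, hl1, hl2, hl3⟩ := h3 H₀ R.M₀ R.ζ₀ (h2 H₀ R.M₀ R.ζ₀ R.cyc R.cyc') ι x₀ hx'
    (η / Fintype.card (ι × Bool)) (by positivity)
  set c : ι × Bool → ℂ := fun h => cond h.2 Complex.I (-Complex.I) with hcdef
  have hc : ∀ h, conj (c h) * c h = 1 := by
    rintro ⟨i, b⟩
    cases b <;> simp [hcdef]
  obtain ⟨L, hp, hsl, hd, hs⟩ := h4 H M ζ (ι × Bool) (trL R l c hc)
  have hp' : η / Fintype.card (ι × Bool) * l.p = η * L.p := by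
    rw [hp]
    show _ = η * (l.p / _)
    ring
  have hsum : ∀ i, L.sl (i, true) + L.sl (i, false) =
      R.κ (⟨_, sl_mem R l (i, true)⟩ + ⟨_, sl_mem R l (i, false)⟩) := by
    intro i
    rw [hsl, hsl, trL_sl, trL_sl, map_add]
    simp only [hcdef, cond_true, cond_false, neg_smul]
    abel
  refine ⟨L, hd _ fun h => ?_, hs _ fun h => ?_, fun lam hlam => ?_, fun i => ?_⟩
  · rw [trL_d, ← hp']; exact (hl1 h).1
  · rw [trL_s2, ← hp']; exact (hl1 h).2
  · have h0 : ∑ i, lam i • x₀ i = 0 := by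
      have : ∑ i, lam i • x₀ i = ContinuousLinearMap.adjoint R.W ∘L (∑ i, lam i • x i) ∘L R.W := by
        ext ξ
        simp [hx₀]
      rw [this, hlam]
      simp
    have h5 := hl2 lam h0
    rw [Fintype.sum_prod_type]
    simp only [Fintype.sum_bool, ← smul_add, hsum, ← map_smul, ← map_sum]
    rw [← map_zero R.κ]
    congr 1
    apply Subtype.ext
    rw [AddSubmonoidClass.coe_finset_sum]
    exact h5
  · have e : (L.sl (i, true) + L.sl (i, false) - (2 : ℂ) • (R.κ 1 * x i * R.κ 1)) =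
        R.κ (⟨_, sl_mem R l (i, true)⟩ + ⟨_, sl_mem R l (i, false)⟩ -
          (2 : ℂ) • ⟨_, R.comp_mem _ (hx i).1⟩) := by
      rw [map_sub, map_smul, hsum, R.κ_comp _ (hx i).1]
    have e2 : ∀ T : Al R.M₀, ‖R.κ T ζ‖ = ‖(T : H₀ →L[ℂ] H₀) R.ζ₀‖ := fun T => by
      rw [← R.norm_W, ← R.κ_W, R.W_ζ]
    rw [e, e2]
    exact (hl3 i).trans (div_le_self hη.le hN)

end Crest.Agent.KN
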