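import Crest.Agent.KN.Defs2

/-! Row 78 (S0103): job LEG0. -/

set_option autoImplicit false
universe u

namespace Crest.Agent.KN

open scoped InnerProductSpace BigOperators
open Filter Topology Crest.Agent.KK

namespace LEG0x

theorem u_eq (s : Sc) (n : ℤ) : s.u n = ∑ k ∈ s.μ.support, s.μ k * s.κ (n - k) :=
  tsum_eq_sum fun k hk => by rw [Finsupp.notMem_support_iff.1 hk, zero_mul]

theorem u_pos (s : Sc) : 0 < ∑' k, ‖s.u k‖ ^ 2 := by
  obtain ⟨n, hn⟩ := s.u_ne
  refine Summable.tsum_pos ?_ (fun _ => sq_nonneg _) n (pow_pos (norm_pos_iff.2 hn) 2)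
  refine .of_nonneg_of_le (fun _ => sq_nonneg _) (fun n => ?_)
    ((summable_sum (s := s.μ.support) fun k _ => ((Equiv.subRight k).summable_iff.2
      s.κ_sum.summable).mul_left (‖s.μ k‖ ^ 2)).mul_left (s.μ.support.card : ℝ))
  rw [u_eq]
  refine (pow_le_pow_left₀ (norm_nonneg _) (norm_sum_le _ _) 2).trans
    (sq_sum_le_card_mul_sum_sq.trans (le_of_eq ?_))
  simp only [norm_mul, mul_pow, Function.comp_def, Equiv.subRight_apply]

theorem supp_ne (s : Sc) : s.μ.support.Nonempty := by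
  obtain ⟨n, hn⟩ := s.u_ne
  exact Finset.nonempty_of_sum_ne_zero (by rwa [← u_eq])

theorem tent_facts {S : ℕ} (hS : 1 ≤ S) : (∀ m, m ∉ Finset.Icc (-(S : ℤ)) S → tent S m = 0) ∧
    ∑ m ∈ Finset.Icc (-(S : ℤ)) S, tent S m ^ 2 = 1 ∧
    ∀ m : ℤ, 2 * |(m : ℝ)| ≤ S → 0 < tent S m ∧ 1 / (12 * S : ℝ) ≤ tent S m ^ 2 := by
  have S1 : (1 : ℝ) ≤ S := by exact_mod_cast hS
  have S0 : (0 : ℝ) < S := by linarith
  set T := ∑ k ∈ Finset.Icc (-(S : ℤ)) S, (max 0 (1 - |(k : ℝ)| / S)) ^ 2 with hT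
  have T0 : 0 < T := Finset.sum_pos' (fun _ _ => sq_nonneg _) ⟨0, by simp, by simp⟩
  have T1 : T ≤ 3 * S := by
    have := Finset.sum_le_card_nsmul (Finset.Icc (-(S : ℤ)) S)
      (fun k => (max 0 (1 - |(k : ℝ)| / S)) ^ 2) 1 fun k _ =>
        pow_le_one₀ (le_max_left _ _) (max_le zero_le_one (sub_le_self _ (by positivity)))
    rw [Int.card_Icc, show (S : ℤ) + 1 - -(S : ℤ) = ((2 * S + 1 : ℕ) : ℤ) by push_cast; ring,
      Int.toNat_natCast, nsmul_eq_mul] at this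
    push_cast at this
    linarith
  refine ⟨fun m c => ?_, ?_, fun m hm => ?_⟩
  · have : (S : ℝ) ≤ |(m : ℝ)| := by
      rw [Finset.mem_Icc, ← abs_le, not_le] at c
      exact_mod_cast c.le
    rw [tent, max_eq_left (by rw [sub_nonpos, one_le_div S0]; exact this), zero_div]
  · simp only [tent, div_pow, ← hT, Real.sq_sqrt T0.le, ← Finset.sum_div]
    exact div_self T0.ne'
  · have a : 1 / 2 ≤ max 0 (1 - |(m : ℝ)| / S) := le_max_of_le_right (by
      have : |(m : ℝ)| / S ≤ 1 / 2 := by rw [div_le_iff₀ S0]; linarith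
      linarith)
    refine ⟨div_pos (by linarith) (Real.sqrt_pos.2 T0), ?_⟩
    rw [tent, div_pow, ← hT, Real.sq_sqrt T0.le, div_le_div_iff₀ (by positivity) T0]
    nlinarith [pow_le_pow_left₀ (by norm_num) a 2]

end LEG0x

open LEG0x in
theorem leg0 (h1 : JobINF.{u}) (h2 : JobCUT.{u}) (h3 : JobBAND.{u}) : LEG0.{u} := by
  intro H _ _ _ M ζ hT ι _ x hx η hη
  classical
  set η₁ := η / (2 * (1 + 2 * ‖ζ‖)) with hη₁
  have e0 : 0 < η₁ := by positivity
  obtain ⟨s, δ, A, hA, ha, hl⟩ := h3 H M ζ hT ι x hx η₁ e0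
  obtain ⟨hy, V, hV, hb⟩ := h1 H M ζ ι s δ
  choose hb1 hb2 using hb
  choose C hC using hb1
  have U0 := u_pos s
  set U := ∑' k, ‖s.u k‖ ^ 2
  have M0 : 0 < ∑ m ∈ s.μ.support, ‖s.μ m‖ ^ 2 := Finset.sum_pos (fun m hm =>
    pow_pos (norm_pos_iff.2 (Finsupp.mem_support_iff.1 hm)) 2) (supp_ne s)
  set c₀ := U / (12 * ∑ m ∈ s.μ.support, ‖s.μ m‖ ^ 2) with hc₀
  have c0 : 0 < c₀ := by positivity
  have r0 : 0 < η * c₀ / 4 := by positivity
  obtain ⟨S, hS, s1, s2, s3⟩ := ((eventually_ge_atTop 1).and (((eventually_all_finset s.μ.support).2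
    fun m _ => tendsto_natCast_atTop_atTop.eventually_ge_atTop (2 * |(m : ℝ)|)).and
    ((eventually_all.2 fun h : ι × Bool => (tendsto_const_div_atTop_nhds_zero_nat
      (C h.1 h.2 ^ 2)).eventually (ge_mem_nhds r0)).and
    (eventually_all.2 fun h : ι × Bool => (hb2 h.1 h.2).eventually (ge_mem_nhds r0))))).exists
  obtain ⟨t1, t2, t3⟩ := tent_facts hS
  have S0 : (0 : ℝ) < S := by exact_mod_cast hS
  set η' := min (min (c₀ / (2 * S)) (η * c₀ / 4 / S)) (η₁ / (A.card + 1)) with hη'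
  have a1 : η' ≤ c₀ / (2 * S) := (min_le_left _ _).trans (min_le_left _ _)
  have a2 : η' ≤ η * c₀ / 4 / S := (min_le_left _ _).trans (min_le_right _ _)
  have a3 : η' * (A.card + 1) ≤ η₁ := (le_div_iff₀ (by positivity)).1 (min_le_right _ _)
  have a0 : 0 < η' := by positivity
  obtain ⟨l, lp, ld, w, w0, ws, w1, wA, hw⟩ := h2 H M ζ ι s δ hy (tent S) _ (V S) t1 t2
    (fun m hm => (t3 m (s1 m hm)).1) (hV S hS) A η' a0
  have K : c₀ / S ≤ U / ∑ m ∈ s.μ.support, ‖s.μ m‖ ^ 2 / tent S m ^ 2 := by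
    rw [hc₀, div_div]
    refine div_le_div_of_nonneg_left U0.le (Finset.sum_pos (fun m hm => div_pos
      (pow_pos (norm_pos_iff.2 (Finsupp.mem_support_iff.1 hm)) 2)
      (pow_pos (t3 m (s1 m hm)).1 2)) (supp_ne s)) ?_
    rw [mul_right_comm, Finset.mul_sum]
    refine Finset.sum_le_sum fun m hm => ?_
    refine (div_le_div_of_nonneg_left (sq_nonneg _) (by positivity) (t3 m (s1 m hm)).2).trans ?_
    rw [div_div_eq_mul_div, div_one, mul_comm]
  have hp : η * c₀ / 4 / S + η * c₀ / 4 / S ≤ η * l.p := by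
    have : c₀ / (2 * S) ≤ l.p := by
      have e : c₀ / S = 2 * (c₀ / (2 * S)) := by field_simp
      linarith [(abs_le.1 lp).1]
    refine le_trans (le_of_eq ?_) (mul_le_mul_of_nonneg_left this hη.le)
    field_simp; norm_num
  have sm : ∀ i, Summable fun n => (w n : ℂ) • δ.a i n := fun i =>
    .of_norm_bounded ws fun n => by
      rw [norm_smul, Complex.norm_real, Real.norm_of_nonneg (w0 n)]
      exact mul_le_of_le_one_right (w0 n) ((δ.a_le i n).trans (by norm_num))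
  refine ⟨l, fun h => ⟨?_, ?_⟩, fun lam hlam => ?_, fun i => ?_⟩
  · have := (le_div_iff₀' S0).2 (s3 h)
    linarith [(ld h).2]
  · have b1 := pow_le_pow_left₀ (norm_nonneg _) (hC h.1 h.2 S hS) 2
    have b2 := div_le_div_of_nonneg_right (s2 h) S0.le
    rw [div_div, ← sq, ← div_pow] at b2
    linarith [(ld h).1]
  · have := hasSum_sum (s := Finset.univ) fun i _ => (sm i).hasSum.const_smul (lam i)
    simp only [smul_comm (lam _) (w _ : ℂ), ← Finset.smul_sum, hl lam hlam, smul_zero] at this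
    simp only [hw, smul_comm (lam _) (2 : ℂ), ← Finset.smul_sum, this.unique hasSum_zero, smul_zero]
  · set W := ∑' n, w n
    have b1 := ((sm i).hasSum.mapL (ContinuousLinearMap.apply ℂ H ζ)).sub
      ((Complex.hasSum_ofReal.2 ws.hasSum).smul_const (x i ζ))
    have b2 := (ws.hasSum.mul_right (η₁ + ‖ζ‖)).sub ((hasSum_sum_of_ne_finset_zero (s := A)
      (f := fun n => if n ∈ A then w n else 0) fun n hn => if_neg hn).mul_right ‖ζ‖)
    have nx : ‖x i ζ‖ ≤ 1 / 2 * ‖ζ‖ := (x i).le_of_opNorm_le (hx i).2.2 ζ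
    have b3 := b1.norm_le_of_bounded b2 fun n => by
      simp only [ContinuousLinearMap.apply_apply, smul_apply, ← smul_sub, norm_smul,
        Complex.norm_real, Real.norm_of_nonneg (w0 n)]
      split_ifs with c
      · nlinarith [mul_le_mul_of_nonneg_left (ha i n c) (w0 n)]
      · have := (norm_sub_le _ _).trans
          (add_le_add ((δ.a i n).le_of_opNorm_le (δ.a_le i n) ζ) nx)
        nlinarith [mul_le_mul_of_nonneg_left this (w0 n), mul_nonneg (w0 n) e0.le]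
    rw [Finset.sum_ite_of_true fun _ h => h, ContinuousLinearMap.apply_apply] at b3
    have b4 : ∑ n ∈ A, s.w n - η' * A.card ≤ ∑ n ∈ A, w n := by
      rw [mul_comm, ← nsmul_eq_mul, ← Finset.sum_const, ← Finset.sum_sub_distrib]
      exact Finset.sum_le_sum fun n hn => by linarith [(abs_le.1 (wA n hn)).1]
    have e : ((2 : ℂ) • ∑' n, (w n : ℂ) • δ.a i n - (2 : ℂ) • x i) ζ =
        (2 : ℂ) • (((∑' n, (w n : ℂ) • δ.a i n) ζ - (W : ℂ) • x i ζ) -
          ((1 - W : ℝ) : ℂ) • x i ζ) := by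
      simp only [sub_apply, smul_apply, Complex.ofReal_sub, Complex.ofReal_one, sub_smul, one_smul]
      module
    rw [hw, e, norm_smul, Complex.norm_two]
    have b5 := norm_sub_le ((∑' n, (w n : ℂ) • δ.a i n) ζ - (W : ℂ) • x i ζ)
      (((1 - W : ℝ) : ℂ) • x i ζ)
    rw [norm_smul, Complex.norm_real, Real.norm_of_nonneg (sub_nonneg.2 w1)] at b5
    have b6 : η = 2 * (η₁ + 2 * η₁ * ‖ζ‖) := by rw [hη₁]; field_simp
    have b7 : 1 - 2 * η₁ ≤ ∑ n ∈ A, w n := by linarith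
    nlinarith [mul_le_mul_of_nonneg_left nx (sub_nonneg.2 w1), mul_le_mul_of_nonneg_right w1 e0.le,
      mul_le_mul_of_nonneg_right b7 (norm_nonneg ζ),
      mul_nonneg (sub_nonneg.2 w1) (norm_nonneg ζ)]

end Crest.Agent.KN
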