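import Crest.Agent.KN.Defs

/-! Row 78, job LIFT: lifting of columns. -/

set_option autoImplicit false
universe u

namespace Crest.Agent.KN

open scoped InnerProductSpace BigOperators

namespace LIFTx

/-- finite direct sums -/
abbrev KK (E : Type u) (k : ℕ) : Type u := PiLp 2 (fun _ : Fin k => E)

section
variable {E : Type u} [NormedAddCommGroup E] [InnerProductSpace ℂ E] [CompleteSpace E]

/-- operators given by their rows -/
noncomputable def mkOp {X : Type u} [NormedAddCommGroup X] [NormedSpace ℂ X] {k : ℕ}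
    (f : Fin k → X →L[ℂ] E) : X →L[ℂ] PiLp 2 (fun _ : Fin k => E) :=
  ((PiLp.continuousLinearEquiv 2 ℂ (fun _ : Fin k => E)).symm :
    (Fin k → E) →L[ℂ] PiLp 2 (fun _ : Fin k => E)) ∘L ContinuousLinearMap.pi f

omit [CompleteSpace E] in
@[simp] theorem mkOp_apply {X : Type u} [NormedAddCommGroup X] [NormedSpace ℂ X] {k : ℕ}
    (f : Fin k → X →L[ℂ] E) (x : X) (i : Fin k) : mkOp f x i = f i x := rfl

/-- diagonal amplification -/
noncomputable def diag (k : ℕ) : (E →L[ℂ] E) →⋆ₐ[ℂ]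
    (PiLp 2 (fun _ : Fin k => E) →L[ℂ] PiLp 2 (fun _ : Fin k => E)) where
  toFun T := mkOp fun i => T ∘L PiLp.proj 2 (fun _ : Fin k => E) i
  map_one' := by ext x i; simp
  map_mul' S T := by ext x i; simp
  map_zero' := by ext x i; simp
  map_add' S T := by ext x i; simp
  commutes' c := by ext x i; simp [Algebra.algebraMap_eq_smul_one]
  map_star' T := by
    rw [ContinuousLinearMap.star_eq_adjoint, ContinuousLinearMap.star_eq_adjoint,
      ContinuousLinearMap.eq_adjoint_iff]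
    intro x y
    simp [PiLp.inner_apply, ContinuousLinearMap.adjoint_inner_left]

@[simp] theorem diag_apply (k : ℕ) (T : E →L[ℂ] E) (x : PiLp 2 (fun _ : Fin k => E)) (i : Fin k) :
    diag (E := E) k T x i = T (x i) := rfl

theorem step (h1 : JobAVG.{u}) {K : Type} [Fintype K] [DecidableEq K]
    (ρ : Matrix K K ℂ →⋆ₐ[ℂ] (E →L[ℂ] E)) (ϑ : K → ℂ) (hϑ : UV ϑ) {m : ℕ}
    (r r' : Fin m → E →L[ℂ] E) {c : ℝ} (hc : Col (fun i => r i - r' i) c)
    (hr : ∀ i a, Commute (r i) (ρ a)) :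
    ∃ r'' : Fin m → E →L[ℂ] E, Col (fun i => r i - r'' i) c ∧ (∀ i a, Commute (r'' i) (ρ a)) ∧
      ∀ i z, (∀ a, Commute z (ρ a)) → Commute (r' i) z → Commute (r'' i) z := by
  have A := h1 E K ρ ϑ hϑ
  refine ⟨fun i => avg ρ ϑ (r' i), ?_, fun i a => A.comm _ _, fun i z hz h => A.keep _ _ hz h⟩
  have := A.col m _ c hc
  simpa only [A.sub, A.fix _ (hr _)] using this

end

variable {H : Type u} [NormedAddCommGroup H] [InnerProductSpace ℂ H] [CompleteSpace H]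

theorem comm_le {A : Type u} [NormedRing A] (x y : A) : ‖x * y - y * x‖ ≤ 2 * ‖x‖ * ‖y‖ := by
  have h1 := norm_sub_le (x * y) (y * x)
  have h2 := norm_mul_le x y
  have h3 := norm_mul_le y x
  nlinarith

theorem near_comm {C₀ : ℝ} (h : ADS.{u} C₀) {P Q : VonNeumannAlgebra H} {δ : ℝ} (hδ : 0 ≤ δ)
    (hn : Near Q P δ) {x : H →L[ℂ] H} (hx : x ∈ P.commutant) :
    ∃ y ∈ Q.commutant, ‖x - y‖ ≤ C₀ * (2 * δ * ‖x‖) := by
  obtain ⟨y, h1, h2⟩ := h H (Al Q) Q.toStarSubalgebra.subtype x (2 * δ * ‖x‖) (by positivity)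
    fun a => by
      obtain ⟨b, hb, hab⟩ := hn a.1 a.2
      have e := VonNeumannAlgebra.mem_commutant_iff.1 hx b hb
      have : x * Q.toStarSubalgebra.subtype a - Q.toStarSubalgebra.subtype a * x =
          x * (a.1 - b) - (a.1 - b) * x := by
        rw [mul_sub, sub_mul, e]; simp
      rw [this]
      refine (comm_le _ _).trans ?_
      have : ‖a‖ = ‖a.1‖ := rfl
      rw [this]
      calc 2 * ‖x‖ * ‖a.1 - b‖ ≤ 2 * ‖x‖ * (δ * ‖a.1‖) := by gcongr
        _ = _ := by ring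
  exact ⟨y, VonNeumannAlgebra.mem_commutant_iff.2 fun g hg => (h1 ⟨g, hg⟩).symm.eq, h2⟩

theorem col0 {C₀ : ℝ} (hC : 1 ≤ C₀) (h : ADS.{u} C₀) {P Q : VonNeumannAlgebra H} {δ : ℝ}
    (hδ : 0 ≤ δ) (hn : Near Q P δ) {E : Type u} [NormedAddCommGroup E] [InnerProductSpace ℂ E]
    [CompleteSpace E] (am : (H →L[ℂ] H) →⋆ₐ[ℂ] (E →L[ℂ] E)) {m : ℕ} (r : Fin m → E →L[ℂ] E)
    {c : ℝ} (hc : 0 ≤ c) (hr : Col r c) (hQ : ∀ i, ∀ y ∈ Q.commutant, Commute (r i) (am y)) :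
    ∃ r' : Fin m → E →L[ℂ] E, Col (fun i => r i - r' i) (4 * C₀ ^ 2 * δ * c) ∧
      ∀ i, ∀ y ∈ P.commutant, Commute (r' i) (am y) := by
  let p : Fin (m + 1) → KK E (m + 1) →L[ℂ] E := fun i => PiLp.proj 2 (fun _ : Fin (m + 1) => E) i
  let R : KK E (m + 1) →L[ℂ] KK E (m + 1) := mkOp (Fin.cons 0 fun i => r i ∘L p 0)
  let j : E →L[ℂ] KK E (m + 1) := mkOp (Fin.cons 1 fun _ => 0)
  have hj : ∀ ξ, ‖j ξ‖ = ‖ξ‖ := fun ξ => by
    have : ‖j ξ‖ ^ 2 = ‖ξ‖ ^ 2 := by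
      rw [PiLp.norm_sq_eq_of_L2, Fin.sum_univ_succ]; simp [j]
    exact (sq_eq_sq₀ (norm_nonneg _) (norm_nonneg _)).1 this
  have hR : ‖R‖ ≤ c := by
    refine ContinuousLinearMap.opNorm_le_bound _ hc fun x => ?_
    refine (sq_le_sq₀ (norm_nonneg _) (by positivity)).1 ?_
    rw [PiLp.norm_sq_eq_of_L2, Fin.sum_univ_succ]
    have h1 := hr (x 0)
    have h2 : ‖x 0‖ ≤ ‖x‖ := PiLp.norm_apply_le x 0
    have h3 : c ^ 2 * ‖x 0‖ ^ 2 ≤ c ^ 2 * ‖x‖ ^ 2 := by gcongr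
    simpa [R, p, mul_pow] using h1.trans h3
  let π₀ := (diag (E := E) (m + 1)).comp am
  have hRQ : ∀ y ∈ Q.commutant, R * π₀ y = π₀ y * R := by
    intro y hy
    ext x i
    refine Fin.cases ?_ (fun i => ?_) i
    · simp [R, π₀]
    · simpa [R, π₀, p] using congrArg (fun T : E →L[ℂ] E => T (x 0)) (hQ i y hy).eq
  obtain ⟨R₀, h1, h2⟩ := h (KK E (m + 1)) (Al P.commutant) (π₀.comp P.commutant.toStarSubalgebra.subtype) R
    (4 * C₀ * δ * c) (by positivity) fun a => by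
      obtain ⟨y, hy, hay⟩ := near_comm h hδ hn a.2
      have : R * (π₀.comp P.commutant.toStarSubalgebra.subtype) a -
          (π₀.comp P.commutant.toStarSubalgebra.subtype) a * R =
          R * π₀ (a.1 - y) - π₀ (a.1 - y) * R := by
        rw [map_sub, mul_sub, sub_mul, hRQ y hy]; simp
      rw [this]
      refine (comm_le _ _).trans ?_
      have e : ‖a‖ = ‖a.1‖ := rfl
      have h3 := (NonUnitalStarAlgHom.norm_apply_le π₀ (a.1 - y)).trans hay
      rw [e]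
      calc 2 * ‖R‖ * ‖π₀ (a.1 - y)‖ ≤ 2 * c * (C₀ * (2 * δ * ‖a.1‖)) := by gcongr
        _ = _ := by ring
  refine ⟨fun i => p i.succ ∘L R₀ ∘L j, fun ξ => ?_, fun i y hy => ?_⟩
  · have h3 := (R - R₀).le_opNorm (j ξ)
    rw [hj] at h3
    have h4 : ‖(R - R₀) (j ξ)‖ ≤ 4 * C₀ ^ 2 * δ * c * ‖ξ‖ :=
      h3.trans (by
        calc ‖R - R₀‖ * ‖ξ‖ ≤ C₀ * (4 * C₀ * δ * c) * ‖ξ‖ := by gcongr
          _ = _ := by ring)
    have h5 := pow_le_pow_left₀ (norm_nonneg _) h4 2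
    rw [PiLp.norm_sq_eq_of_L2, Fin.sum_univ_succ, mul_pow] at h5
    refine le_trans ?_ h5
    refine le_trans (le_of_eq ?_) (le_add_of_nonneg_left (sq_nonneg _))
    refine Finset.sum_congr rfl fun i _ => ?_
    simp [R, j, p]
  · have e := (h1 ⟨y, hy⟩).eq
    have hjy : ∀ ξ, j (am y ξ) = π₀ y (j ξ) := fun ξ => by
      ext k
      refine Fin.cases ?_ (fun k => ?_) k <;> simp [j, π₀]
    ext ξ
    have := congrArg (fun T : KK E (m + 1) →L[ℂ] KK E (m + 1) => T (j ξ) i.succ) e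
    simp only [ContinuousLinearMap.mul_apply, ContinuousLinearMap.comp_apply, hjy]
    exact this

end LIFTx

open LIFTx in
theorem lift {C₀ : ℝ} (hC : 1 ≤ C₀) (h : ADS.{u} C₀) (h1 : JobAVG.{u}) (h2 : JobTWA.{u}) :
    ∃ C : ℝ, 1 ≤ C ∧ LIFT.{u} C := by
  refine ⟨4 * C₀ ^ 2, by nlinarith, ?_⟩
  intro H _ _ _ M ζ ι _ lg E _ _ _ τ P Q δ hδ hn A B hAB m r c hc hr hcm
  have api := h2 H M ζ ι lg E τ
  obtain ⟨r₀, c0, a0⟩ := col0 hC h hδ hn τ.am r hc hr fun i => (hcm i).1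
  have s1 : ∀ A' : Finset ℕ, A' ⊆ A → ∃ r' : Fin m → E →L[ℂ] E,
      Col (fun i => r i - r' i) (4 * C₀ ^ 2 * δ * c) ∧
        ∀ i, τ.Ca P (r' i) ∧ ∀ n ∈ A', τ.Cρ n (r' i) := by
    intro A'
    induction A' using Finset.induction_on with
    | empty => exact fun _ => ⟨r₀, c0, fun i => ⟨a0 i, by simp⟩⟩
    | insert n A' hn' ih =>
      intro hs
      obtain ⟨r', c1, a1⟩ := ih fun x hx => hs (Finset.mem_insert_of_mem hx)
      obtain ⟨r'', c2, a2, a3⟩ := step h1 (τ.ρ n) (lg n).ω (lg n).ω_uv r r' c1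
        fun i => (hcm i).2.1 n (hs (Finset.mem_insert_self _ _))
      refine ⟨r'', c2, fun i => ⟨fun y hy => a3 i _ (fun a => (τ.ρ_am n a y).symm)
        ((a1 i).1 y hy), fun k hk => ?_⟩⟩
      rcases Finset.mem_insert.1 hk with rfl | hk
      · exact a2 i
      · exact fun b => a3 i _ (fun a => τ.ρ_ρ k n (fun e => hn' (e ▸ hk)) b a) ((a1 i).2 k hk b)
  obtain ⟨r₁, c1, a1⟩ := s1 A subset_rfl
  have s2 : ∀ B' : Finset ℕ, B' ⊆ B → ∃ r' : Fin m → E →L[ℂ] E,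
      Col (fun i => r i - r' i) (4 * C₀ ^ 2 * δ * c) ∧
        ∀ i, τ.Ca P (r' i) ∧ (∀ n ∈ A, τ.Cρ n (r' i)) ∧ ∀ n ∈ B', τ.Cσ n (r' i) := by
    intro B'
    induction B' using Finset.induction_on with
    | empty => exact fun _ => ⟨r₁, c1, fun i => ⟨(a1 i).1, (a1 i).2, by simp⟩⟩
    | insert n B' hn' ih =>
      intro hs
      have hnB := hs (Finset.mem_insert_self _ _)
      obtain ⟨r', c1, a1⟩ := ih fun x hx => hs (Finset.mem_insert_of_mem hx)
      have hJ : Nonempty (lg n).J := by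
        by_contra hne
        have : IsEmpty ((lg n).I × (lg n).J) := ⟨fun k => hne ⟨k.2⟩⟩
        have := (lg n).ω_uv
        simp [UV] at this
      obtain ⟨j⟩ := hJ
      obtain ⟨r'', c2, a2, a3⟩ := step h1 (τ.σ n) (Pi.single j 1) (by
        unfold UV
        rw [Finset.sum_eq_single j] <;> simp +contextual [Pi.single_apply]) r r' c1
        fun i => (hcm i).2.2 n hnB
      refine ⟨r'', c2, fun i => ⟨fun y hy => a3 i _ (fun a => (τ.ρ_am n _ y).symm)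
        ((a1 i).1 y hy), fun k hk b => a3 i _ (fun a => τ.ρ_ρ k n
          (fun e => Finset.disjoint_left.1 hAB hk (e ▸ hnB)) b _) ((a1 i).2.1 k hk b),
        fun k hk => ?_⟩⟩
      rcases Finset.mem_insert.1 hk with rfl | hk
      · exact a2 i
      · exact fun b => a3 i _ (fun a => τ.ρ_ρ k n (fun e => hn' (e ▸ hk)) _ _) ((a1 i).2.2 k hk b)
  exact s2 B subset_rfl

end Crest.Agent.KN
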