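import Crest.Agent.KN.Defs2
import Crest.Agent.KN.LIFT

set_option autoImplicit false
universe u

namespace Crest.Agent.KN

open scoped InnerProductSpace BigOperators
open Filter Topology LIFTx

namespace LOCx

theorem exists_seq (p : ℕ → ℝ) (h0 : ∀ j, 0 < p j) (h1 : ∀ j, p j ≤ 1) :
    ∃ j : ℕ → ℕ, ¬ Summable (fun n => p (j n)) ∧
      ∀ n, ∑ m ∈ Finset.range n, p (j m) / ((j m + 2) * (j m + 3)) ≤ 1 := by
  let P : ℕ → ℝ := fun n => Nat.rec 0 (fun _ t => t + p ⌊t⌋₊) n
  have hs : ∀ n, P (n + 1) = P n + p ⌊P n⌋₊ := fun _ => rfl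
  have hP0 : ∀ n, 0 ≤ P n := fun n => by
    induction n with
    | zero => exact le_rfl
    | succ n ih => rw [hs]; linarith [h0 ⌊P n⌋₊]
  have hsum : ∀ n, ∑ m ∈ Finset.range n, p ⌊P m⌋₊ = P n := fun n => by
    induction n with
    | zero => rfl
    | succ n ih => rw [Finset.sum_range_succ, ih, hs]
  refine ⟨fun n => ⌊P n⌋₊, fun h => ?_, fun n => ?_⟩
  · have hB : ∀ n, ⌊P n⌋₊ ≤ ⌊∑' n, p ⌊P n⌋₊⌋₊ := fun n => Nat.floor_le_floor (by
      rw [← hsum n]; exact h.sum_le_tsum _ fun m _ => (h0 _).le)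
    obtain ⟨j₀, -, hj⟩ := Finset.exists_min_image (Finset.range (⌊∑' n, p ⌊P n⌋₊⌋₊ + 1)) p
      ⟨0, by simp⟩
    obtain ⟨n, hn⟩ := (h.tendsto_atTop_zero.eventually (gt_mem_nhds (h0 j₀))).exists
    exact absurd (hj _ (Finset.mem_range.2 (Nat.lt_succ_of_le (hB n)))) (not_le.2 hn)
  · have : ∀ n, ∑ m ∈ Finset.range n, p ⌊P m⌋₊ / ((⌊P m⌋₊ + 2) * (⌊P m⌋₊ + 3)) ≤
        1 - 1 / (P n + 1) := fun n => by
      induction n with
      | zero => simp [P]
      | succ n ih =>
        rw [Finset.sum_range_succ, hs]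
        have a1 := Nat.lt_floor_add_one (P n)
        have a2 := h0 ⌊P n⌋₊
        have a3 := h1 ⌊P n⌋₊
        have a4 := hP0 n
        have e : 1 / (P n + 1) - 1 / (P n + p ⌊P n⌋₊ + 1) =
            p ⌊P n⌋₊ / ((P n + 1) * (P n + p ⌊P n⌋₊ + 1)) := by field_simp; ring
        have : p ⌊P n⌋₊ / ((⌊P n⌋₊ + 2) * (⌊P n⌋₊ + 3)) ≤
            p ⌊P n⌋₊ / ((P n + 1) * (P n + p ⌊P n⌋₊ + 1)) := by
          refine div_le_div_of_nonneg_left a2.le (by positivity) ?_
          exact mul_le_mul (by linarith) (by linarith) (by positivity) (by positivity)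
        linarith
    have h2 : 0 ≤ 1 / (P n + 1) := by have := hP0 n; positivity
    linarith [this n]

variable {H : Type u} [NormedAddCommGroup H] [InnerProductSpace ℂ H] [CompleteSpace H] (m : ℕ)

/-- Inclusion of the first coordinate. -/
noncomputable def inc : H →L[ℂ] PiLp 2 (fun _ : Fin (m + 1) => H) :=
  mkOp fun i => if i = 0 then ContinuousLinearMap.id ℂ H else 0

/-- Matrix unit `e_{0a}`. -/
noncomputable def mu (a : Fin (m + 1)) :
    PiLp 2 (fun _ : Fin (m + 1) => H) →L[ℂ] PiLp 2 (fun _ : Fin (m + 1) => H) :=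
  inc m ∘L PiLp.proj 2 (fun _ : Fin (m + 1) => H) a

omit [CompleteSpace H] in
theorem inc_apply (w : H) (i : Fin (m + 1)) : inc m w i = if i = 0 then w else 0 := by
  unfold inc; rw [mkOp_apply]; split_ifs <;> rfl

omit [CompleteSpace H] in
theorem mu_apply (a : Fin (m + 1)) (v : PiLp 2 (fun _ : Fin (m + 1) => H)) :
    mu m a v = inc m (v a) := rfl

omit [CompleteSpace H] in
theorem inner_inc (w : H) (v : PiLp 2 (fun _ : Fin (m + 1) => H)) : ⟪inc m w, v⟫_ℂ = ⟪w, v 0⟫_ℂ := by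
  rw [PiLp.inner_apply, Finset.sum_eq_single 0] <;> simp +contextual [inc_apply]

omit [CompleteSpace H] in
theorem norm_inc (w : H) : ‖inc m w‖ = ‖w‖ := by
  have h := inner_inc m w (inc m w)
  rw [inc_apply, if_pos rfl, inner_self_eq_norm_sq_to_K, inner_self_eq_norm_sq_to_K] at h
  have h2 : ‖inc m w‖ ^ 2 = ‖w‖ ^ 2 := by exact_mod_cast h
  exact (pow_left_inj₀ (norm_nonneg _) (norm_nonneg _) two_ne_zero).1 h2

omit [CompleteSpace H] in
theorem norm_mu (a : Fin (m + 1)) : ‖mu (H := H) m a‖ ≤ 1 :=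
  ContinuousLinearMap.opNorm_le_bound _ zero_le_one fun v => by
    rw [mu_apply, norm_inc, one_mul]; exact PiLp.norm_apply_le v a

theorem diag_inc (x : H →L[ℂ] H) (w : H) : diag (E := H) (m + 1) x (inc m w) = inc m (x w) := by
  ext i
  rw [diag_apply, inc_apply, inc_apply]
  split_ifs <;> simp

theorem norm_diag (x : H →L[ℂ] H) : ‖diag (E := H) (m + 1) x‖ = ‖x‖ :=
  le_antisymm (NonUnitalStarAlgHom.norm_apply_le _ x)
    (ContinuousLinearMap.opNorm_le_bound _ (norm_nonneg _) fun w => by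
      rw [← norm_inc m (x w), ← diag_inc, ← norm_inc m w]; exact ContinuousLinearMap.le_opNorm _ _)

theorem diag_mu (x : H →L[ℂ] H) (a : Fin (m + 1)) :
    diag (E := H) (m + 1) x * mu m a = mu m a * diag (E := H) (m + 1) x := by
  ext1 v
  rw [mul_apply_eq_comp, mul_apply_eq_comp, mu_apply, mu_apply, diag_inc, diag_apply]

/-- `M ⊗ 1`. -/
noncomputable def ampl (M : VonNeumannAlgebra H) :
    VonNeumannAlgebra (PiLp 2 (fun _ : Fin (m + 1) => H)) where
  toStarSubalgebra := M.toStarSubalgebra.map (diag (E := H) (m + 1))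
  centralizer_centralizer' := by
    refine Set.Subset.antisymm (fun T hT => ?_) Set.subset_centralizer_centralizer
    have h1 : ∀ a, mu m a * T = T * mu m a := fun a => hT _ (by
      rintro _ ⟨x, -, rfl⟩; exact diag_mu m x a)
    have h2 : ∀ y ∈ M.commutant, diag (E := H) (m + 1) y * T = T * diag (E := H) (m + 1) y := fun y hy => hT _ (by
      rintro _ ⟨x, hx, rfl⟩
      change diag (E := H) (m + 1) x * diag (E := H) (m + 1) y = diag (E := H) (m + 1) y * diag (E := H) (m + 1) x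
      rw [← map_mul, ← map_mul, VonNeumannAlgebra.mem_commutant_iff.1 hy x hx])
    refine ⟨PiLp.proj 2 (fun _ : Fin (m + 1) => H) 0 ∘L T ∘L inc m, ?_, ?_⟩
    · change _ ∈ M
      rw [← M.commutant_commutant, VonNeumannAlgebra.mem_commutant_iff]
      intro y hy
      ext w
      change y (T (inc m w) 0) = T (inc m (y w)) 0
      rw [← diag_inc, ← mul_apply_eq_comp, ← h2 y hy]; rfl
    · ext v a
      change T (inc m (v a)) 0 = T v a
      rw [← mu_apply, ← mul_apply_eq_comp, ← h1, mul_apply_eq_comp, mu_apply, inc_apply, if_pos rfl]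

theorem mem_ampl {M : VonNeumannAlgebra H} {T} : T ∈ ampl m M ↔ ∃ x ∈ M, diag (E := H) (m + 1) x = T :=
  Iff.rfl

theorem mu_mem (M : VonNeumannAlgebra H) (a : Fin (m + 1)) : mu m a ∈ (ampl m M).commutant := by
  rw [VonNeumannAlgebra.mem_commutant_iff]
  rintro _ ⟨x, -, rfl⟩
  exact diag_mu m x a

theorem near_ampl {M N : VonNeumannAlgebra H} {δ : ℝ} (h : Near M N δ) :
    Near (ampl m M) (ampl m N) δ := by
  rintro _ ⟨x, hx, rfl⟩
  obtain ⟨y, hy, hxy⟩ := h x hx
  refine ⟨_, ⟨y, hy, rfl⟩, ?_⟩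
  change ‖diag (E := H) (m + 1) x - diag (E := H) (m + 1) y‖ ≤ δ * ‖diag (E := H) (m + 1) x‖
  rwa [← map_sub, norm_diag, norm_diag]

end LOCx

theorem Leg.sl_mem {H : Type u} [NormedAddCommGroup H] [InnerProductSpace ℂ H] [CompleteSpace H]
    {M : VonNeumannAlgebra H} {ζ : H} {ι : Type} (l : Leg M ζ ι) (h : ι) : l.sl h ∈ M :=
  sum_mem fun i _ => sum_mem fun i' _ => M.toStarSubalgebra.smul_mem (l.U_mem i i') _

open LOCx in
theorem loc {C δ₀ : ℝ} (hC : 0 ≤ C) (h1 : LEG.{u}) (h2 : WALK.{u} C δ₀) : LOC.{u} C δ₀ := by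
  intro H _ _ _ M N δ hδ hδ0 hMN hNM ι _ _ x hx Λ hΛ m ξ η hη
  classical
  let ζ : PiLp 2 (fun _ : Fin (m + 1) => H) := WithLp.toLp 2 (Fin.cons 0 ξ)
  have hζ : ∀ k : Fin m, mu m k.succ ζ = inc m (ξ k) := fun k => rfl
  obtain ⟨e, he, hes, hez, hl⟩ := h1 _ (ampl m M) ζ
  set R : ℝ := ∑ k, ‖ξ k‖ + 1 with hR
  have hR1 : 1 ≤ R := le_add_of_nonneg_left (Finset.sum_nonneg fun k _ => norm_nonneg _)
  have hRk : ∀ k, ‖ξ k‖ ≤ R := fun k => by
    have := Finset.single_le_sum (f := fun k => ‖ξ k‖) (fun k _ => norm_nonneg _) (Finset.mem_univ k)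
    linarith
  set ε : ℝ := min 1 (η / (R * (C + 2))) with hε
  have hε0 : 0 < ε := lt_min one_pos (by positivity)
  have hε1 : ε ≤ 1 := min_le_left _ _
  have hε2 : R * (C + 2) * ε ≤ η := by
    have : ε ≤ η / (R * (C + 2)) := min_le_right _ _
    rwa [le_div_iff₀' (by positivity)] at this
  have hεε : ε ^ 2 ≤ ε := by nlinarith
  have hx' : ∀ i, diag (E := H) (m + 1) (x i) ∈ ampl m M ∧ IsSelfAdjoint (diag (E := H) (m + 1) (x i)) ∧
      ‖diag (E := H) (m + 1) (x i)‖ ≤ 1 / 2 := fun i =>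
    ⟨⟨_, (hx i).1, rfl⟩, (hx i).2.1.map _, by rw [norm_diag]; exact (hx i).2.2⟩
  choose l hd hs hrel hcl using fun j : ℕ => hl ι (fun i => diag (E := H) (m + 1) (x i)) hx'
    (ε ^ 2 / ((j + 2) * (j + 3))) (by positivity)
  obtain ⟨j, hj1, hj2⟩ := exists_seq (fun j => (l j).p) (fun j => (l j).p_pos) fun j => (l j).p_le
  have hsum : ∀ n, ∑ k ∈ Finset.range n, ε ^ 2 / ((j k + 2) * (j k + 3)) * (l (j k)).p ≤ ε ^ 2 :=
    fun n => by
      have := mul_le_mul_of_nonneg_left (hj2 n) (sq_nonneg ε)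
      rw [Finset.mul_sum, mul_one] at this
      refine le_of_eq_of_le (Finset.sum_congr rfl fun k _ => ?_) this
      ring
  obtain ⟨n, ℓ, a1, a2, a3⟩ := h2 _ (ampl m M) (ampl m N) δ hδ hδ0 (near_ampl m hMN)
    (near_ampl m hNM) ζ (ι × Bool) (fun n => l (j n)) ε hε0.le hj1
    (fun n => ((Finset.sum_le_sum fun k _ => hd _).trans (hsum n)).trans hεε)
    (fun n => (Finset.sum_le_sum fun k _ => hs _).trans (hsum n))
    (Λ.image fun lam h => lam h.1) (fun lam hlam n => by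
      obtain ⟨lam, hl', rfl⟩ := Finset.mem_image.1 hlam
      refine hrel _ lam ?_
      simp only [← map_smul]
      rw [← map_sum, hΛ lam hl', map_zero])
    (Finset.univ.image fun k : Fin m => mu m k.succ) (fun x' hx' => by
      obtain ⟨k, -, rfl⟩ := Finset.mem_image.1 hx'
      exact mu_mem m M _) ε hε0
  choose y hy hy' using fun h => (mem_ampl m).1 (a1 h).1
  have hyn : ∀ h, ‖y h‖ ≤ 4 := fun h => by rw [← norm_diag m, hy']; exact (a1 h).2
  have hεη : ε ≤ η := by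
    have q1 : 1 ≤ R * (C + 2) := by nlinarith
    nlinarith
  refine ⟨fun i => (1 / 2 : ℂ) • (y (i, true) + y (i, false)), fun i => ⟨N.toStarSubalgebra.smul_mem
    (add_mem (hy _) (hy _)) _, ?_⟩, fun lam hlam => ?_, fun i k k' => ?_⟩
  · rw [norm_smul]
    have := norm_add_le (y (i, true)) (y (i, false))
    have b1 := hyn (i, true)
    have b2 := hyn (i, false)
    norm_num
    linarith
  · have b := a2 _ (Finset.mem_image_of_mem _ hlam)
    simp only [← hy', ← map_smul] at b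
    rw [← map_sum, norm_diag] at b
    have : ∑ i, lam i • (1 / 2 : ℂ) • (y (i, true) + y (i, false)) =
        (1 / 2 : ℂ) • ∑ h : ι × Bool, lam h.1 • y h := by
      rw [Fintype.sum_prod_type, Finset.smul_sum]
      refine Finset.sum_congr rfl fun i _ => ?_
      rw [Fintype.sum_bool, smul_comm, smul_add]
    rw [this, norm_smul]
    norm_num
    linarith [norm_nonneg (∑ h : ι × Bool, lam h.1 • y h)]
  · set L := l (j n) with hL
    set S := L.sl (i, true) + L.sl (i, false) - (2 : ℂ) • (e * diag (E := H) (m + 1) (x i) * e) with hS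
    have hSm : S ∈ ampl m M := sub_mem (add_mem (L.sl_mem _) (L.sl_mem _))
      ((ampl m M).toStarSubalgebra.smul_mem (mul_mem (mul_mem he (hx' i).1) he) _)
    have he' : ∀ k, e (inc m (ξ k)) = inc m (ξ k) := fun k => by
      rw [← hζ]; exact hez _ (mu_mem m M _)
    have c1 : ‖S (inc m (ξ k))‖ ≤ ε := by
      rw [← hζ, ← mul_apply_eq_comp, VonNeumannAlgebra.mem_commutant_iff.1 (mu_mem m M _) S hSm,
        mul_apply_eq_comp]
      refine ((mu (H := H) m k.succ).le_opNorm _).trans ?_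
      refine (mul_le_of_le_one_left (norm_nonneg _) (norm_mu m _)).trans ((hcl (j n) i).trans ?_)
      refine le_trans ?_ hεε
      refine div_le_self (sq_nonneg _) ?_
      have : (0 : ℝ) ≤ j n := Nat.cast_nonneg _
      nlinarith
    have c2 : ∀ b, ‖(ℓ (i, b) - L.sl (i, b)) (inc m (ξ k))‖ ≤ C * δ * ‖ξ k‖ + ε + C * ε := fun b => by
      have := a3 (i, b) _ (Finset.mem_image_of_mem _ (Finset.mem_univ k))
      rw [hζ, norm_inc] at this
      exact this.trans (by
        have := mul_le_of_le_one_right (mul_nonneg hC hε0.le) (norm_mu (H := H) m k.succ)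
        linarith)
    have c3 : ⟪ξ k', ((1 / 2 : ℂ) • (y (i, true) + y (i, false)) - x i) (ξ k)⟫_ℂ =
        ⟪inc m (ξ k'), (1 / 2 : ℂ) • ((ℓ (i, true) - L.sl (i, true)) (inc m (ξ k)) +
          (ℓ (i, false) - L.sl (i, false)) (inc m (ξ k)) + S (inc m (ξ k)))⟫_ℂ := by
      have d1 : ∀ T : H →L[ℂ] H, ⟪inc m (ξ k'), diag (E := H) (m + 1) T (inc m (ξ k))⟫_ℂ =
          ⟪ξ k', T (ξ k)⟫_ℂ := fun T => by rw [diag_inc, inner_inc, inc_apply, if_pos rfl]
      have d2 : ⟪inc m (ξ k'), (e * diag (E := H) (m + 1) (x i) * e) (inc m (ξ k))⟫_ℂ =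
          ⟪ξ k', x i (ξ k)⟫_ℂ := by
        rw [mul_apply_eq_comp, mul_apply_eq_comp, he',
          ← hes.isSymmetric.apply_clm, he', d1]
      simp only [hS, ← hy', sub_apply, add_apply, smul_apply, inner_sub_right, inner_add_right,
        inner_smul_right, d1, d2]
      ring
    rw [c3]
    refine (norm_inner_le_norm _ _).trans ?_
    rw [norm_inc, norm_smul]
    have c4 := (norm_add₃_le).trans (add_le_add (add_le_add (c2 true) (c2 false)) c1)
    have c5 : ‖(1 / 2 : ℂ)‖ = 1 / 2 := by norm_num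
    rw [c5]
    have c6 := mul_le_mul_of_nonneg_left c4 (norm_nonneg (ξ k'))
    have c7 := mul_le_mul_of_nonneg_right (hRk k') (by positivity : 0 ≤ (C + 2) * ε)
    nlinarith [mul_nonneg (norm_nonneg (ξ k')) hε0.le]

end Crest.Agent.KN
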