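import Crest.Agent.KN.Defs

/-! Row 78 (S0103): job MART (martingale estimate). -/

set_option autoImplicit false
universe u

namespace Crest.Agent.KN

open scoped InnerProductSpace BigOperators
open Filter Topology

namespace MARTx

theorem kb_star {K : Type} [Fintype K] [DecidableEq K] (a b : K → ℂ) : star (kb a b) = kb b a := by
  ext i j; simp [kb, Matrix.vecMulVec_apply, mul_comm]

theorem kb_idem {K : Type} [Fintype K] {a : K → ℂ} (h : UV a) : kb a a * kb a a = kb a a := by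
  have e : ∑ k, star (a k) * a k = 1 := by
    have := congrArg (fun r : ℝ => (r : ℂ)) h
    simp only [Complex.ofReal_sum, Complex.ofReal_pow, Complex.ofReal_one] at this
    rw [← this]
    exact Finset.sum_congr rfl fun k _ => Complex.conj_mul' _
  ext i j
  simp only [kb, Matrix.mul_apply, Matrix.vecMulVec_apply, Pi.star_apply]
  calc _ = ∑ k, a i * (star (a k) * a k) * star (a j) := Finset.sum_congr rfl fun k _ => by ring
    _ = _ := by rw [← Finset.sum_mul, ← Finset.mul_sum, e, mul_one]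

theorem core {E : Type u} [NormedAddCommGroup E] [InnerProductSpace ℂ E] [CompleteSpace E]
    (π ℓ φ : ℕ → E →L[ℂ] E) (p : ℕ → ℝ) (Ω : E) (c : ℝ)
    (hπ : ∀ n, IsSelfAdjoint (π n)) (hΩ : ∀ n, π n Ω = Ω) (hℓ : ∀ n, IsSelfAdjoint (ℓ n))
    (hℓ2 : ∀ n, ℓ n * ℓ n = ℓ n) (hv : ∀ n, π n * ℓ n * π n = (p n : ℂ) • π n)
    (hc1 : ∀ m n, m ≠ n → Commute (ℓ m) (π n)) (hc2 : ∀ n m, n ≤ m → Commute (φ n) (π m))
    (hc3 : ∀ n m, Commute (φ n) (ℓ m)) (hφ : ∀ n, φ n Ω = π n (φ (n + 1) Ω))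
    (hb : ∀ n, ‖φ n‖ ≤ c) (hp : ∀ n, 0 ≤ p n) (η : ℝ) (hη : 0 < η) :
    ∃ N₀, ∀ a b n', N₀ ≤ a → b ≤ n' → ∑ n ∈ Finset.Ico a b, p n ≤ 2 →
      ∑ n ∈ Finset.Ico a b, ‖ℓ n ((φ n' - φ n) Ω)‖ ^ 2 ≤ η := by
  have c0 : 0 ≤ c := (norm_nonneg _).trans (hb 0)
  have sπ : ∀ n v w, ⟪π n v, w⟫_ℂ = ⟪v, π n w⟫_ℂ := fun n => (hπ n).isSymmetric
  have sℓ : ∀ n v w, ⟪ℓ n v, w⟫_ℂ = ⟪v, ℓ n w⟫_ℂ := fun n => (hℓ n).isSymmetric
  have ap : ∀ {S T : E →L[ℂ] E}, Commute S T → ∀ v, S (T v) = T (S v) := fun h v =>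
    congrArg (fun R : E →L[ℂ] E => R v) h.eq
  have A : ∀ n v w, π n v = v → π n w = w → ⟪v, ℓ n w⟫_ℂ = p n * ⟪v, w⟫_ℂ := fun n v w a b => by
    have := congrArg (fun R : E →L[ℂ] E => ⟪v, R w⟫_ℂ) (hv n)
    simpa only [ContinuousLinearMap.mul_apply, ContinuousLinearMap.smul_apply, b, ← sπ, a,
      inner_smul_right] using this
  have B : ∀ n v, ⟪ℓ n v, ℓ n v⟫_ℂ = ⟪v, ℓ n v⟫_ℂ := fun n v => by
    rw [sℓ, ← ContinuousLinearMap.mul_apply, hℓ2]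
  have N : ∀ v : E, ‖v‖ ^ 2 = (⟪v, v⟫_ℂ).re := fun v => (inner_self_eq_norm_sq (𝕜 := ℂ) v).symm
  have B' : ∀ n v, π n v = v → ‖ℓ n v‖ ^ 2 = p n * ‖v‖ ^ 2 := fun n v a => by
    rw [N, N, B, A n v v a a, Complex.re_ofReal_mul]
  have fix : ∀ n m, n ≤ m → π m (φ n Ω) = φ n Ω := fun n m h => by rw [← ap (hc2 n m h), hΩ]
  have ort : ∀ a n, a ≤ n → ⟪φ a Ω, φ n Ω⟫_ℂ = ⟪φ a Ω, φ a Ω⟫_ℂ := by
    intro a n h
    induction n, h using Nat.le_induction with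
    | base => rfl
    | succ n h ih => rw [← ih, hφ n, ← sπ, fix a n h]
  have pyth : ∀ a n, a ≤ n → ‖φ n Ω - φ a Ω‖ ^ 2 = ‖φ n Ω‖ ^ 2 - ‖φ a Ω‖ ^ 2 := fun a n h => by
    rw [norm_sub_rev, @norm_sub_sq ℂ, ort a n h, inner_self_eq_norm_sq]; ring
  have mono : Monotone fun n => ‖φ n Ω‖ ^ 2 := fun a n h => by
    have := pyth a n h
    have := sq_nonneg ‖φ n Ω - φ a Ω‖
    simp only; linarith
  have bdd : BddAbove (Set.range fun n => ‖φ n Ω‖ ^ 2) := ⟨(c * ‖Ω‖) ^ 2, by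
    rintro _ ⟨n, rfl⟩
    exact pow_le_pow_left₀ (norm_nonneg _) ((φ n).le_of_opNorm_le (hb n) Ω) 2⟩
  set K := 12 * c * ‖Ω‖ + 4 with hK
  have K0 : 0 < K := by positivity
  set r := min 1 (η / K) with hr
  have r0 : 0 < r := lt_min one_pos (div_pos hη K0)
  have r1 : r ≤ 1 := min_le_left _ _
  have r2 : r * K ≤ η := (le_div_iff₀ K0).1 (min_le_right _ _)
  obtain ⟨N₀, hN⟩ := Metric.cauchySeq_iff.1 (tendsto_atTop_ciSup mono bdd).cauchySeq (r ^ 2)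
    (by positivity)
  have small : ∀ a n, N₀ ≤ a → a ≤ n → ‖φ n Ω - φ a Ω‖ ^ 2 ≤ r ^ 2 := fun a n h1 h2 => by
    rw [pyth a n h2]
    exact (le_abs_self _).trans (hN n (h1.trans h2) a h1).le
  refine ⟨N₀, fun a b n' ha hb' hs => ?_⟩
  rcases le_or_gt b a with hab | hab
  · rw [Finset.Ico_eq_empty_of_le hab, Finset.sum_empty]; exact hη.le
  set s := Finset.Ico a b
  have P0 : 0 ≤ ∑ n ∈ s, p n := Finset.sum_nonneg fun n _ => hp n
  have Z : ‖∑ n ∈ s, ℓ n Ω‖ ≤ 3 * ‖Ω‖ := by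
    refine (pow_le_pow_iff_left₀ (norm_nonneg _) (by positivity) two_ne_zero).1 ?_
    have e : ∀ n ∈ s, ∀ m ∈ s, (⟪ℓ n Ω, ℓ m Ω⟫_ℂ).re ≤
        (p n * p m + if n = m then p n else 0) * ‖Ω‖ ^ 2 := fun n _ m _ => by
      split_ifs with d
      · subst d
        rw [← N, B' n Ω (hΩ n)]
        have := hp n
        nlinarith [mul_nonneg (mul_nonneg this this) (sq_nonneg ‖Ω‖)]
      · rw [sℓ, A n Ω _ (hΩ n) (by rw [← ap (hc1 m n (Ne.symm d)), hΩ]), A m Ω Ω (hΩ m) (hΩ m),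
          Complex.re_ofReal_mul, Complex.re_ofReal_mul, ← N]
        exact le_of_eq (by ring)
    rw [N, sum_inner, Complex.re_sum]
    calc _ ≤ ∑ n ∈ s, ∑ m ∈ s, (p n * p m + if n = m then p n else 0) * ‖Ω‖ ^ 2 :=
          Finset.sum_le_sum fun n hn => by
            rw [inner_sum, Complex.re_sum]; exact Finset.sum_le_sum (e n hn)
      _ = ((∑ n ∈ s, p n) * (∑ n ∈ s, p n) + ∑ n ∈ s, p n) * ‖Ω‖ ^ 2 := by
          rw [Finset.sum_mul_sum, ← Finset.sum_add_distrib, Finset.sum_mul]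
          refine Finset.sum_congr rfl fun n hn => ?_
          rw [← Finset.sum_mul, Finset.sum_add_distrib, Finset.sum_ite_eq, if_pos hn]
      _ ≤ 9 * ‖Ω‖ ^ 2 := mul_le_mul_of_nonneg_right (by nlinarith) (sq_nonneg _)
      _ = _ := by ring
  have an : a ≤ n' := hab.le.trans hb'
  have y1 : ‖φ n' Ω - φ a Ω‖ ≤ r :=
    (pow_le_pow_iff_left₀ (norm_nonneg _) r0.le two_ne_zero).1 (small a n' ha an)
  have T1 : ∑ n ∈ s, ‖ℓ n (φ n' Ω - φ a Ω)‖ ^ 2 ≤ r * (2 * c * (3 * ‖Ω‖)) := by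
    have e : ∑ n ∈ s, ℓ n (φ n' Ω - φ a Ω) = (φ n' - φ a) (∑ n ∈ s, ℓ n Ω) := by
      rw [map_sum]
      exact Finset.sum_congr rfl fun n _ => by
        rw [map_sub, ContinuousLinearMap.sub_apply, ap (hc3 n' n), ap (hc3 a n)]
    have hY : ‖φ n' - φ a‖ ≤ 2 * c := (norm_sub_le _ _).trans (by linarith [hb n', hb a])
    simp only [N, B]
    rw [← Complex.re_sum, ← inner_sum, e]
    refine (Complex.re_le_norm _).trans ((norm_inner_le_norm _ _).trans ?_)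
    exact mul_le_mul y1 (((φ n' - φ a).le_of_opNorm_le hY _).trans
      (mul_le_mul_of_nonneg_left Z (by positivity))) (norm_nonneg _) r0.le
  have T2 : ∑ n ∈ s, ‖ℓ n (φ n Ω - φ a Ω)‖ ^ 2 ≤ 2 * r ^ 2 :=
    calc _ ≤ ∑ n ∈ s, p n * r ^ 2 := Finset.sum_le_sum fun n hn => by
          have h := (Finset.mem_Ico.1 hn).1
          rw [B' n _ (by rw [map_sub, fix n n le_rfl, fix a n h])]
          exact mul_le_mul_of_nonneg_left (small a n ha h) (hp n)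
      _ ≤ _ := by rw [← Finset.sum_mul]; exact mul_le_mul_of_nonneg_right hs (sq_nonneg _)
  calc _ ≤ ∑ n ∈ s, (2 * ‖ℓ n (φ n' Ω - φ a Ω)‖ ^ 2 + 2 * ‖ℓ n (φ n Ω - φ a Ω)‖ ^ 2) :=
        Finset.sum_le_sum fun n _ => by
          have e : ℓ n ((φ n' - φ n) Ω) = ℓ n (φ n' Ω - φ a Ω) - ℓ n (φ n Ω - φ a Ω) := by
            rw [← map_sub, sub_sub_sub_cancel_right, ContinuousLinearMap.sub_apply]
          rw [e]
          refine (pow_le_pow_left₀ (norm_nonneg _) (norm_sub_le _ _) 2).trans ?_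
          nlinarith [sq_nonneg (‖ℓ n (φ n' Ω - φ a Ω)‖ - ‖ℓ n (φ n Ω - φ a Ω)‖)]
    _ ≤ η := by
        rw [Finset.sum_add_distrib, ← Finset.mul_sum, ← Finset.mul_sum]
        nlinarith [mul_le_mul_of_nonneg_left r1 r0.le]

end MARTx

open MARTx in
theorem jobMART (h : JobAVG.{u}) (h2 : JobTWA.{u}) : JobMART.{u} := by
  intro H _ _ _ M ζ ι _ lg E _ _ _ τ φ c hb hρ hσ hφ k ξ η hη
  have T := h2 H M ζ ι lg E τ
  obtain ⟨N₀, hN⟩ := core (fun n => τ.ρ n (kb (lg n).ω (lg n).ω))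
    (fun n => τ.σ n (kb ((lg n).g k) ((lg n).g k))) φ (fun n => (lg n).p) (τ.V ξ) c
    (fun n => by rw [IsSelfAdjoint, ← map_star, kb_star]) (fun n => τ.ρ_V n ξ)
    (fun n => by rw [IsSelfAdjoint, ← map_star, kb_star])
    (fun n => by rw [← map_mul, kb_idem ((lg n).g_uv k)]) (fun n => T.label_vac n k)
    (fun m n d => T.σ_Cρ m n d _ _) (fun n m d => hρ n m d _) (fun n m => hσ n m _)
    (fun n => by
      have := congrArg (fun R : E →L[ℂ] E => R (τ.V ξ))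
        ((h E _ (τ.ρ n) _ (lg n).ω_uv).vac _ (lg n).ω_uv (φ (n + 1)))
      simpa only [ContinuousLinearMap.mul_apply, τ.ρ_V, ← hφ n] using this)
    hb (fun n => (lg n).p_pos.le) η hη
  refine ⟨N₀, fun a b n' ha hb' hs => le_of_eq_of_le ?_ (hN a b n' ha hb' hs)⟩
  refine Finset.sum_congr rfl fun n _ => ?_
  have := congrArg (fun R : E →L[ℂ] E => R (τ.V ξ)) ((hσ n' n _).sub_left (hσ n n
    (kb ((lg n).g k) ((lg n).g k)))).eq
  simp only [ContinuousLinearMap.mul_apply] at this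
  rw [← this, ← T.label n k ξ, map_smul, norm_smul, mul_pow, Complex.norm_real,
    Real.norm_of_nonneg (Real.sqrt_nonneg _), Real.sq_sqrt (lg n).p_pos.le]

end Crest.Agent.KN
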