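import Crest.Agent.KN.Defs2

/-! Row 78 (S0103): job NET. -/

set_option autoImplicit false
universe u v

namespace Crest.Agent.KN

open scoped InnerProductSpace BigOperators ComplexConjugate
open Filter Topology

namespace NetX
variable {H : Type u} [NormedAddCommGroup H] [InnerProductSpace ℂ H] [CompleteSpace H]

/-- self-adjoint elements of norm at most `1/2` -/
def Bs (M : VonNeumannAlgebra H) : Type u :=
  {x : H →L[ℂ] H // x ∈ M ∧ IsSelfAdjoint x ∧ ‖x‖ ≤ 1 / 2}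

theorem loc' {C δ₀ : ℝ} (h : LOC.{u} C δ₀) (M N : VonNeumannAlgebra H) {δ : ℝ} (h0 : 0 ≤ δ)
    (h1 : δ ≤ δ₀) (hMN : Near M N δ) (hNM : Near N M δ) (F : Finset (Bs M))
    (Λ : Finset (Bs M →₀ ℂ)) (Ξ : Finset H) {η : ℝ} (hη : 0 < η) :
    ∃ ℓ : Bs M → H →L[ℂ] H, (∀ x, ℓ x ∈ N ∧ ‖ℓ x‖ ≤ 4) ∧
      (∀ lam ∈ Λ, lam.support ⊆ F → Finsupp.linearCombination ℂ (fun x : Bs M => x.1) lam = 0 →
        ‖Finsupp.linearCombination ℂ ℓ lam‖ ≤ η) ∧
      ∀ x ∈ F, ∀ ξ ∈ Ξ, ∀ ξ' ∈ Ξ, ‖⟪ξ', (ℓ x - x.1) ξ⟫_ℂ‖ ≤ C * δ * ‖ξ‖ * ‖ξ'‖ + η := by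
  classical
  let o : Bs M := ⟨0, zero_mem _, IsSelfAdjoint.zero _, by simp⟩
  let F' := insert o F
  let e : Fin F'.card ≃ F' := F'.equivFin.symm
  have : Nonempty (Fin F'.card) := ⟨e.symm ⟨o, Finset.mem_insert_self _ _⟩⟩
  have hsum : ∀ (lam : Bs M →₀ ℂ), lam.support ⊆ F → ∀ f : Bs M → H →L[ℂ] H,
      Finsupp.linearCombination ℂ f lam = ∑ i, lam (e i) • f (e i) := by
    intro lam hl f
    rw [Finsupp.linearCombination_apply, Finsupp.sum_of_support_subset lam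
      (hl.trans (Finset.subset_insert o F)) _ (by simp), ← Finset.sum_coe_sort,
      ← Equiv.sum_comp e]
  obtain ⟨ℓ, a, b, c⟩ := h H M N δ h0 h1 hMN hNM (Fin F'.card) (fun i => (e i).1.1)
    (fun i => (e i).1.2)
    ((Λ.filter fun lam => lam.support ⊆ F ∧
      Finsupp.linearCombination ℂ (fun x : Bs M => x.1) lam = 0).image fun lam i => lam (e i))
    (by
      intro lam hl
      obtain ⟨l, hl', rfl⟩ := Finset.mem_image.1 hl
      obtain ⟨-, h2, h3⟩ := Finset.mem_filter.1 hl'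
      rw [hsum l h2] at h3
      exact h3) Ξ.card (fun k => (Ξ.equivFin.symm k).1) η hη
  refine ⟨fun x => if hx : x ∈ F' then ℓ (e.symm ⟨x, hx⟩) else 0, fun x => ?_,
    fun lam hl h2 h3 => ?_, fun x hx ξ hξ ξ' hξ' => ?_⟩
  · dsimp only
    split_ifs
    · exact a _
    · exact ⟨zero_mem _, by simp⟩
  · rw [hsum lam h2]
    have := b (fun i => lam (e i)) (Finset.mem_image.2 ⟨lam, Finset.mem_filter.2 ⟨hl, h2, h3⟩, rfl⟩)
    simpa using this
  · have hx' : x ∈ F' := Finset.mem_insert_of_mem hx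
    have := c (e.symm ⟨x, hx'⟩) (Ξ.equivFin ⟨ξ, hξ⟩) (Ξ.equivFin ⟨ξ', hξ'⟩)
    simpa [hx'] using this

omit [CompleteSpace H] in
theorem norm_le_of_inner {T : H →L[ℂ] H} {B : ℝ} (hB : 0 ≤ B)
    (h : ∀ ξ ξ', ‖⟪ξ', T ξ⟫_ℂ‖ ≤ B * ‖ξ‖ * ‖ξ'‖) : ‖T‖ ≤ B := by
  refine ContinuousLinearMap.opNorm_le_bound _ hB fun ξ => ?_
  have := h ξ (T ξ)
  rw [inner_self_eq_norm_sq_to_K, norm_pow, RCLike.norm_ofReal, abs_norm, sq] at this
  rcases (norm_nonneg (T ξ)).eq_or_lt with h0 | h0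
  · rw [← h0]; positivity
  · exact le_of_mul_le_mul_right this h0

end NetX

open NetX in
theorem jobNET (hW : JobWL.{u,u}) : JobNET.{u} := by
  intro C δ₀ hC h H _ _ _ M N δ h0 h1 hMN hNM
  classical
  let α := Finset (Bs M) × Finset (Bs M →₀ ℂ) × Finset H × ℕ
  have key := fun a : α => loc' h M N h0 h1 hMN hNM a.1 a.2.1 a.2.2.1
    (η := 1 / ((a.2.2.2 : ℝ) + 1)) (by positivity)
  choose ℓ ha hb hc using key
  let 𝒰 : Ultrafilter α := Ultrafilter.of atTop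
  have hU : (𝒰 : Filter α) ≤ atTop := Ultrafilter.of_le _
  have hη : Tendsto (fun a : α => 1 / ((a.2.2.2 : ℝ) + 1)) (𝒰 : Filter α) (𝓝 0) := by
    refine (tendsto_one_div_add_atTop_nhds_zero_nat.comp ?_).mono_left hU
    exact tendsto_atTop.2 fun n => (eventually_ge_atTop ((∅, ∅, ∅, n) : α)).mono fun a h => h.2.2.2
  choose L₀ _ hL using fun x => hW H α 𝒰 (fun a => ℓ a x) 4 (Eventually.of_forall fun a => (ha a x).2)
  have mem : ∀ x, L₀ x ∈ N := fun x => by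
    rw [← N.commutant_commutant, VonNeumannAlgebra.mem_commutant_iff]
    intro y hy
    ext ξ
    refine ext_inner_left ℂ fun η => ?_
    have t1 := hL x (ContinuousLinearMap.adjoint y η) ξ
    have t2 := hL x η (y ξ)
    rw [mul_apply_eq_comp, mul_apply_eq_comp, ← ContinuousLinearMap.adjoint_inner_left]
    refine tendsto_nhds_unique t1 (t2.congr fun a => ?_)
    rw [ContinuousLinearMap.adjoint_inner_left, ← mul_apply_eq_comp, ← mul_apply_eq_comp,
      VonNeumannAlgebra.mem_commutant_iff.1 hy _ (ha a x).1]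
  have near : ∀ x, ‖L₀ x - x.1‖ ≤ C * δ := fun x => by
    refine norm_le_of_inner (by positivity) fun ξ ξ' => ?_
    have t1 : Tendsto (fun a => ‖⟪ξ', (ℓ a x - x.1) ξ⟫_ℂ‖) (𝒰 : Filter α) (𝓝 ‖⟪ξ', (L₀ x - x.1) ξ⟫_ℂ‖) := by
      simpa only [sub_apply, inner_sub_right] using ((hL x ξ' ξ).sub_const ⟪ξ', x.1 ξ⟫_ℂ).norm
    have t2 := hη.const_add (C * δ * ‖ξ‖ * ‖ξ'‖)
    rw [add_zero] at t2
    refine le_of_tendsto_of_tendsto t1 t2 (hU ?_)
    filter_upwards [eventually_ge_atTop (({x}, ∅, {ξ, ξ'}, 0) : α)] with a h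
    exact hc a x (h.1 (by simp)) ξ (h.2.2.1 (by simp)) ξ' (h.2.2.1 (by simp))
  have rel : ∀ lam : Bs M →₀ ℂ, Finsupp.linearCombination ℂ (fun x : Bs M => x.1) lam = 0 →
      Finsupp.linearCombination ℂ L₀ lam = 0 := by
    intro lam hl
    ext ξ
    refine ext_inner_left ℂ fun η => ?_
    have t1 : Tendsto (fun a => ⟪η, Finsupp.linearCombination ℂ (ℓ a) lam ξ⟫_ℂ) (𝒰 : Filter α)
        (𝓝 ⟪η, Finsupp.linearCombination ℂ L₀ lam ξ⟫_ℂ) := by
      simp only [Finsupp.linearCombination_apply, Finsupp.sum, sum_apply, inner_sum, smul_apply,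
        inner_smul_right]
      exact tendsto_finsetSum _ fun x _ => (hL x η ξ).const_mul _
    have t2 : Tendsto (fun a => ⟪η, Finsupp.linearCombination ℂ (ℓ a) lam ξ⟫_ℂ) (𝒰 : Filter α)
        (𝓝 0) := by
      have t3 := (hη.mul_const ‖ξ‖).const_mul ‖η‖
      rw [zero_mul, mul_zero] at t3
      refine squeeze_zero_norm' (hU ?_) t3
      filter_upwards [eventually_ge_atTop ((lam.support, {lam}, ∅, 0) : α)] with a h
      refine (norm_inner_le_norm _ _).trans ?_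
      gcongr
      refine (ContinuousLinearMap.le_opNorm _ _).trans ?_
      gcongr
      exact hb a lam (h.2.1 (by simp)) h.1 hl
    rw [tendsto_nhds_unique t1 t2]; simp
  let Φ : (Bs M →₀ ℂ) →ₗ[ℂ] Al M := Finsupp.linearCombination ℂ fun x : Bs M => (⟨x.1, x.2.1⟩ : Al M)
  have hΦ : ∀ lam, (Φ lam : H →L[ℂ] H) = Finsupp.linearCombination ℂ (fun x : Bs M => x.1) lam :=
    fun lam => by
      simp only [Φ, Finsupp.linearCombination_apply, Finsupp.sum]
      simp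
  have dec : ∀ x : Al M, ∃ a b : Bs M,
      (x : H →L[ℂ] H) = ((2 * ‖x‖ : ℝ) : ℂ) • (a.1 + Complex.I • b.1) := by
    intro x
    by_cases hx : x = 0
    · exact ⟨⟨0, zero_mem _, IsSelfAdjoint.zero _, by simp⟩,
        ⟨0, zero_mem _, IsSelfAdjoint.zero _, by simp⟩, by simp [hx]⟩
    have hp : 0 < ‖x‖ := norm_pos_iff.2 hx
    have mk : ∀ y : Al M, IsSelfAdjoint y → ‖y‖ ≤ ‖x‖ →
        ∃ a : Bs M, (y : H →L[ℂ] H) = ((2 * ‖x‖ : ℝ) : ℂ) • a.1 := fun y hy hn => by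
      refine ⟨⟨(((2 * ‖x‖)⁻¹ : ℝ) : ℂ) • (y : H →L[ℂ] H), M.toStarSubalgebra.smul_mem y.2 _, ?_, ?_⟩, ?_⟩
      · rw [Complex.coe_smul]
        exact (IsSelfAdjoint.all _).smul (congrArg Subtype.val hy.star_eq)
      · rw [norm_smul, Complex.norm_real, Real.norm_of_nonneg (by positivity),
          inv_mul_le_iff₀ (by positivity)]
        have : ‖(y : H →L[ℂ] H)‖ = ‖y‖ := rfl
        linarith
      · rw [smul_smul, ← Complex.ofReal_mul, mul_inv_cancel₀ (by positivity)]; simp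
    obtain ⟨a, ha⟩ := mk (realPart x) (realPart x).2 (realPart.norm_le x)
    obtain ⟨b, hb⟩ := mk (imaginaryPart x) (imaginaryPart x).2 (imaginaryPart.norm_le x)
    refine ⟨a, b, ?_⟩
    rw [smul_add, smul_comm, ← ha, ← hb]
    exact congrArg Subtype.val (realPart_add_I_smul_imaginaryPart x).symm
  have pre : ∀ (x : Al M) (a b : Bs M) (c : ℂ), (x : H →L[ℂ] H) = c • (a.1 + Complex.I • b.1) →
      Φ (c • (Finsupp.single a 1 + Complex.I • Finsupp.single b 1)) = x := fun x a b c e => by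
    apply Subtype.ext
    rw [hΦ, e, map_smul, map_add, map_smul]; simp
  obtain ⟨σ, hσ⟩ := Φ.exists_rightInverse_of_surjective (LinearMap.range_eq_top.2 fun x => by
    obtain ⟨a, b, e⟩ := dec x
    exact ⟨_, pre x a b _ e⟩)
  have hσ' : ∀ x, Φ (σ x) = x := fun x => LinearMap.congr_fun hσ x
  refine ⟨(Finsupp.linearCombination ℂ L₀).comp σ, fun x => ?_, fun x => ?_⟩
  · rw [LinearMap.comp_apply, Finsupp.linearCombination_apply]
    exact sum_mem fun y _ => N.toStarSubalgebra.smul_mem (mem y) _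
  · obtain ⟨a, b, e⟩ := dec x
    have h2 := rel (σ x - ((2 * ‖x‖ : ℝ) : ℂ) • (Finsupp.single a 1 + Complex.I • Finsupp.single b 1))
      (by rw [← hΦ, map_sub, hσ', pre x a b _ e]; simp)
    rw [map_sub, sub_eq_zero, map_smul, map_add, map_smul] at h2
    simp only [Finsupp.linearCombination_single, one_smul] at h2
    have h3 : ((Finsupp.linearCombination ℂ L₀).comp σ) x - x =
        ((2 * ‖x‖ : ℝ) : ℂ) • ((L₀ a - a.1) + Complex.I • (L₀ b - b.1)) := by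
      rw [LinearMap.comp_apply, h2]
      conv_lhs => rw [e]
      module
    rw [h3, norm_smul, Complex.norm_real, Real.norm_of_nonneg (by positivity)]
    have h4 : ‖(L₀ a - a.1) + Complex.I • (L₀ b - b.1)‖ ≤ C * δ + C * δ := by
      refine (norm_add_le _ _).trans (add_le_add (near a) ?_)
      rw [norm_smul, Complex.norm_I, one_mul]; exact near b
    calc _ ≤ 2 * ‖x‖ * (C * δ + C * δ) := by gcongr
      _ = _ := by ring

end Crest.Agent.KN
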