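import Crest.Agent.KN.Defs2

/-! Row 78 (S0103): job POLY. -/

set_option autoImplicit false
universe u v

namespace Crest.Agent.KN

open scoped InnerProductSpace BigOperators ComplexConjugate Polynomial
open Filter Topology

namespace PolyX
variable {E : Type u} [NormedAddCommGroup E] [InnerProductSpace ℂ E] [CompleteSpace E]

/-- the square root `√(1 - y²)` -/
noncomputable abbrev rt (y : E →L[ℂ] E) : E →L[ℂ] E := cfc (fun t : ℝ => √(1 - t ^ 2)) y

theorem spec {y : E →L[ℂ] E} (hy : ‖y‖ ≤ 1 / 2) {t : ℝ} (ht : t ∈ spectrum ℝ y) : |t| ≤ 1 / 2 := by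
  rcases subsingleton_or_nontrivial (E →L[ℂ] E) with h | h
  · simp at ht
  · exact (spectrum.norm_le_norm_of_mem ht).trans hy

theorem rt_sq {y : E →L[ℂ] E} (h : IsSelfAdjoint y) (hy : ‖y‖ ≤ 1 / 2) : rt y * rt y = 1 - y * y := by
  have e : y * y = cfc (fun t : ℝ => t * t) y := by
    rw [cfc_mul (fun t : ℝ => t) (fun t : ℝ => t) y, cfc_id' ℝ y]
  rw [e, ← cfc_mul _ _ y (by fun_prop) (by fun_prop), ← cfc_const_one ℝ y, ← cfc_sub _ _ y]
  refine cfc_congr fun t ht => ?_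
  have := spec hy ht
  have h2 : 0 ≤ 1 - t ^ 2 := by nlinarith [sq_abs t, abs_nonneg t]
  show √(1 - t ^ 2) * √(1 - t ^ 2) = 1 - t * t
  rw [Real.mul_self_sqrt h2]; ring

theorem rt_near {y : E →L[ℂ] E} (h : IsSelfAdjoint y) (hy : ‖y‖ ≤ 1 / 2) : ‖1 - rt y‖ ≤ 1 / 2 := by
  rw [← cfc_const_one ℝ y, ← cfc_sub _ _ y (by fun_prop) (by fun_prop)]
  refine norm_cfc_le (by norm_num) fun t ht => ?_
  have := spec hy ht
  have h2 : t ^ 2 ≤ 1 / 4 := by nlinarith [sq_abs t, abs_nonneg t]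
  have h3 : √(1 - t ^ 2) ≤ 1 := Real.sqrt_le_one.2 (by nlinarith [sq_nonneg t])
  have h4 : 1 / 2 ≤ √(1 - t ^ 2) := Real.le_sqrt_of_sq_le (by nlinarith)
  rw [Real.norm_eq_abs, abs_le]
  constructor <;> linarith

theorem rt_comm {y T : E →L[ℂ] E} (h : Commute T y) : Commute T (rt y) :=
  (h.symm.cfc_real _).symm

theorem approx {ε : ℝ} (hε : 0 < ε) : ∃ p : ℝ[X], ∀ y : E →L[ℂ] E, IsSelfAdjoint y → ‖y‖ ≤ 1 / 2 →
    ‖rt y - Polynomial.aeval y p‖ ≤ ε := by
  obtain ⟨p, hp⟩ := exists_polynomial_near_of_continuousOn (-(1 / 2)) (1 / 2)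
    (fun t : ℝ => √(1 - t ^ 2)) (by fun_prop) ε hε
  refine ⟨p, fun y h hy => ?_⟩
  rw [← cfc_polynomial p y, ← cfc_sub _ _ y (by fun_prop) (by fun_prop)]
  refine norm_cfc_le hε.le fun t ht => ?_
  rw [Real.norm_eq_abs, abs_sub_comm]
  exact (hp t (abs_le.1 (spec hy ht))).le

theorem rt_mem (S : Subalgebra ℂ (E →L[ℂ] E)) (hS : IsClosed (S : Set (E →L[ℂ] E)))
    {y : E →L[ℂ] E} (h : IsSelfAdjoint y) (hy : ‖y‖ ≤ 1 / 2) (hm : y ∈ S) : rt y ∈ S := by
  have hp : ∀ p : ℝ[X], Polynomial.aeval y p ∈ S := fun p => by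
    induction p using Polynomial.induction_on' with
    | add p q hp hq => rw [map_add]; exact S.add_mem hp hq
    | monomial n a =>
      rw [Polynomial.aeval_monomial, ← Algebra.smul_def, ← Complex.coe_smul]
      exact S.smul_mem (S.pow_mem hm n) _
  rw [← SetLike.mem_coe, ← hS.closure_eq, Metric.mem_closure_iff]
  intro ε hε
  obtain ⟨p, h1⟩ := approx (E := E) (half_pos hε)
  exact ⟨_, hp p, by rw [dist_eq_norm]; linarith [h1 y h hy]⟩

theorem strong_pow {y : ℕ → E →L[ℂ] E} {y₀ : E →L[ℂ] E} (hb : ∀ k, ‖y k‖ ≤ 1 / 2)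
    (h : ∀ θ, Tendsto (fun k => y k θ) atTop (𝓝 (y₀ θ))) (n : ℕ) (θ : E) :
    Tendsto (fun k => (y k ^ n) θ) atTop (𝓝 ((y₀ ^ n) θ)) := by
  induction n with
  | zero => simp
  | succ n ih =>
    have h1 : Tendsto (fun k => y k ((y k ^ n) θ - (y₀ ^ n) θ)) atTop (𝓝 0) := by
      have h2 : Tendsto (fun k => 1 / 2 * ‖(y k ^ n) θ - (y₀ ^ n) θ‖) atTop (𝓝 0) := by
        simpa only [mul_zero] using (tendsto_iff_norm_sub_tendsto_zero.1 ih).const_mul (1 / 2)
      refine squeeze_zero_norm (fun k => ?_) h2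
      exact ((y k).le_opNorm _).trans (by gcongr; exact hb k)
    have := h1.add (h ((y₀ ^ n) θ))
    rw [zero_add] at this
    simp only [pow_succ', mul_apply_eq_comp]
    refine this.congr fun k => ?_
    rw [map_sub, sub_add_cancel]

theorem strong_poly {y : ℕ → E →L[ℂ] E} {y₀ : E →L[ℂ] E} (hb : ∀ k, ‖y k‖ ≤ 1 / 2)
    (h : ∀ θ, Tendsto (fun k => y k θ) atTop (𝓝 (y₀ θ))) (p : ℝ[X]) (θ : E) :
    Tendsto (fun k => (Polynomial.aeval (y k) p) θ) atTop (𝓝 ((Polynomial.aeval y₀ p) θ)) := by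
  induction p using Polynomial.induction_on' with
  | add p q hp hq => simpa only [map_add, add_apply] using hp.add hq
  | monomial n a =>
    simp only [Polynomial.aeval_monomial, ← Algebra.smul_def, ← Complex.coe_smul, smul_apply]
    exact (strong_pow hb h n θ).const_smul _

theorem strong_rt {y : ℕ → E →L[ℂ] E} {y₀ : E →L[ℂ] E} (hs : ∀ k, IsSelfAdjoint (y k))
    (hb : ∀ k, ‖y k‖ ≤ 1 / 2) (hs₀ : IsSelfAdjoint y₀) (hb₀ : ‖y₀‖ ≤ 1 / 2)
    (h : ∀ θ, Tendsto (fun k => y k θ) atTop (𝓝 (y₀ θ))) (θ : E) :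
    Tendsto (fun k => rt (y k) θ) atTop (𝓝 (rt y₀ θ)) := by
  rw [Metric.tendsto_nhds]
  intro ε hε
  have hd : 0 < ε / (3 * (‖θ‖ + 1)) := by positivity
  obtain ⟨p, hp⟩ := approx (E := E) hd
  have h1 : ∀ z : E →L[ℂ] E, IsSelfAdjoint z → ‖z‖ ≤ 1 / 2 →
      dist (rt z θ) ((Polynomial.aeval z p) θ) ≤ ε / 3 := fun z a b => by
    rw [dist_eq_norm, ← sub_apply]
    refine (ContinuousLinearMap.le_opNorm _ _).trans ?_
    calc _ ≤ ε / (3 * (‖θ‖ + 1)) * (‖θ‖ + 1) := by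
          gcongr
          · exact hp z a b
          · linarith
      _ = ε / 3 := by field_simp
  filter_upwards [Metric.tendsto_nhds.1 (strong_poly hb h p θ) (ε / 3) (by positivity)] with k hk
  have a := h1 _ (hs k) (hb k)
  have b := h1 _ hs₀ hb₀
  rw [dist_comm] at b
  linarith [dist_triangle4 (rt (y k) θ) ((Polynomial.aeval (y k) p) θ) ((Polynomial.aeval y₀ p) θ)
    (rt y₀ θ)]

theorem mul_Fs (b : Bool) (y : E →L[ℂ] E) (h : IsSelfAdjoint y) (hy : ‖y‖ ≤ 1 / 2) :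
    Fs b y * Fs (!b) y = 1 := by
  have h1 := rt_sq h hy
  have h2 : y * rt y = rt y * y := (rt_comm (Commute.refl y)).eq
  have key : ∀ c : ℂ, c * c = -1 → (y + c • rt y) * (y + (-c) • rt y) = 1 := fun c hc => by
    simp only [add_mul, mul_add, smul_mul_assoc, mul_smul_comm, smul_add, smul_smul, h1, h2, neg_mul,
      hc]
    simp
  cases b
  · simpa [Fs] using key (-Complex.I) (by simp)
  · simpa [Fs] using key Complex.I (by simp)

end PolyX

open PolyX in
theorem jobPOLY : JobPOLY.{u} := by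
  intro E _ _ _
  refine ⟨fun b y h => ?_, mul_Fs, fun y => ?_, fun b y T _ h => ?_,
    fun b y y₀ hs hb hs₀ hb₀ h θ => ?_, fun b y y' h h' hy hy' hc => ?_⟩
  · have hr : IsSelfAdjoint (rt y) := cfc_predicate _ _
    cases b <;> simp [Fs, h.star_eq, hr.star_eq]
  · simp [Fs, two_smul]; abel
  · exact h.add_right ((rt_comm h).smul_right _)
  · exact (h θ).add ((strong_rt hs hb hs₀ hb₀ h θ).const_smul _)
  · let S := (Algebra.adjoin ℂ {y, y'}).topologicalClosure
    have hS : IsClosed (S : Set (E →L[ℂ] E)) := Subalgebra.isClosed_topologicalClosure _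
    have m1 : y ∈ S := Subalgebra.le_topologicalClosure _ (Algebra.subset_adjoin (by simp))
    have m2 : y' ∈ S := Subalgebra.le_topologicalClosure _ (Algebra.subset_adjoin (by simp))
    have m3 := rt_mem S hS h hy m1
    have m4 := rt_mem S hS h' hy' m2
    set e : E →L[ℂ] E := (2⁻¹ : ℂ) • ((1 - rt y) + (1 - rt y')) with he
    have he1 : ‖e‖ < 1 := by
      rw [he, norm_smul]
      have := (norm_add_le _ _).trans (add_le_add (rt_near h hy) (rt_near h' hy'))
      simp only [norm_inv, Complex.norm_ofNat]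
      linarith
    have m5 : e ∈ S := S.smul_mem (S.add_mem (S.sub_mem S.one_mem m3) (S.sub_mem S.one_mem m4)) _
    have m6 : ∑' n : ℕ, e ^ n ∈ S := tsum_mem hS fun n => S.pow_mem m5 n
    have hinv : (∑' n : ℕ, e ^ n) * (1 - e) = 1 := geom_series_mul_neg e he1
    have e1 : 1 - e = (2⁻¹ : ℂ) • (rt y + rt y') := by
      rw [he]; module
    have c1 : rt y * rt y' = rt y' * rt y := (rt_comm (rt_comm hc.symm).symm).eq
    have e2 : (rt y + rt y') * (rt y' - rt y) = (y + y') * (y - y') := by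
      have a := rt_sq h hy
      have b := rt_sq h' hy'
      have c := hc.eq
      calc _ = rt y' * rt y' - rt y * rt y + (rt y * rt y' - rt y' * rt y) := by noncomm_ring
        _ = y * y - y' * y' + (y' * y - y * y') := by rw [a, b, c1, c]; abel
        _ = _ := by noncomm_ring
    have e3 : rt y' - rt y = (2⁻¹ : ℂ) • ((∑' n : ℕ, e ^ n) * (y + y') * (y - y')) := by
      rw [mul_assoc, ← e2, ← mul_assoc, ← smul_mul_assoc, ← mul_smul_comm, ← e1, hinv, one_mul]
    set c : ℂ := cond b Complex.I (-Complex.I)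
    have e4 : Fs b y' - Fs b y = (c • (2⁻¹ : ℂ) • ((∑' n : ℕ, e ^ n) * (y + y')) - 1) * (y - y') := by
      rw [sub_mul, smul_mul_assoc, smul_mul_assoc, ← e3, one_mul]
      show y' + c • rt y' - (y + c • rt y) = _
      rw [smul_sub]; abel
    have c2 : Commute (y - y') (Fs (!b) y) := by
      have : Commute (y - y') y := (Commute.refl y).sub_left hc.symm
      exact this.add_right ((rt_comm this).smul_right _)
    refine ⟨(c • (2⁻¹ : ℂ) • ((∑' n : ℕ, e ^ n) * (y + y')) - 1) * Fs (!b) y, ?_, ?_⟩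
    · show _ ∈ S
      exact S.mul_mem (S.sub_mem (S.smul_mem (S.smul_mem (S.mul_mem m6 (S.add_mem m1 m2)) _) _)
        S.one_mem) (S.add_mem m1 (S.smul_mem m3 _))
    · rw [mul_assoc, ← c2.eq, ← mul_assoc, ← e4, sub_mul, mul_Fs b y h hy]

end Crest.Agent.KN
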