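import Crest.Agent.KN.Defs2

/-! Row 78, job RED: reduction to a cyclic and separating vector. -/

set_option autoImplicit false
universe u v

namespace Crest.Agent.KN

open scoped InnerProductSpace BigOperators ComplexConjugate ComplexOrder
open Filter Topology ContinuousLinearMap

namespace REDx

variable {H : Type u} [NormedAddCommGroup H] [InnerProductSpace ℂ H] [CompleteSpace H]

/-- `z ↦ z ζ`. -/
noncomputable def evz (Q : VonNeumannAlgebra H) (ζ : H) : Al Q →ₗ[ℂ] H where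
  toFun z := (z : H →L[ℂ] H) ζ
  map_add' _ _ := rfl
  map_smul' _ _ := rfl

/-- The cyclic subspace. -/
noncomputable def KQ (Q : VonNeumannAlgebra H) (ζ : H) : Submodule ℂ H :=
  (LinearMap.range (evz Q ζ)).topologicalClosure

instance (Q : VonNeumannAlgebra H) (ζ : H) : CompleteSpace (KQ Q ζ) :=
  (Submodule.isClosed_topologicalClosure _).completeSpace_coe

variable {Q : VonNeumannAlgebra H} {ζ : H}

lemma mem_KQ {z : H →L[ℂ] H} (hz : z ∈ Q) : z ζ ∈ KQ Q ζ :=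
  Submodule.le_topologicalClosure _ ⟨⟨z, hz⟩, rfl⟩

lemma KQ_ind {s : Set H} (hs : IsClosed s) (h : ∀ z ∈ Q, z ζ ∈ s) {η : H} (hη : η ∈ KQ Q ζ) :
    η ∈ s :=
  closure_minimal (s := (LinearMap.range (evz Q ζ) : Set H)) (by
    rintro _ ⟨z, rfl⟩; exact h z z.2) hs hη

lemma KQ_inv {y : H →L[ℂ] H} (hy : y ∈ Q) {η : H} (hη : η ∈ KQ Q ζ) : y η ∈ KQ Q ζ :=
  KQ_ind (s := y ⁻¹' (KQ Q ζ)) ((Submodule.isClosed_topologicalClosure _).preimage y.continuous)
    (fun _ hz => mem_KQ (mul_mem hy hz)) hη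

lemma KQ_orth_inv {y : H →L[ℂ] H} (hy : y ∈ Q) {η : H} (hη : η ∈ (KQ Q ζ)ᗮ) :
    y η ∈ (KQ Q ζ)ᗮ := by
  rw [Submodule.mem_orthogonal] at hη ⊢
  intro u hu
  rw [← adjoint_inner_left]
  exact hη _ (KQ_inv (star_mem hy) hu)

lemma ext_KQ {F : Type*} [NormedAddCommGroup F] [NormedSpace ℂ F] {f g : H →L[ℂ] F}
    (h1 : ∀ z ∈ Q, f (z ζ) = g (z ζ)) (h2 : ∀ η ∈ (KQ Q ζ)ᗮ, f η = g η) : f = g := by
  ext ξ
  obtain ⟨a, ha, b, hb, rfl⟩ := (KQ Q ζ).exists_add_mem_mem_orthogonal ξ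
  rw [map_add, map_add, h2 b hb]
  congr 1
  exact KQ_ind (s := {η | f η = g η}) (isClosed_eq f.continuous g.continuous) h1 ha

lemma proj_comm {y : H →L[ℂ] H} (hy : y ∈ Q) :
    y * (KQ Q ζ).starProjection = (KQ Q ζ).starProjection * y := by
  refine ext_KQ (Q := Q) (ζ := ζ) (fun z hz => ?_) fun η hη => ?_
  · rw [ContinuousLinearMap.mul_apply, ContinuousLinearMap.mul_apply, Submodule.starProjection_eq_self_iff.2 (mem_KQ hz),
      Submodule.starProjection_eq_self_iff.2 (KQ_inv hy (mem_KQ hz))]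
  · rw [ContinuousLinearMap.mul_apply, ContinuousLinearMap.mul_apply, (Submodule.starProjection_apply_eq_zero_iff _).2 hη,
      (Submodule.starProjection_apply_eq_zero_iff _).2 (KQ_orth_inv hy hη), map_zero]

variable {H₀ : Type u} [NormedAddCommGroup H₀] [InnerProductSpace ℂ H₀] [CompleteSpace H₀]

/-- The compression `W⋆ z W`. -/
noncomputable abbrev cp (W : H₀ →L[ℂ] H) (z : H →L[ℂ] H) : H₀ →L[ℂ] H₀ := adjoint W ∘L z ∘L W

lemma star_cp (W : H₀ →L[ℂ] H) (z : H →L[ℂ] H) : star (cp W z) = cp W (star z) := by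
  simp only [star_eq_adjoint, adjoint_comp, adjoint_adjoint, comp_assoc]

lemma inner_cp (W : H₀ →L[ℂ] H) (z : H →L[ℂ] H) (a b : H₀) :
    ⟪a, cp W z b⟫_ℂ = ⟪W a, z (W b)⟫_ℂ := adjoint_inner_right W a _

lemma bound (W : H₀ →L[ℂ] H) (z : H →L[ℂ] H) (T : H₀ →L[ℂ] H₀) (ζ₀ : H₀)
    (h1 : Commute T (cp W (star z * z))) (h2 : Commute (star T) (cp W (star z * z))) :
    ‖z (W (T ζ₀))‖ ≤ ‖T‖ * ‖z (W ζ₀)‖ := by
  set a := cp W (star z * z) with ha
  have hn : ∀ ξ, ⟪ξ, a ξ⟫_ℂ = ((‖z (W ξ)‖ ^ 2 : ℝ) : ℂ) := fun ξ => by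
    rw [ha, inner_cp, ContinuousLinearMap.mul_apply, star_eq_adjoint, adjoint_inner_right, inner_self_eq_norm_sq_to_K]
    norm_cast
  have ha0 : 0 ≤ a := by
    rw [nonneg_iff_isPositive, isPositive_iff_complex]
    intro ξ
    rw [← inner_conj_symm, hn, Complex.conj_ofReal]
    exact ⟨by simp only [RCLike.re_to_complex, Complex.ofReal_re], by simp only [RCLike.re_to_complex, Complex.ofReal_re]; positivity⟩
  have hb0 : 0 ≤ algebraMap ℝ (H₀ →L[ℂ] H₀) (‖T‖ ^ 2) - star T * T :=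
    sub_nonneg.2 CStarAlgebra.star_mul_le_algebraMap_norm_sq
  have hc : Commute (algebraMap ℝ (H₀ →L[ℂ] H₀) (‖T‖ ^ 2) - star T * T) a :=
    Commute.sub_left (Algebra.commute_algebraMap_left _ a) (h2.mul_left h1)
  have := ((nonneg_iff_isPositive _).1 (Commute.mul_nonneg hb0 ha0 hc)).re_inner_nonneg_right ζ₀
  have e1 : ⟪ζ₀, ((algebraMap ℝ (H₀ →L[ℂ] H₀) (‖T‖ ^ 2) - star T * T) * a) ζ₀⟫_ℂ =
      ((‖T‖ ^ 2 * ‖z (W ζ₀)‖ ^ 2 - ‖z (W (T ζ₀))‖ ^ 2 : ℝ) : ℂ) := by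
    rw [sub_mul, mul_assoc, h1.eq, ContinuousLinearMap.sub_apply, inner_sub_right, Algebra.algebraMap_eq_smul_one,
      smul_mul_assoc, one_mul, ContinuousLinearMap.mul_apply, ContinuousLinearMap.mul_apply, star_eq_adjoint, adjoint_inner_right, hn,
      ContinuousLinearMap.smul_apply, ← Complex.coe_smul, inner_smul_right, hn]
    push_cast; ring
  rw [e1] at this
  simp only [RCLike.re_to_complex, Complex.ofReal_re] at this
  refine (pow_le_pow_iff_left₀ (norm_nonneg _) (by positivity) two_ne_zero).1 ?_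
  rw [mul_pow]; linarith

section ind
variable {P : VonNeumannAlgebra H} (hPQ : ∀ y, (∀ z ∈ Q, z * y = y * z) → y ∈ P)
  (W : H₀ →L[ℂ] H) (ζ₀ : H₀) (hζ : W ζ₀ = ζ) (hWW : ∀ ξ, adjoint W (W ξ) = ξ)
  (hP : ∀ ξ, W ξ ∈ KQ P ζ) (hQ : ∀ ξ, W ξ ∈ KQ Q ζ)
  (hr : ∀ η, η ∈ KQ P ζ → η ∈ KQ Q ζ → ∃ ξ, W ξ = η)
  (A : VonNeumannAlgebra H₀) (hA : ∀ T ∈ A, ∀ z ∈ Q, Commute T (cp W z))

include hζ hA in
lemma exists_k (T : Al A) : ∃ k : H →L[ℂ] H, (∀ z ∈ Q, k (z ζ) = z (W ((T : H₀ →L[ℂ] H₀) ζ₀))) ∧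
    ∀ η ∈ (KQ Q ζ)ᗮ, k η = 0 := by
  let e : Al Q →ₗ[ℂ] KQ Q ζ := (evz Q ζ).codRestrict _ fun z => mem_KQ z.2
  have he : DenseRange e := by
    rw [DenseRange, Subtype.dense_iff]
    intro η hη
    refine closure_mono ?_ hη
    rintro _ ⟨z, rfl⟩
    exact ⟨e z, ⟨z, rfl⟩, rfl⟩
  have hb : ∀ z : Al Q, ‖evz Q (W ((T : H₀ →L[ℂ] H₀) ζ₀)) z‖ ≤ ‖(T : H₀ →L[ℂ] H₀)‖ * ‖e z‖ :=
    fun z => by
      have := bound W z T ζ₀ (hA _ T.2 _ (mul_mem (star_mem z.2) z.2))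
        (hA _ (star_mem T.2) _ (mul_mem (star_mem z.2) z.2))
      rw [hζ] at this
      exact this
  refine ⟨(evz Q (W ((T : H₀ →L[ℂ] H₀) ζ₀))).extendOfNorm e ∘L (KQ Q ζ).orthogonalProjection,
    fun z hz => ?_, fun η hη => ?_⟩
  · have : (KQ Q ζ).orthogonalProjection (z ζ) = e ⟨z, hz⟩ :=
      (KQ Q ζ).orthogonalProjection_mem_subspace_eq_self (e ⟨z, hz⟩)
    rw [ContinuousLinearMap.comp_apply, this, LinearMap.extendOfNorm_eq he ⟨_, hb⟩]
    rfl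
  · rw [ContinuousLinearMap.comp_apply, Submodule.orthogonalProjection_mem_subspace_orthogonalComplement_eq_zero hη,
      map_zero]

include hPQ hζ hWW hP hQ hr hA in
theorem induce : ∃ κ : Al A →⋆ₙₐ[ℂ] (H →L[ℂ] H), (∀ T, κ T ∈ P) ∧
    (∀ T ξ, κ T (W ξ) = W ((T : H₀ →L[ℂ] H₀) ξ)) ∧
    (∀ T, ∀ z ∈ Q, κ T (z ζ) = z (W ((T : H₀ →L[ℂ] H₀) ζ₀))) ∧
    ∀ T, ∀ η ∈ (KQ Q ζ)ᗮ, κ T η = 0 := by
  choose k k1 k2 using exists_k W ζ₀ hζ A hA
  have kc : ∀ T, ∀ z ∈ Q, z * k T = k T * z := fun T y hy =>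
    ext_KQ (Q := Q) (ζ := ζ) (fun z hz => by
      rw [ContinuousLinearMap.mul_apply, ContinuousLinearMap.mul_apply, k1 T z hz]
      exact (k1 T _ (mul_mem hy hz)).symm) fun η hη => by
      rw [ContinuousLinearMap.mul_apply, ContinuousLinearMap.mul_apply, k2 T η hη, k2 T _ (KQ_orth_inv hy hη), map_zero]
  have kQ : ∀ T η, η ∈ KQ Q ζ → k T η ∈ KQ Q ζ := fun T η hη =>
    KQ_ind (s := k T ⁻¹' (KQ Q ζ))
      ((Submodule.isClosed_topologicalClosure _).preimage (k T).continuous)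
      (fun z hz => by
        change k T (z ζ) ∈ KQ Q ζ
        rw [k1 T z hz]; exact KQ_inv hz (hQ _)) hη
  have kW : ∀ T ξ, k T (W ξ) = W ((T : H₀ →L[ℂ] H₀) ξ) := fun T ξ => by
    obtain ⟨ξ', h'⟩ := hr _ (KQ_inv (hPQ _ (kc T)) (hP ξ)) (kQ T _ (hQ ξ))
    have h1 : adjoint W (k T (W ξ)) = (T : H₀ →L[ℂ] H₀) (adjoint W (W ξ)) :=
      KQ_ind (s := {η | adjoint W (k T η) = (T : H₀ →L[ℂ] H₀) (adjoint W η)})
        (isClosed_eq (by fun_prop) (by fun_prop)) (fun z hz => by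
          change adjoint W (k T (z ζ)) = (T : H₀ →L[ℂ] H₀) (adjoint W (z ζ))
          rw [k1 T z hz, ← hζ]
          exact (congrArg (fun S => S ζ₀) (hA _ T.2 z hz).eq).symm) (hQ ξ)
    rw [← h', hWW, hWW] at h1
    rw [← h', h1]
  have kstar : ∀ T, k (star T) = star (k T) := fun T => by
    have h1 : adjoint (k T) ζ = W (adjoint (T : H₀ →L[ℂ] H₀) ζ₀) := by
      have : innerSL ℂ (adjoint (k T) ζ) = innerSL ℂ (W (adjoint (T : H₀ →L[ℂ] H₀) ζ₀)) := by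
        refine ext_KQ (Q := Q) (ζ := ζ) (fun z hz => ?_) fun η hη => ?_
        · rw [innerSL_apply_apply, innerSL_apply_apply, adjoint_inner_left, k1 T z hz]
          have := congrArg (fun S => ⟪ζ₀, S ζ₀⟫_ℂ) (hA _ T.2 z hz).eq
          simp only [ContinuousLinearMap.mul_apply] at this
          rw [← adjoint_inner_left, inner_cp, inner_cp, hζ] at this
          exact this.symm
        · rw [innerSL_apply_apply, innerSL_apply_apply, adjoint_inner_left, k2 T η hη,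
            inner_zero_right, (Submodule.mem_orthogonal _ _).1 hη _ (hQ _)]
      exact ext_inner_right ℂ fun η => congrArg (fun f => f η) this
    refine ext_KQ (Q := Q) (ζ := ζ) (fun z hz => ?_) fun η hη => ?_
    · have h2 := congrArg star (kc T _ (star_mem hz))
      rw [star_mul, star_mul, star_star] at h2
      rw [k1 _ z hz, ← ContinuousLinearMap.mul_apply (star (k T)), h2, ContinuousLinearMap.mul_apply, star_eq_adjoint, h1]
      rfl
    · rw [k2 _ η hη]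
      refine ext_inner_left ℂ fun θ => ?_
      obtain ⟨a, ha, b, hb, rfl⟩ := (KQ Q ζ).exists_add_mem_mem_orthogonal θ
      rw [star_eq_adjoint, adjoint_inner_right, map_add, k2 T b hb, add_zero, inner_zero_right,
        (Submodule.mem_orthogonal _ _).1 hη _ (kQ T a ha)]
  refine ⟨{ toFun := k
            map_smul' := fun c T => ext_KQ (Q := Q) (ζ := ζ) (fun z hz => ?_) fun η hη => ?_
            map_zero' := ext_KQ (Q := Q) (ζ := ζ) (fun z hz => ?_) fun η hη => ?_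
            map_add' := fun S T => ext_KQ (Q := Q) (ζ := ζ) (fun z hz => ?_) fun η hη => ?_
            map_mul' := fun S T => ext_KQ (Q := Q) (ζ := ζ) (fun z hz => ?_) fun η hη => ?_
            map_star' := kstar }, fun T => hPQ _ (kc T), kW, k1, k2⟩
  · simp [k1 _ z hz]
  · simp [k2 _ η hη]
  · simp [k1 _ z hz]
  · simp [k2 _ η hη]
  · simp [k1 _ z hz]
  · simp [k2 _ η hη]
  · rw [k1 _ z hz, ContinuousLinearMap.mul_apply, k1 _ z hz, ← ContinuousLinearMap.mul_apply (k S), ← kc S z hz, ContinuousLinearMap.mul_apply, kW]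
    rfl
  · simp [k2 _ η hη]

include hPQ hWW hP hQ hr in
/-- On `KQ P`, `W W⋆` is the projection on `KQ Q`. -/
lemma WW {η : H} (hη : η ∈ KQ P ζ) : W (adjoint W η) = (KQ Q ζ).starProjection η := by
  obtain ⟨ξ, hξ⟩ := hr _ (KQ_inv (hPQ _ fun z hz => proj_comm hz) hη)
    ((KQ Q ζ).starProjection_apply_mem η)
  have : adjoint W (η - (KQ Q ζ).starProjection η) = 0 := ext_inner_left ℂ fun θ => by
    rw [adjoint_inner_right, inner_zero_right]
    exact (Submodule.mem_orthogonal _ _).1 ((KQ Q ζ).sub_starProjection_mem_orthogonal η) _ (hQ θ)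
  rw [map_sub, sub_eq_zero] at this
  rw [this, ← hξ, hWW]

include hPQ hWW hP hQ hr in
lemma cp_mul {x z : H →L[ℂ] H} (hx : x ∈ P) (hz : z ∈ Q) : cp W z * cp W x = cp W (z * x) := by
  ext ξ
  refine ext_inner_left ℂ fun θ => ?_
  rw [ContinuousLinearMap.mul_apply, inner_cp, inner_cp]
  change ⟪W θ, z (W (adjoint W (x (W ξ))))⟫_ℂ = ⟪W θ, z (x (W ξ))⟫_ℂ
  rw [WW hPQ W hWW hP hQ hr (KQ_inv hx (hP ξ)), ← adjoint_inner_left, ← adjoint_inner_left z,
    ← Submodule.inner_starProjection_left_eq_right, ← star_eq_adjoint,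
    Submodule.starProjection_eq_self_iff.2 (KQ_inv (star_mem hz) (hQ θ))]

include hζ hWW hQ in
lemma cyc_of (hA' : ∀ z ∈ Q, cp W z ∈ A) : Cyc A ζ₀ := by
  intro ξ
  rw [← hWW ξ]
  refine KQ_ind (s := adjoint W ⁻¹' closure {ξ | ∃ x ∈ A, ξ = x ζ₀})
    (isClosed_closure.preimage (adjoint W).continuous) (fun z hz => subset_closure ?_) (hQ ξ)
  exact ⟨cp W z, hA' z hz, by rw [← hζ]; rfl⟩

end ind

end REDx

open REDx in
theorem jobRED : JobRED.{u} := by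
  intro H _ _ _ M ζ
  let K : Submodule ℂ H := KQ M ζ ⊓ KQ M.commutant ζ
  have hK : IsClosed (K : Set H) :=
    (Submodule.isClosed_topologicalClosure _).inter (Submodule.isClosed_topologicalClosure _)
  haveI : CompleteSpace K := hK.completeSpace_coe
  let W : K →L[ℂ] H := K.subtypeL
  let ζ₀ : K := ⟨ζ, mem_KQ (z := 1) (one_mem M), mem_KQ (z := 1) (one_mem M.commutant)⟩
  have hζ : W ζ₀ = ζ := rfl
  have hWW : ∀ ξ, adjoint W (W ξ) = ξ := fun ξ => ext_inner_left ℂ fun θ => by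
    rw [adjoint_inner_right]; rfl
  have h1 : ∀ ξ, W ξ ∈ KQ M ζ := fun ξ => ξ.2.1
  have h2 : ∀ ξ, W ξ ∈ KQ M.commutant ζ := fun ξ => ξ.2.2
  have r1 : ∀ η, η ∈ KQ M ζ → η ∈ KQ M.commutant ζ → ∃ ξ, W ξ = η := fun η a b => ⟨⟨η, a, b⟩, rfl⟩
  have r2 : ∀ η, η ∈ KQ M.commutant ζ → η ∈ KQ M ζ → ∃ ξ, W ξ = η := fun η a b => r1 η b a
  have c1 : ∀ y, (∀ z ∈ M.commutant, z * y = y * z) → y ∈ M := fun y hy => by
    rw [← M.commutant_commutant]; exact VonNeumannAlgebra.mem_commutant_iff.2 hy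
  have c2 : ∀ y, (∀ z ∈ M, z * y = y * z) → y ∈ M.commutant := fun y hy =>
    VonNeumannAlgebra.mem_commutant_iff.2 hy
  let S : Set (K →L[ℂ] K) := {T | ∃ z ∈ M.commutant, T = cp W z}
  let M₀ : VonNeumannAlgebra K :=
    { toStarSubalgebra := StarSubalgebra.centralizer ℂ S
      centralizer_centralizer' := by simp }
  have hM₀ : ∀ T, T ∈ M₀ ↔ ∀ z ∈ M.commutant, Commute T (cp W z) := fun T => by
    change T ∈ StarSubalgebra.centralizer ℂ S ↔ _
    rw [StarSubalgebra.mem_centralizer_iff]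
    refine ⟨fun h z hz => (h _ ⟨z, hz, rfl⟩).1.symm, ?_⟩
    rintro h _ ⟨z, hz, rfl⟩
    exact ⟨(h z hz).eq.symm, by rw [star_cp]; exact (h _ (star_mem hz)).eq.symm⟩
  have hc : ∀ x ∈ M, cp W x ∈ M₀ := fun x hx => (hM₀ _).2 fun z hz => by
    rw [Commute, SemiconjBy, cp_mul c1 W hWW h1 h2 r1 hx hz, cp_mul c2 W hWW h2 h1 r2 hz hx,
      VonNeumannAlgebra.mem_commutant_iff.1 hz x hx]
  have hc' : ∀ z ∈ M.commutant, cp W z ∈ M₀.commutant := fun z hz =>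
    VonNeumannAlgebra.mem_commutant_iff.2 fun T hT => ((hM₀ T).1 hT z hz).eq
  obtain ⟨κ, k1, k2, k3, k4⟩ := induce c1 W ζ₀ hζ hWW h1 h2 r1 M₀ fun T hT => (hM₀ T).1 hT
  obtain ⟨κ', k1', k2', -, -⟩ := induce c2 W ζ₀ hζ hWW h2 h1 r2 M₀.commutant fun T hT x hx =>
    (VonNeumannAlgebra.mem_commutant_iff.1 hT _ (hc x hx)).symm
  have hone : ∀ z ∈ M.commutant, κ 1 (z ζ) = z ζ := fun z hz => k3 1 z hz
  have hone' : κ 1 = (KQ M.commutant ζ).starProjection :=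
    ext_KQ (Q := M.commutant) (ζ := ζ) (fun z hz => by
      rw [hone z hz, Submodule.starProjection_eq_self_iff.2 (mem_KQ hz)]) fun η hη => by
      rw [k4 1 η hη, (Submodule.starProjection_apply_eq_zero_iff _).2 hη]
  refine ⟨K, inferInstance, inferInstance, inferInstance, ⟨{
    W := W
    M₀ := M₀
    ζ₀ := ζ₀
    κ := κ
    κ' := κ'
    norm_W := fun _ => rfl
    W_ζ := hζ
    cyc := cyc_of W ζ₀ hζ hWW h1 M₀ hc
    cyc' := cyc_of W ζ₀ hζ hWW h2 M₀.commutant hc'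
    κ_mem := k1
    κ'_mem := k1'
    κ_W := k2
    κ'_W := k2'
    comp_mem := hc
    κ_comp := fun x hx => ?_
    κ_one := hone }⟩⟩
  refine ext_KQ (Q := M.commutant) (ζ := ζ) (fun z hz => ?_) fun η hη => ?_
  · rw [k3 _ z hz, ContinuousLinearMap.mul_apply, ContinuousLinearMap.mul_apply, hone z hz, ← ContinuousLinearMap.mul_apply x,
      VonNeumannAlgebra.mem_commutant_iff.1 hz x hx, ContinuousLinearMap.mul_apply, ← ContinuousLinearMap.mul_apply (κ 1),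
      VonNeumannAlgebra.mem_commutant_iff.1 hz _ (k1 1), ContinuousLinearMap.mul_apply, hone']
    congr 1
    exact WW c1 W hWW h1 h2 r1 (mem_KQ hx)
  · rw [k4 _ η hη, ContinuousLinearMap.mul_apply, ContinuousLinearMap.mul_apply, k4 1 η hη, map_zero, map_zero]

end Crest.Agent.KN
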