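import Crest.Agent.KN.Defs

/-! Row 78: backward orbits near an almost idempotent operator (Newton iteration + Neumann series). -/

set_option autoImplicit false
universe u v

namespace Crest.Agent.KN

open Filter Topology

variable {𝔛 : Type u} [NormedAddCommGroup 𝔛] [NormedSpace ℂ 𝔛] [CompleteSpace 𝔛]

/-- One Newton step. -/
noncomputable def nst (a : 𝔛 →L[ℂ] 𝔛) : 𝔛 →L[ℂ] 𝔛 := a * a + a * a + a * a - (a * a * a + a * a * a)

omit [CompleteSpace 𝔛] in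
lemma nst_est (B : 𝔛 →L[ℂ] 𝔛) (hB : ‖B‖ ≤ 2) (hd : ‖B * B - B‖ ≤ 1 / 25) :
    ‖nst B - B‖ ≤ 5 * ‖B * B - B‖ ∧ ‖nst B * nst B - nst B‖ ≤ 1 / 4 * ‖B * B - B‖ := by
  set d := B * B - B with hdd
  have hd0 := norm_nonneg d
  have e1 : nst B - B = d - (d * B + d * B) := by simp only [nst, hdd]; noncomm_ring
  have e2 : nst B * nst B - nst B =
      (d * d * d + d * d * d + d * d * d + d * d * d) - (d * d + d * d + d * d) := by
    simp only [nst, hdd]; noncomm_ring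
  have t1 : ‖d * B‖ ≤ ‖d‖ * 2 := (norm_mul_le _ _).trans (by gcongr)
  have t2 : ‖d * d‖ ≤ ‖d‖ * (1 / 25) := (norm_mul_le _ _).trans (by gcongr)
  have t3 : ‖d * d * d‖ ≤ ‖d‖ * (1 / 25) * (1 / 25) := (norm_mul_le _ _).trans (by gcongr)
  constructor
  · rw [e1]
    have a2 := norm_sub_le d (d * B + d * B)
    have a3 := norm_add_le (d * B) (d * B)
    linarith
  · rw [e2]
    have a1 := norm_sub_le (d * d * d + d * d * d + d * d * d + d * d * d) (d * d + d * d + d * d)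
    have a2 := norm_add_le (d * d * d + d * d * d + d * d * d) (d * d * d)
    have a3 := norm_add_le (d * d * d + d * d * d) (d * d * d)
    have a4 := norm_add_le (d * d * d) (d * d * d)
    have a5 := norm_add_le (d * d + d * d) (d * d)
    have a6 := norm_add_le (d * d) (d * d)
    linarith

theorem exists_idem (A A0 : 𝔛 →L[ℂ] 𝔛) (X : Submodule ℂ 𝔛) (δ : ℝ) (hX : IsClosed (X : Set 𝔛))
    (hA : ∀ x ∈ X, A x ∈ X) (h0 : A0 * A0 = A0) (h1 : ‖A0‖ ≤ 1) (hδ : δ ≤ 1 / 100)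
    (h2 : ‖A - A0‖ ≤ δ) :
    ∃ P : 𝔛 →L[ℂ] 𝔛, P * P = P ∧ P * A = A * P ∧ ‖P - A‖ ≤ 28 * δ ∧ ∀ x ∈ X, P x ∈ X := by
  have hδ0 : 0 ≤ δ := (norm_nonneg _).trans h2
  have hA1 : ‖A‖ ≤ 1 + δ := by
    have := norm_add_le (A - A0) A0
    rw [sub_add_cancel] at this
    linarith
  have hd0 : ‖A * A - A‖ ≤ 4 * δ := by
    have e1 : A * A - A = (A - A0) * A + A0 * (A - A0) - (A - A0) + (A0 * A0 - A0) := by
      noncomm_ring
    rw [e1, h0, sub_self, add_zero]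
    have t1 := norm_mul_le (A - A0) A
    have t2 := norm_mul_le A0 (A - A0)
    have t3 := norm_sub_le ((A - A0) * A + A0 * (A - A0)) (A - A0)
    have t4 := norm_add_le ((A - A0) * A) (A0 * (A - A0))
    have t5 : ‖A - A0‖ * ‖A‖ ≤ δ * (1 + δ) := by gcongr
    have t6 : ‖A0‖ * ‖A - A0‖ ≤ 1 * δ := by gcongr
    nlinarith
  let B : ℕ → 𝔛 →L[ℂ] 𝔛 := fun k => nst^[k] A
  have hBs : ∀ k, B (k + 1) = nst (B k) := fun k => Function.iterate_succ_apply' _ _ _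
  have inv : ∀ k, ‖B k - A‖ + 7 * ‖B k * B k - B k‖ ≤ 28 * δ ∧
      ‖B k * B k - B k‖ ≤ (1 / 25) * (1 / 4) ^ k ∧ B k * A = A * B k ∧ ∀ x ∈ X, B k x ∈ X := by
    intro k
    induction k with
    | zero =>
      refine ⟨?_, ?_, rfl, hA⟩
      · change ‖A - A‖ + 7 * ‖A * A - A‖ ≤ _
        rw [sub_self, norm_zero]; linarith
      · change ‖A * A - A‖ ≤ _
        linarith
    | succ k ih =>
      obtain ⟨b1, b2, b3, b4⟩ := ih
      have hB : ‖B k‖ ≤ 2 := by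
        have := norm_add_le (B k - A) A
        rw [sub_add_cancel] at this
        linarith [norm_nonneg (B k * B k - B k)]
      obtain ⟨c1, c2⟩ := nst_est (B k) hB (by linarith [norm_nonneg (B k - A)])
      rw [hBs]
      refine ⟨?_, ?_, ?_, fun x hx => ?_⟩
      · have := norm_add_le (nst (B k) - B k) (B k - A)
        rw [sub_add_sub_cancel] at this
        linarith [norm_nonneg (B k * B k - B k)]
      · rw [pow_succ]; linarith
      · have hc : Commute (B k) A := b3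
        exact ((((hc.mul_left hc).add_left (hc.mul_left hc)).add_left (hc.mul_left hc)).sub_left
          (((hc.mul_left hc).mul_left hc).add_left ((hc.mul_left hc).mul_left hc))).eq
      · have d1 := b4 _ hx
        have d2 := b4 _ d1
        have d3 := b4 _ d2
        exact X.sub_mem (X.add_mem (X.add_mem d2 d2) d2) (X.add_mem d3 d3)
  have hcs : CauchySeq B := by
    refine cauchySeq_of_le_geometric (1 / 4) (1 / 5) (by norm_num) fun k => ?_
    obtain ⟨b1, b2, -, -⟩ := inv k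
    have hB : ‖B k‖ ≤ 2 := by
      have := norm_add_le (B k - A) A
      rw [sub_add_cancel] at this
      linarith [norm_nonneg (B k * B k - B k)]
    obtain ⟨c1, -⟩ := nst_est (B k) hB (by linarith [norm_nonneg (B k - A)])
    rw [dist_comm, dist_eq_norm, hBs]
    linarith
  obtain ⟨P, hP⟩ := cauchySeq_tendsto_of_complete hcs
  refine ⟨P, ?_, ?_, ?_, fun x hx => ?_⟩
  · have t1 : Tendsto (fun k => B k * B k - B k) atTop (𝓝 (P * P - P)) := (hP.mul hP).sub hP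
    have t2 : Tendsto (fun k => B k * B k - B k) atTop (𝓝 0) := by
      refine squeeze_zero_norm (fun k => (inv k).2.1) ?_
      have := (tendsto_pow_atTop_nhds_zero_of_lt_one (r := (1 / 4 : ℝ)) (by norm_num)
        (by norm_num)).const_mul (1 / 25)
      rwa [mul_zero] at this
    exact sub_eq_zero.1 (tendsto_nhds_unique t1 t2)
  · refine tendsto_nhds_unique (hP.mul_const A) ?_
    simp only [fun k => (inv k).2.2.1]
    exact hP.const_mul A
  · exact le_of_tendsto' (hP.sub_const A).norm fun k => by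
      linarith [(inv k).1, norm_nonneg (B k * B k - B k)]
  · exact hX.mem_of_tendsto (((ContinuousLinearMap.apply ℂ 𝔛 x).continuous.tendsto P).comp hP)
      (Eventually.of_forall fun k => (inv k).2.2.2 x hx)

theorem riesz (A A0 : 𝔛 →L[ℂ] 𝔛) (X : Submodule ℂ 𝔛) (δ : ℝ) (g₀ i : 𝔛)
    (hX : IsClosed (X : Set 𝔛)) (hA : ∀ x ∈ X, A x ∈ X) (h0 : A0 * A0 = A0) (h1 : ‖A0‖ ≤ 1)
    (hδ : δ ≤ 1 / 100) (h2 : ‖A - A0‖ ≤ δ) (hg : g₀ ∈ X) (hi : A0 i = i) (hi1 : ‖i‖ ≤ 1)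
    (hgi : ‖g₀ - i‖ ≤ δ) :
    ∃ g : ℕ → 𝔛, (∀ k, g k ∈ X) ∧ (∀ k, g k = A (g (k + 1))) ∧ (∀ k, ‖g k‖ ≤ 2 * 2 ^ k) ∧
      ‖g 0 - i‖ ≤ 31 * δ := by
  have hδ0 : 0 ≤ δ := (norm_nonneg _).trans h2
  obtain ⟨P, p1, p2, p3, p4⟩ := exists_idem A A0 X δ hX hA h0 h1 hδ h2
  let Y : Submodule ℂ 𝔛 := X ⊓ LinearMap.ker (P - 1 : 𝔛 →L[ℂ] 𝔛).toLinearMap
  have hY : ∀ x, x ∈ Y ↔ x ∈ X ∧ P x = x := fun x => by
    simp [Y, sub_eq_zero]
  have hYc : IsClosed (Y : Set 𝔛) := hX.inter (P - 1 : 𝔛 →L[ℂ] 𝔛).isClosed_ker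
  haveI : CompleteSpace Y := hYc.completeSpace_coe
  have hAY : ∀ x ∈ Y, A x ∈ Y := fun x hx => by
    rw [hY] at hx ⊢
    refine ⟨hA x hx.1, ?_⟩
    have := congrArg (fun T => T x) p2
    simpa [hx.2] using this
  let AY : Y →L[ℂ] Y := (A.comp Y.subtypeL).codRestrict Y fun x => hAY x x.2
  have hb : ∀ x : Y, ‖(x : 𝔛) - A x‖ ≤ 1 / 2 * ‖x‖ := fun x => by
    have e : (x : 𝔛) - A x = (P - A) x := by
      rw [ContinuousLinearMap.sub_apply, ((hY x).1 x.2).2]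
    rw [e]
    refine ((P - A).le_opNorm _).trans ?_
    change _ ≤ 1 / 2 * ‖(x : 𝔛)‖
    gcongr; linarith
  have hn : ‖1 - AY‖ < 1 := lt_of_le_of_lt (ContinuousLinearMap.opNorm_le_bound _ (by norm_num)
    fun x => hb x) (by norm_num : (1 / 2 : ℝ) < 1)
  have hsurj : ∀ y : Y, ∃ z : Y, A z = y ∧ ‖z‖ ≤ 2 * ‖y‖ := fun y => by
    let w := Units.oneSub (1 - AY) hn
    have hw : (w : Y →L[ℂ] Y) = AY := by simp [w]
    have h3 : AY ((↑w⁻¹ : Y →L[ℂ] Y) y) = y := by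
      rw [← hw]
      exact congrArg (fun T : Y →L[ℂ] Y => T y) w.mul_inv
    have h4 : A ((↑w⁻¹ : Y →L[ℂ] Y) y : Y) = y := congrArg Subtype.val h3
    refine ⟨_, h4, ?_⟩
    have h5 := hb ((↑w⁻¹ : Y →L[ℂ] Y) y)
    rw [h4] at h5
    have h6 := norm_add_le (((↑w⁻¹ : Y →L[ℂ] Y) y : 𝔛) - y) (y : 𝔛)
    rw [sub_add_cancel] at h6
    change ‖((↑w⁻¹ : Y →L[ℂ] Y) y : 𝔛)‖ ≤ 2 * ‖(y : 𝔛)‖
    change _ ≤ 1 / 2 * ‖((↑w⁻¹ : Y →L[ℂ] Y) y : 𝔛)‖ at h5
    linarith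
  choose R hR1 hR2 using hsurj
  have hy0 : P g₀ ∈ Y := (hY _).2 ⟨p4 _ hg, congrArg (fun T => T g₀) p1⟩
  have hg1 : ‖g₀‖ ≤ 1 + δ := by
    have := norm_add_le (g₀ - i) i
    rw [sub_add_cancel] at this
    linarith
  have hc : ‖P g₀ - i‖ ≤ 31 * δ := by
    have e : P g₀ - i = (P - A) g₀ + (A - A0) g₀ + A0 (g₀ - i) := by
      simp only [map_sub, hi, ContinuousLinearMap.sub_apply]; abel
    rw [e]
    have t1 : ‖(P - A) g₀‖ ≤ 28 * δ * (1 + δ) := ((P - A).le_opNorm _).trans (by gcongr)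
    have t2 : ‖(A - A0) g₀‖ ≤ δ * (1 + δ) := ((A - A0).le_opNorm _).trans (by gcongr)
    have t3 : ‖A0 (g₀ - i)‖ ≤ 1 * δ := (A0.le_opNorm _).trans (by gcongr)
    have := norm_add₃_le (a := (P - A) g₀) (b := (A - A0) g₀) (c := A0 (g₀ - i))
    nlinarith
  let y : ℕ → Y := fun k => R^[k] ⟨P g₀, hy0⟩
  have hy : ∀ k, y (k + 1) = R (y k) := fun k => Function.iterate_succ_apply' _ _ _
  refine ⟨fun k => y k, fun k => ((hY _).1 (y k).2).1, fun k => ?_, fun k => ?_, hc⟩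
  · change (y k : 𝔛) = A (y (k + 1))
    rw [hy, hR1]
  · induction k with
    | zero =>
      change ‖P g₀‖ ≤ _
      have := norm_add_le (P g₀ - i) i
      rw [sub_add_cancel] at this
      linarith
    | succ k ih =>
      have := hR2 (y k)
      rw [← hy] at this
      change ‖(y (k + 1) : 𝔛)‖ ≤ 2 * ‖(y k : 𝔛)‖ at this
      change ‖(y (k + 1) : 𝔛)‖ ≤ _
      change ‖(y k : 𝔛)‖ ≤ _ at ih
      rw [pow_succ]
      linarith

end Crest.Agent.KN
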