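import Crest.Agent.KN.Defs2

/-! Row 78 (S0103), job SCAL1: the scalar Fourier data. -/

set_option autoImplicit false

namespace Crest.Agent.KN

open scoped BigOperators ComplexConjugate FourierTransform SchwartzMap ContDiff Real Convolution
open Filter Topology MeasureTheory

namespace S1

/-- Smooth functions vanishing outside `(-r, r)`. -/
def Gd (r : ℝ) (f : ℝ → ℂ) : Prop := ContDiff ℝ ∞ f ∧ ∀ s, r ≤ |s| → f s = 0

theorem Gd.hcs {r : ℝ} {f : ℝ → ℂ} (h : Gd r f) : HasCompactSupport f := by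
  refine HasCompactSupport.intro (isCompact_Icc (a := -r) (b := r)) fun s hs => h.2 s ?_
  by_contra hc
  exact hs (abs_le.1 (not_le.1 hc).le)

noncomputable def Gd.sch {r : ℝ} {f : ℝ → ℂ} (h : Gd r f) : 𝓢(ℝ, ℂ) := h.hcs.toSchwartzMap h.1

theorem Gd.mono {r r' : ℝ} {f : ℝ → ℂ} (h : Gd r f) (hr : r ≤ r') : Gd r' f :=
  ⟨h.1, fun s hs => h.2 s (hr.trans hs)⟩

theorem Gd.mul {r : ℝ} {f g : ℝ → ℂ} (h : Gd r f) (hg : ContDiff ℝ ∞ g) :
    Gd r (fun s => f s * g s) :=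
  ⟨h.1.mul hg, fun s hs => by simp [h.2 s hs]⟩

theorem Gd.integrable {r : ℝ} {f : ℝ → ℂ} (h : Gd r f) : Integrable f :=
  h.1.continuous.integrable_of_hasCompactSupport h.hcs

theorem Gd.bigO {r : ℝ} {f : ℝ → ℂ} (h : Gd r f) (b : ℝ) :
    (fun n : ℤ => 𝓕 f n) =O[cofinite] fun n : ℤ => |(n : ℝ)| ^ b := by
  have := ((𝓕 h.sch).isBigO_cocompact_rpow b).comp_tendsto Int.tendsto_coe_cofinite
  exact this

theorem Gd.summable {r : ℝ} {f : ℝ → ℂ} (h : Gd r f) : Summable fun n : ℤ => ‖𝓕 f n‖ :=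
  summable_of_isBigO (Real.summable_abs_int_rpow one_lt_two) (h.bigO (-2)).norm_left

theorem Gd.summable_mom {r : ℝ} {f : ℝ → ℂ} (h : Gd r f) :
    Summable fun n : ℤ => |(n : ℝ)| * ‖𝓕 f n‖ := by
  refine summable_of_isBigO (Real.summable_abs_int_rpow one_lt_two) ?_
  have h1 := (Asymptotics.isBigO_refl (fun n : ℤ => |(n : ℝ)|) cofinite).mul
    (h.bigO (-3)).norm_left
  refine h1.trans (Asymptotics.IsBigO.of_bound 1 ?_)
  filter_upwards with n
  rcases eq_or_ne n 0 with rfl | hn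
  · simp
  · have : 0 < |(n : ℝ)| := abs_pos.2 (by exact_mod_cast hn)
    rw [one_mul, show (-2 : ℝ) = 1 + -3 by norm_num, Real.rpow_add this, Real.rpow_one]

theorem Gd.inv {r : ℝ} {f : ℝ → ℂ} (h : Gd r f) {x : ℝ} (hx : |x| + r ≤ 1) :
    ∑' n : ℤ, 𝓕 f n * Complex.exp (2 * π * Complex.I * (n * x)) = f x := by
  have h1 := h.sch.tsum_eq_tsum_fourier x
  rw [tsum_eq_single 0] at h1
  · simp only [Int.cast_zero, add_zero] at h1
    refine Eq.trans ?_ h1.symm
    refine tsum_congr fun n => ?_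
    rw [fourier_coe_apply]
    congr 2
    push_cast
    ring
  · intro n hn
    apply h.2
    have h2 : (1 : ℝ) ≤ |(n : ℝ)| := by exact_mod_cast Int.one_le_abs hn
    have h3 : |(n : ℝ)| ≤ |x + n| + |x| := by
      have := abs_sub (x + n) x
      simpa using this
    linarith

theorem fourier_eq (f : ℝ → ℂ) (w : ℝ) :
    𝓕 f w = ∫ s : ℝ, Complex.exp (-(2 * π * Complex.I * (s * w))) * f s := by
  rw [Real.fourier_real_eq_integral_exp_smul]
  refine integral_congr_ae (Eventually.of_forall fun s => ?_)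
  simp only [smul_eq_mul]
  congr 2
  push_cast
  ring

theorem norm_exp_I (t : ℝ) (z : ℂ) (h : z = Complex.I * t) : ‖Complex.exp z‖ = 1 := by
  rw [h, mul_comm]; exact Complex.norm_exp_ofReal_mul_I t

theorem key {f g : ℝ → ℂ} (hf : Gd (1 / 4) f) (hg : Gd (1 / 4) g) {y : ℝ} (hy : |y| ≤ 1 / 4)
    (n m : ℤ) :
    ∑' k : ℤ, 𝓕 f ((n - k : ℤ) : ℝ) * 𝓕 g ((k - m : ℤ) : ℝ) *
        Complex.exp (2 * π * Complex.I * (y * k)) =
      ∫ s : ℝ, g s * f (s - y) * Complex.exp (2 * π * Complex.I * (s * m + (y - s) * n)) := by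
  set F : ℤ → ℝ → ℂ := fun k s => 𝓕 f ((n - k : ℤ) : ℝ) *
    (Complex.exp (-(2 * π * Complex.I * (s * ((k - m : ℤ) : ℝ)))) * g s) *
      Complex.exp (2 * π * Complex.I * (y * k)) with hF
  have hn : ∀ k s, ‖F k s‖ = ‖𝓕 f ((n - k : ℤ) : ℝ)‖ * ‖g s‖ := by
    intro k s
    simp only [hF, norm_mul]
    rw [norm_exp_I (-(2 * π * (s * ((k - m : ℤ) : ℝ)))) _ (by push_cast; ring),
      norm_exp_I (2 * π * (y * k)) _ (by push_cast; ring)]
    ring
  have hint : ∀ k, Integrable (F k) := by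
    intro k
    refine Continuous.integrable_of_hasCompactSupport ?_ ?_
    · have := hg.1.continuous
      simp only [hF]
      fun_prop
    · exact (hg.hcs.mul_left.mul_left).mul_right
  have hsf : Summable fun k : ℤ => ‖𝓕 f ((n - k : ℤ) : ℝ)‖ :=
    (Equiv.subLeft n).summable_iff.2 hf.summable
  have hsum : Summable fun k => ∫ s, ‖F k s‖ := by
    simp only [hn, integral_const_mul]
    exact hsf.mul_right _
  have h1 := (hasSum_integral_of_summable_integral_norm hint hsum).tsum_eq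
  have h2 : ∀ k, ∫ s, F k s = 𝓕 f ((n - k : ℤ) : ℝ) * 𝓕 g ((k - m : ℤ) : ℝ) *
      Complex.exp (2 * π * Complex.I * (y * k)) := by
    intro k
    simp only [hF]
    rw [integral_mul_const, integral_const_mul, fourier_eq g]
  simp only [h2] at h1
  rw [h1]
  refine integral_congr_ae (Eventually.of_forall fun s => ?_)
  by_cases hs : 1 / 4 ≤ |s|
  · simp [hF, hg.2 s hs]
  · have h3 : |s - y| + 1 / 4 ≤ 1 := by
      have := abs_sub s y
      linarith [not_le.1 hs]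
    have h4 := hf.inv h3
    rw [← (Equiv.subLeft n).tsum_eq] at h4
    beta_reduce
    rw [← h4, ← tsum_mul_left, ← tsum_mul_right]
    refine tsum_congr fun k => ?_
    simp only [hF, Equiv.subLeft_apply]
    have : Complex.exp (-(2 * π * Complex.I * (s * ((k - m : ℤ) : ℝ)))) *
        Complex.exp (2 * π * Complex.I * (y * k)) =
        Complex.exp (2 * π * Complex.I * (((n - k : ℤ) : ℂ) * ((s - y : ℝ) : ℂ))) *
          Complex.exp (2 * π * Complex.I * (s * m + (y - s) * n)) := by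
      rw [← Complex.exp_add, ← Complex.exp_add]
      congr 1
      push_cast
      ring
    calc _ = 𝓕 f ((n - k : ℤ) : ℝ) * g s * (Complex.exp (-(2 * π * Complex.I *
          (s * ((k - m : ℤ) : ℝ)))) * Complex.exp (2 * π * Complex.I * (y * k))) := by ring
      _ = _ := by rw [this]; ring

theorem conv {f g : ℝ → ℂ} (hf : Gd (1 / 4) f) (hg : Gd (1 / 4) g) (n : ℤ) :
    cv (fun k => 𝓕 g k) (fun k => 𝓕 f k) n = 𝓕 (fun s => g s * f s) n := by
  have h := key hf hg (y := 0) (by simp) n 0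
  unfold cv
  rw [fourier_eq]
  simp only [Complex.ofReal_zero, zero_mul, mul_zero, Complex.exp_zero, mul_one, sub_zero,
    Int.cast_zero, zero_add, zero_sub] at h
  refine Eq.trans (tsum_congr fun k => mul_comm _ _) (h.trans ?_)
  refine integral_congr_ae (Eventually.of_forall fun s => ?_)
  beta_reduce
  rw [mul_comm]
  congr 2
  push_cast
  ring

theorem pos_sq {r : ℝ} {f : ℝ → ℂ} (h : Gd r f) (hr : r ≤ 1) (h0 : f 0 ≠ 0) :
    (Summable fun n : ℤ => ‖𝓕 f n‖ ^ 2) ∧ 0 < ∑' n : ℤ, ‖𝓕 f n‖ ^ 2 := by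
  have hs : Summable fun n : ℤ => ‖𝓕 f n‖ ^ 2 := by
    have := (h.summable.mul_of_nonneg h.summable (fun _ => norm_nonneg _)
      (fun _ => norm_nonneg _)).comp_injective (i := fun n : ℤ => (n, n))
      (fun a b hab => (Prod.ext_iff.1 hab).1)
    simpa [sq, Function.comp_def] using this
  refine ⟨hs, ?_⟩
  by_contra hc
  have h1 : ∀ n : ℤ, 𝓕 f n = 0 := by
    intro n
    have := hs.le_tsum n (fun _ _ => sq_nonneg _)
    have h2 : ‖𝓕 f n‖ ^ 2 ≤ 0 := this.trans (not_lt.1 hc)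
    simpa using le_antisymm h2 (sq_nonneg _)
  have := h.inv (x := 0) (by simpa using hr)
  simp [h1] at this
  exact h0 this.symm

theorem exists_bump (a b : ℝ) (ha : 0 < a) (hab : a < b) :
    ∃ φ : ℝ → ℝ, Gd b (fun s => (φ s : ℂ)) ∧ (∀ s, φ (-s) = φ s) ∧ ∀ s, |s| ≤ a → φ s = 1 := by
  let c : ContDiffBump (0 : ℝ) := ⟨a, b, ha, hab⟩
  refine ⟨c, ⟨Complex.ofRealCLM.contDiff.comp c.contDiff, fun s hs => ?_⟩, c.neg, fun s hs => ?_⟩
  · show ((c s : ℝ) : ℂ) = 0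
    rw [c.zero_of_le_dist (by simpa using hs)]; simp
  · exact c.one_of_mem_closedBall (by simpa using hs)

theorem fourier_even {f : ℝ → ℂ} (he : ∀ s, f (-s) = f s) (w : ℝ) : 𝓕 f (-w) = 𝓕 f w := by
  rw [fourier_eq, fourier_eq, ← integral_neg_eq_self]
  refine integral_congr_ae (Eventually.of_forall fun s => ?_)
  beta_reduce
  rw [he]
  congr 2
  push_cast
  ring

theorem fourier_real {φ : ℝ → ℝ} (he : ∀ s, φ (-s) = φ s) (w : ℝ) :
    conj (𝓕 (fun s => (φ s : ℂ)) w) = 𝓕 (fun s => (φ s : ℂ)) w := by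
  conv_rhs => rw [← fourier_even (fun s => by rw [he])]
  rw [fourier_eq, fourier_eq, ← integral_conj]
  refine integral_congr_ae (Eventually.of_forall fun s => ?_)
  beta_reduce
  rw [map_mul, Complex.conj_ofReal, ← Complex.exp_conj]
  congr 2
  simp [Complex.conj_ofReal, map_ofNat]

theorem fourier_mul_const (f : ℝ → ℂ) (c : ℂ) (w : ℝ) :
    𝓕 (fun s => f s * c) w = 𝓕 f w * c := by
  rw [fourier_eq, fourier_eq, ← integral_mul_const]
  simp only [mul_assoc]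

theorem exists_B : ∃ (B : ℝ → ℂ) (bb : ℤ → ℝ), Gd (1 / 8) B ∧ (∀ n : ℤ, 𝓕 B n = bb n) ∧
    (∀ n, 0 ≤ bb n) ∧ (∀ n, bb (-n) = bb n) ∧ HasSum bb 1 := by
  obtain ⟨φ, hφ, he, h1⟩ := exists_bump (1 / 32) (1 / 16) (by norm_num) (by norm_num)
  set ψ : ℝ → ℂ := fun s => (φ s : ℂ) with hψ
  obtain ⟨hs, hZ⟩ := pos_sq hφ (by norm_num) (by simp [hψ, h1 0 (by norm_num)])
  set Z := ∑' n : ℤ, ‖𝓕 ψ n‖ ^ 2
  have hB : Gd (1 / 8) (ψ ⋆[ContinuousLinearMap.mul ℂ ℂ] ψ) := by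
    have hcd := hφ.hcs.contDiff_convolution_left (μ := volume) (ContinuousLinearMap.mul ℝ ℂ) hφ.1
      hφ.integrable.locallyIntegrable
    refine ⟨hcd, fun s hs => ?_⟩
    rw [convolution_def]
    refine integral_eq_zero_of_ae (Eventually.of_forall fun t => ?_)
    by_cases ht : 1 / 16 ≤ |t|
    · simp [hφ.2 t ht]
    · have : 1 / 16 ≤ |s - t| := by
        have := abs_sub_abs_le_abs_sub s t
        linarith [not_le.1 ht]
      simp [hφ.2 _ this]
  refine ⟨fun s => (ψ ⋆[ContinuousLinearMap.mul ℂ ℂ] ψ) s * ((Z⁻¹ : ℝ) : ℂ),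
    fun n => ‖𝓕 ψ n‖ ^ 2 * Z⁻¹, hB.mul contDiff_const, fun n => ?_, fun n => by positivity,
    fun n => ?_, ?_⟩
  · have h2 := Real.fourier_mul_convolution_eq hφ.integrable hφ.integrable (n : ℝ)
    rw [fourier_mul_const, h2]
    push_cast
    rw [← Complex.conj_mul', fourier_real he]
  · beta_reduce
    rw [Int.cast_neg, fourier_even (fun s => by simp [hψ, he])]
  · have := hs.hasSum.mul_right Z⁻¹
    rwa [mul_inv_cancel₀ hZ.ne'] at this

theorem tail {bb : ℤ → ℝ} (hs : Summable bb) (h0 : ∀ n, 0 ≤ bb n) {t η : ℝ} (ht : 0 < t)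
    (hη : 0 < η) : ∃ τ₀ : ℝ, 0 < τ₀ ∧ ∀ τ, 0 < τ → τ ≤ τ₀ →
      (∑' n : ℤ, if t < |τ * n| then bb n else 0) ≤ η := by
  obtain ⟨s, hs'⟩ := (tendsto_order.1 (tendsto_tsum_compl_atTop_zero bb)).2 η hη |>.exists
  obtain ⟨R, hR⟩ : ∃ R : ℝ, 0 < R ∧ ∀ n ∈ s, |(n : ℝ)| ≤ R :=
    ⟨1 + ∑ n ∈ s, |(n : ℝ)|, by positivity, fun n hn => by
      have := Finset.single_le_sum (f := fun n : ℤ => |(n : ℝ)|) (fun _ _ => abs_nonneg _) hn
      linarith⟩
  refine ⟨t / R, div_pos ht hR.1, fun τ hτ hτ' => le_trans ?_ hs'.le⟩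
  rw [show (∑' b : { x // x ∉ s }, bb b) = ∑' n : ℤ, Set.indicator {x | x ∉ s} bb n from
    tsum_subtype {x | x ∉ s} bb]
  refine Summable.tsum_le_tsum (fun n => ?_) ?_ (hs.indicator _)
  · by_cases hn : n ∈ s
    · have : ¬ t < |τ * n| := by
        rw [abs_mul, abs_of_pos hτ, not_lt]
        calc τ * |(n : ℝ)| ≤ t / R * R :=
              mul_le_mul hτ' (hR.2 n hn) (abs_nonneg _) (div_pos ht hR.1).le
          _ = t := div_mul_cancel₀ _ hR.1.ne'
      rw [if_neg this]; simp [Set.indicator, hn]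
    · simp only [Set.indicator, Set.mem_setOf_eq, hn, not_false_eq_true, if_true]
      split_ifs
      · exact le_rfl
      · exact h0 n
  · refine Summable.of_nonneg_of_le (fun n => ?_) (fun n => ?_) hs
    · split_ifs
      · exact h0 n
      · exact le_rfl
    · split_ifs
      · exact le_rfl
      · exact h0 n

end S1

open S1 in
theorem jobSCAL1 : JobSCAL1 := by
  intro T₀ t η hT ht hη
  obtain ⟨B, bb, hB, hBb, h0, hev, hsum⟩ := exists_B
  obtain ⟨χ, hχ, -, hχ1⟩ := exists_bump (1 / 8) (1 / 4) (by norm_num) (by norm_num)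
  obtain ⟨τ₀, hτ₀, htail⟩ := tail hsum.summable h0 ht hη
  set τ : ℝ := min (min τ₀ t) (1 / T₀) with hτdef
  have hτ : 0 < τ := lt_min (lt_min hτ₀ ht) (by positivity)
  set lam : ℝ := π / τ with hlam
  have hE : ∀ c : ℝ, ContDiff ℝ ∞ fun s : ℝ => Complex.exp ((c * s : ℝ) : ℂ) := fun c =>
    (Complex.contDiff_exp (𝕜 := ℝ)).comp
      (Complex.ofRealCLM.contDiff.comp (contDiff_const.mul contDiff_id))
  have hg₀ : Gd (1 / 4) fun s => (χ s : ℂ) * Complex.exp ((lam * s : ℝ) : ℂ) := hχ.mul (hE lam)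
  obtain ⟨hs, hZ⟩ := pos_sq hg₀ (by norm_num) (by simp [hχ1 0 (by norm_num)])
  set Z := ∑' n : ℤ, ‖𝓕 (fun s => (χ s : ℂ) * Complex.exp ((lam * s : ℝ) : ℂ)) n‖ ^ 2
  set γ : ℝ := (√Z)⁻¹ with hγ
  have hγ0 : 0 < γ := inv_pos.2 (Real.sqrt_pos.2 hZ)
  have hγc : (γ : ℂ) ≠ 0 := by exact_mod_cast hγ0.ne'
  set g : ℝ → ℂ := fun s => (χ s : ℂ) * Complex.exp ((lam * s : ℝ) : ℂ) * γ with hg
  have hgd : Gd (1 / 4) g := hg₀.mul contDiff_const
  have hB4 : Gd (1 / 4) B := hB.mono (by norm_num)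
  set μf : ℝ → ℂ := fun s => B s * Complex.exp ((-lam * s : ℝ) : ℂ) * (γ : ℂ)⁻¹ with hμf
  have hμd : Gd (1 / 4) μf := (hB4.mul (hE (-lam))).mul contDiff_const
  set Cf : ℝ → ℂ := fun s => B s * Complex.exp ((lam * s : ℝ) : ℂ) * γ with hCf
  have hCd : Gd (1 / 4) Cf := (hB4.mul (hE lam)).mul contDiff_const
  have hBχ : ∀ s, B s * (χ s : ℂ) = B s := by
    intro s
    by_cases hs : 1 / 8 ≤ |s|
    · simp [hB.2 s hs]
    · simp [hχ1 s (not_le.1 hs).le]
  have hc : ∀ n : ℤ, cv (fun n => (bb n : ℂ)) (fun n => 𝓕 g n) n = 𝓕 Cf n := by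
    intro n
    rw [show (fun n => (bb n : ℂ)) = fun k : ℤ => 𝓕 B k from funext fun k => (hBb k).symm,
      conv hgd hB4]
    refine congrArg (fun f : ℝ → ℂ => 𝓕 f (n : ℝ)) (funext fun s => ?_)
    simp only [hg, hCf, ← mul_assoc, hBχ]
  refine ⟨τ, bb, fun n => 𝓕 g n, fun n => 𝓕 μf n, hτ,
    (min_le_left _ _).trans (min_le_right _ _), h0, hev, hsum, ?_, ?_, hμd.summable, fun n => ?_,
    htail τ hτ ((min_le_left _ _).trans (min_le_left _ _)), fun ν hν n m => ?_⟩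
  · have := hB.summable_mom
    simpa only [hBb, Complex.norm_real, Real.norm_eq_abs, abs_of_nonneg (h0 _)] using this
  · have := hs.hasSum.mul_right (γ ^ 2)
    rw [show Z * γ ^ 2 = 1 by
      rw [hγ, inv_pow, Real.sq_sqrt hZ.le, mul_inv_cancel₀ hZ.ne']] at this
    have e : (fun n : ℤ => ‖𝓕 g n‖ ^ 2) = fun n : ℤ =>
        ‖𝓕 (fun s => (χ s : ℂ) * Complex.exp ((lam * s : ℝ) : ℂ)) n‖ ^ 2 * γ ^ 2 := by
      funext n
      rw [hg, fourier_mul_const, norm_mul, mul_pow, Complex.norm_real, Real.norm_eq_abs, sq_abs]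
    rw [e]; exact this
  · rw [conv hgd hμd, ← hBb]
    refine congrArg (fun f : ℝ → ℂ => 𝓕 f (n : ℝ)) (funext fun s => ?_)
    simp only [hg, hμf]
    have : Complex.exp ((-lam * s : ℝ) : ℂ) * Complex.exp ((lam * s : ℝ) : ℂ) = 1 := by
      rw [← Complex.exp_add, ← Complex.ofReal_add]; simp
    calc _ = B s * (χ s : ℂ) * (Complex.exp ((-lam * s : ℝ) : ℂ) *
          Complex.exp ((lam * s : ℝ) : ℂ)) * ((γ : ℂ)⁻¹ * γ) := by ring
      _ = B s := by rw [this, inv_mul_cancel₀ hγc, hBχ]; ring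
  · set y : ℝ := ν * τ / (2 * π) with hy
    have hy4 : |y| ≤ 1 / 4 := by
      rw [hy, abs_div, abs_mul, abs_of_pos hτ, abs_of_pos Real.two_pi_pos, div_le_iff₀ Real.two_pi_pos]
      have h1 : τ ≤ 1 / T₀ := min_le_right _ _
      have h2 : |ν| * τ ≤ T₀ * (1 / T₀) := by gcongr
      rw [mul_one_div_cancel hT.ne'] at h2
      linarith [Real.pi_gt_three]
    have hexp : ∀ k : ℤ, Complex.exp (Complex.I * (ν * τ * k)) =
        Complex.exp (2 * π * Complex.I * (y * k)) := by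
      intro k
      congr 1
      have : (π : ℂ) ≠ 0 := by exact_mod_cast Real.pi_ne_zero
      rw [hy]; push_cast; field_simp
    have k1 := key hB4 hCd hy4 n m
    have k2 := key hCd hB4 hy4 n m
    simp only [hc, hexp]
    simp only [← hBb]
    rw [k1, show (∑' k : ℤ, 𝓕 B ((k - m : ℤ) : ℝ) * 𝓕 Cf ((n - k : ℤ) : ℝ) *
      Complex.exp (2 * π * Complex.I * (y * k))) = _ from
      (tsum_congr fun k => by rw [mul_comm (𝓕 B _)]).trans k2, ← integral_const_mul]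
    refine integral_congr_ae (Eventually.of_forall fun s => ?_)
    simp only [hCf]
    have : Complex.exp ((lam * s : ℝ) : ℂ) =
        Complex.exp (ν / 2) * Complex.exp ((lam * (s - y) : ℝ) : ℂ) := by
      rw [← Complex.exp_add]
      congr 1
      have h1 : (π : ℂ) ≠ 0 := by exact_mod_cast Real.pi_ne_zero
      have h2 : (τ : ℂ) ≠ 0 := by exact_mod_cast hτ.ne'
      rw [hy, hlam]; push_cast; field_simp; ring
    rw [this]
    ring

end Crest.Agent.KN
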