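import Crest.Agent.KN.Defs2

/-! Job SCAL2: the slot vector. -/

set_option autoImplicit false

namespace Crest.Agent.KN
open Filter Topology Crest.Agent.KK

namespace Scal2X

noncomputable def S (k : ℤ) : L2 ℤ ℂ →L[ℂ] L2 ℤ ℂ := pm ℂ (Equiv.addRight k)

lemma S_apply (k : ℤ) (ξ : L2 ℤ ℂ) (n : ℤ) : S k ξ n = ξ (n - k) := by
  rw [S, wp_apply _ (bdd_const 1)]
  simp [sub_eq_add_neg]

lemma norm_S (k : ℤ) (ξ : L2 ℤ ℂ) : ‖S k ξ‖ ≤ ‖ξ‖ := by
  have := norm_wp_le (K := ℂ) (Equiv.addRight k) (d := fun _ => 1) zero_le_one fun _ => by simp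
  simpa using (S k).le_of_opNorm_le this ξ

noncomputable def cL (a : ℤ → ℂ) (ξ : L2 ℤ ℂ) : L2 ℤ ℂ := ∑' k, a k • S k ξ

lemma hs {a : ℤ → ℂ} (ha : Summable fun k => ‖a k‖) (ξ : L2 ℤ ℂ) :
    HasSum (fun k => a k • S k ξ) (cL a ξ) :=
  (Summable.of_norm_bounded (ha.mul_right ‖ξ‖) fun k => by
    rw [norm_smul]; exact mul_le_mul_of_nonneg_left (norm_S k ξ) (norm_nonneg _)).hasSum

lemma cL_apply {a : ℤ → ℂ} (ha : Summable fun k => ‖a k‖) (ξ : L2 ℤ ℂ) (n : ℤ) :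
    cL a ξ n = cv a ξ n := by
  have := ((hs ha ξ).mapL (ev n)).tsum_eq
  simp only [map_smul, ev_apply, S_apply, smul_eq_mul] at this
  exact this.symm

lemma hsq (ξ : L2 ℤ ℂ) : HasSum (fun n => ‖ξ n‖ ^ 2) (‖ξ‖ ^ 2) := by
  simpa using lp.hasSum_norm (p := 2) (by norm_num) ξ

noncomputable def ind (a b : ℤ) : L2 ℤ ℂ := ∑ j ∈ Finset.Ico a b, sg j 1

lemma ind_apply (a b n : ℤ) : ind a b n = if a ≤ n ∧ n < b then 1 else 0 := by
  rw [ind, ← ev_apply, map_sum]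
  simp only [ev_apply, ← Finset.mem_Ico]
  split_ifs with h
  · rw [Finset.sum_eq_single_of_mem n h fun j _ hj => sg_apply_ne hj.symm _, sg_apply_self]
  · exact Finset.sum_eq_zero fun j hj => sg_apply_ne (by rintro rfl; exact h hj) _

lemma norm_ind (a b : ℤ) : ‖ind a b‖ = √((b - a).toNat) := by
  have := (hsq (ind a b)).unique (hasSum_sum_of_ne_finset_zero (s := Finset.Ico a b)
    fun n hn => by rw [ind_apply, if_neg (by simpa using hn)]; simp)
  rw [Finset.sum_congr rfl (g := fun _ => (1 : ℝ)) fun n hn => by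
    rw [ind_apply, if_pos (by simpa using hn)]; simp] at this
  rw [← Real.sqrt_sq (norm_nonneg (ind a b)), this]
  simp

lemma shift (N : ℕ) (k : ℤ) : ‖S k (ind 0 N) - ind 0 N‖ ≤ 2 * √|(k : ℝ)| := by
  have h : ∀ a b c d : ℤ, b - a = |k| → d - c = |k| → ‖ind a b - ind c d‖ ≤ 2 * √|(k : ℝ)| := by
    intro a b c d h1 h2
    have : ((|k|.toNat : ℕ) : ℝ) = |(k : ℝ)| := by
      rw [← Int.cast_natCast, Int.toNat_of_nonneg (abs_nonneg k), Int.cast_abs]
    refine (norm_sub_le _ _).trans (le_of_eq ?_)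
    rw [norm_ind, norm_ind, h1, h2, this, two_mul]
  rcases le_total 0 k with hk | hk
  · convert h N (N + k) 0 k (by rw [abs_of_nonneg hk]; ring) (by rw [abs_of_nonneg hk]; ring)
      using 2
    ext n
    simp only [lp.coeFn_sub, Pi.sub_apply, S_apply, ind_apply]
    split_ifs <;> first | omega | simp
  · convert h k 0 (N + k) N (by rw [abs_of_nonpos hk]; ring) (by rw [abs_of_nonpos hk]; ring)
      using 2
    ext n
    simp only [lp.coeFn_sub, Pi.sub_apply, S_apply, ind_apply]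
    split_ifs <;> first | omega | simp

lemma cv_fs (μ : ℤ →₀ ℂ) (κ : ℤ → ℂ) (n : ℤ) :
    cv μ κ n = Finsupp.linearCombination ℂ (fun m => κ (n - m)) μ := by
  rw [cv, Finsupp.linearCombination_apply, Finsupp.sum, tsum_eq_sum (s := μ.support)]
  · rfl
  · intro m hm
    rw [Finsupp.notMem_support_iff.1 hm, zero_mul]

lemma conc (N : ℕ) (x : L2 ℤ ℂ) {ε : ℝ} (hε : 0 < ε) (h : ‖x - ind 0 N‖ ≤ 3 * ε * √N) :
    (1 - 10 * ε) * N ≤ ∑ n ∈ Finset.Ico (0 : ℤ) N, ‖x n‖ ^ 2 := by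
  have h1 := (pow_le_pow_left₀ (norm_nonneg _) h 2)
  rw [mul_pow, Real.sq_sqrt (Nat.cast_nonneg N)] at h1
  have h2 := (sum_le_hasSum (Finset.Ico (0 : ℤ) N) (fun _ _ => by positivity)
    (hsq (x - ind 0 N))).trans h1
  have h3 : ∑ n ∈ Finset.Ico (0 : ℤ) N, (ε * (1 - ε) - ‖(x - ind 0 N : L2 ℤ ℂ) n‖ ^ 2) ≤
      ∑ n ∈ Finset.Ico (0 : ℤ) N, ε * ‖x n‖ ^ 2 := Finset.sum_le_sum fun n hn => by
    rw [lp.coeFn_sub, Pi.sub_apply, ind_apply, if_pos (by simpa using hn)]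
    have a1 : 1 ≤ ‖x n‖ + ‖x n - 1‖ := by
      simpa using norm_sub_le (x n) (x n - 1)
    have a2 : 1 - 2 * ‖x n - 1‖ ≤ ‖x n‖ ^ 2 := by
      nlinarith [norm_nonneg (x n), norm_nonneg (x n - 1), sq_nonneg (‖x n‖ - 1)]
    nlinarith [sq_nonneg (‖x n - 1‖ - ε)]
  rw [Finset.sum_sub_distrib, ← Finset.mul_sum (a := ε) (f := fun n => ‖x n‖ ^ 2)] at h3
  simp only [Finset.sum_const, Int.card_Ico, sub_zero, Int.toNat_natCast, nsmul_eq_mul] at h3
  refine le_of_mul_le_mul_left ?_ hε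
  nlinarith

end Scal2X

open Scal2X in
theorem jobSCAL (h : JobSCAL1) : JobSCAL := by
  intro T₀ t₁ η hT ht hη
  obtain ⟨ε, hε, e1, e2⟩ : ∃ ε : ℝ, 0 < ε ∧ 20 * ε ≤ 1 ∧ 20 * ε ≤ η :=
    ⟨min 1 η / 20, by positivity, by linarith [min_le_left 1 η], by linarith [min_le_right 1 η]⟩
  obtain ⟨τ, bb, κ, μ₀, hτ, τt, b0, b1, b2, b3, k1, m1, m2, tl, kms⟩ :=
    h T₀ (ε ^ 2 * t₁ / 32) (ε / 4) hT (by positivity) (by positivity)
  set t := ε ^ 2 * t₁ / 32 with htd
  set N := ⌊t₁ / τ⌋₊ with hN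
  have n1 : τ * N ≤ t₁ := by rw [← le_div_iff₀' hτ]; exact Nat.floor_le (by positivity)
  have n2 : t₁ < τ * (N + 1) := by rw [← div_lt_iff₀' hτ]; exact Nat.lt_floor_add_one _
  have t2 : t ≤ t₁ / 2 := by
    have : ε ^ 2 ≤ 1 := by nlinarith
    rw [htd]; nlinarith
  have n3 : t₁ ≤ 2 * (τ * N) := by linarith
  have n4 : (0 : ℝ) < N := by
    by_contra hc
    nlinarith
  have sN : 0 < √(N : ℝ) := Real.sqrt_pos.2 n4
  have nI : ‖ind 0 N‖ = √N := by simp [norm_ind]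
  have bn : ∀ k, ‖(bb k : ℂ)‖ = bb k := fun k => by simp [abs_of_nonneg (b0 k)]
  have bs : Summable fun k => ‖(bb k : ℂ)‖ := by simpa only [bn] using b2.summable
  have con : ∀ x y, ‖cL (fun k => bb k) x - cL (fun k => bb k) y‖ ≤ ‖x - y‖ := fun x y => by
    have := ((hs bs x).sub (hs bs y)).norm_le_of_bounded (b2.mul_right ‖x - y‖) fun k => by
      rw [← smul_sub, ← map_sub, norm_smul, bn]
      exact mul_le_mul_of_nonneg_left (norm_S _ _) (b0 k)
    rwa [one_mul] at this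
  have a1 : ‖cL (fun k => bb k) (ind 0 N) - ind 0 N‖ ≤ ε * √N := by
    have s1 : Summable fun n : ℤ => if t < |τ * n| then bb n else 0 :=
      Summable.of_nonneg_of_le (fun n => by split_ifs; exacts [b0 n, le_rfl])
        (fun n => by split_ifs; exacts [le_rfl, b0 n]) b2.summable
    have s2 := (Complex.hasSum_ofReal.2 b2).smul_const (ind 0 N)
    rw [Complex.ofReal_one, one_smul] at s2
    refine (((hs bs _).sub s2).norm_le_of_bounded
      ((b2.mul_right (ε / 2 * √N)).add (s1.hasSum.mul_right (2 * √N))) fun k => ?_).trans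
      (by nlinarith)
    rw [← smul_sub, norm_smul, bn]
    split_ifs with hk
    · have := norm_sub_le_of_le (norm_S k (ind 0 N)) (le_refl ‖ind 0 N‖)
      rw [nI] at this
      have := mul_le_mul_of_nonneg_left this (b0 k)
      have := mul_nonneg (b0 k) (mul_pos (half_pos hε) sN).le
      linarith
    · rw [zero_mul, add_zero]
      refine mul_le_mul_of_nonneg_left ((shift N k).trans ?_) (b0 k)
      have : √|(k : ℝ)| ≤ ε / 4 * √N := by
        rw [Real.sqrt_le_iff, mul_pow, Real.sq_sqrt n4.le]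
        refine ⟨by positivity, le_of_mul_le_mul_left ?_ hτ⟩
        rw [not_lt, abs_mul, abs_of_pos hτ] at hk
        nlinarith [mul_pos hε hε]
      linarith
  let κE : L2 ℤ ℂ := ⟨κ, memℓp_gen (by simpa using k1.summable)⟩
  have lim : Tendsto (fun F : Finset ℤ => ∑ j ∈ Finset.Ico (0 : ℤ) N,
      S j (∑ k ∈ F, μ₀ k • S k κE)) atTop (𝓝 (cL (fun k => bb k) (ind 0 N))) := by
    suffices e : cL (fun k => bb k) (ind 0 N) = ∑ j ∈ Finset.Ico (0 : ℤ) N, S j (cL μ₀ κE) by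
      rw [e]
      exact tendsto_finsetSum (Finset.Ico (0 : ℤ) N) fun j _ =>
        ((S j).continuous.tendsto _).comp (hs m1 κE)
    ext n
    rw [cL_apply bs, ← ev_apply, map_sum, cv, ← (Equiv.subLeft n).tsum_eq,
      tsum_eq_sum (s := Finset.Ico (0 : ℤ) N)]
    · refine Finset.sum_congr rfl fun j hj => ?_
      rw [ev_apply, S_apply, cL_apply m1]
      simp only [Equiv.subLeft_apply, sub_sub_cancel]
      rw [ind_apply, if_pos (by simpa using hj), mul_one]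
      exact (m2 _).symm
    · intro j hj
      simp only [Equiv.subLeft_apply, sub_sub_cancel]
      rw [ind_apply, if_neg (by simpa using hj), mul_zero]
  obtain ⟨F, hF⟩ := (Metric.tendsto_nhds.1 lim _ (mul_pos hε sN)).exists
  set u := ∑ j ∈ Finset.Ico (0 : ℤ) N, S j (∑ k ∈ F, μ₀ k • S k κE) with hu
  rw [dist_eq_norm] at hF
  have a2 : ‖u - ind 0 N‖ ≤ 2 * ε * √N :=
    (norm_sub_le_norm_sub_add_norm_sub _ (cL (fun k => bb k) (ind 0 N)) _).trans (by linarith)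
  have a3 : ‖cL (fun k => bb k) u - ind 0 N‖ ≤ 3 * ε * √N :=
    (norm_sub_le_norm_sub_add_norm_sub _ (cL (fun k => bb k) (ind 0 N)) _).trans
      (by linarith [con u (ind 0 N)])
  have a4 := abs_le.1 ((abs_norm_sub_norm_le _ _).trans a2)
  rw [nI] at a4
  have a5 : 0 < ‖u‖ := by nlinarith [a4.1]
  let μ : ℤ →₀ ℂ := ∑ j ∈ Finset.Ico (0 : ℤ) N, ∑ k ∈ F, Finsupp.single (j + k) (μ₀ k)
  have hμ : cv μ κ = u := funext fun n => by
    rw [cv_fs, hu, ← ev_apply]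
    simp only [μ, map_sum, Finsupp.linearCombination_single, map_smul, ev_apply, S_apply, sub_sub]
    rfl
  refine ⟨τ, ⟨bb, κ, μ, b0, b1, b2, b3, k1, ?_⟩, Finset.Ico 0 N, hτ, fun n hn => ?_, ?_, kms⟩
  · by_contra hc
    simp only [hμ, not_exists, not_not] at hc
    exact a5.ne' (norm_eq_zero.2 (lp.ext (funext hc)))
  · have := Finset.mem_Ico.1 hn
    have c1 : (0 : ℝ) ≤ n := by exact_mod_cast this.1
    have c2 : (n : ℝ) ≤ N := by exact_mod_cast this.2.le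
    rw [abs_of_nonneg (by positivity)]
    nlinarith
  · simp only [Sc.w, Sc.u, hμ, (hsq u).tsum_eq, ← cL_apply bs]
    rw [← Finset.sum_div, le_div_iff₀ (by positivity)]
    refine le_trans ?_ (conc N _ hε a3)
    have c1 : ‖u‖ ^ 2 ≤ (1 + 2 * ε) ^ 2 * N := by
      rw [← Real.sq_sqrt n4.le, ← mul_pow]
      exact pow_le_pow_left₀ a5.le (by linarith [a4.2]) 2
    calc (1 - η) * ‖u‖ ^ 2 ≤ (1 - 20 * ε) * ‖u‖ ^ 2 := by gcongr
      _ ≤ (1 - 20 * ε) * ((1 + 2 * ε) ^ 2 * N) := by gcongr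
      _ ≤ _ := by
        rw [← mul_assoc]
        refine mul_le_mul_of_nonneg_right ?_ n4.le
        nlinarith [mul_pos hε hε, mul_pos (mul_pos hε hε) hε]

end Crest.Agent.KN
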