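import Crest.Agent.KN.Defs2

set_option autoImplicit false
universe u

namespace Crest.Agent.KN

open scoped InnerProductSpace BigOperators ComplexConjugate

namespace SUMx

theorem sum4 {I J ι A : Type*} [Fintype I] [Fintype J] [Fintype ι] [DecidableEq ι] [AddCommMonoid A]
    (f : (I × ι) × (J × ι) → A) (h : ∀ i a j b, a ≠ b → f ((i, a), (j, b)) = 0) :
    ∑ k, f k = ∑ a, ∑ k : I × J, f ((k.1, a), (k.2, a)) := by
  simp only [Fintype.sum_prod_type]
  rw [Finset.sum_comm]
  refine Finset.sum_congr rfl fun a _ => Finset.sum_congr rfl fun i _ =>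
    Finset.sum_congr rfl fun j _ => ?_
  exact Finset.sum_eq_single a (fun b _ hb => h i a j b (Ne.symm hb)) (by simp)

theorem uv_ext {I ι : Type} [Fintype I] [Fintype ι] [DecidableEq ι] {u : I → ℂ} (hu : UV u) (h : ι) :
    UV fun k : I × ι => if k.2 = h then u k.1 else 0 := by
  unfold UV at *
  simp only [Fintype.sum_prod_type, apply_ite norm, norm_zero, ite_pow]
  simpa using hu

variable {H : Type u} [NormedAddCommGroup H] [InnerProductSpace ℂ H] [CompleteSpace H]
  {M : VonNeumannAlgebra H} {ζ : H} {ι : Type} [Fintype ι] [Nonempty ι] [DecidableEq ι]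

theorem card_pos : (0 : ℝ) < Fintype.card ι := by exact_mod_cast Fintype.card_pos

/-- The normalising constant. -/
noncomputable def cc (ι : Type) [Fintype ι] : ℝ := (√(Fintype.card ι : ℝ))⁻¹

omit [DecidableEq ι] in
theorem cc_sq : cc ι ^ 2 = (Fintype.card ι : ℝ)⁻¹ := by
  classical
  rw [cc, inv_pow, Real.sq_sqrt card_pos.le]

omit [Nonempty ι] [DecidableEq ι] in
theorem cc_nonneg : 0 ≤ cc ι := by unfold cc; positivity

omit [Nonempty ι] in
theorem bd_star {I : Type} (U : ι → Matrix I I (H →L[ℂ] H)) :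
    star (Matrix.blockDiagonal U) = Matrix.blockDiagonal fun h => star (U h) :=
  Matrix.blockDiagonal_conjTranspose U

/-- The direct sum of the legs. -/
noncomputable def leg (l : PreLeg M ζ ι) : Leg M ζ ι where
  I := l.I × ι
  J := l.J × ι
  ω k := if k.1.2 = k.2.2 then (cc ι : ℂ) * l.ω (k.1.1, k.2.1) else 0
  ω_uv := by
    unfold UV
    rw [sum4 _ fun i a j b h => by simp [h]]
    have := l.ω_uv
    unfold UV at this
    simp only [if_true, norm_mul, mul_pow, Complex.norm_real, Real.norm_eq_abs, sq_abs, Prod.mk.eta,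
      ← Finset.mul_sum, this, mul_one, Finset.sum_const, Finset.card_univ, nsmul_eq_mul, cc_sq]
    exact mul_inv_cancel₀ card_pos.ne'
  U := Matrix.blockDiagonal l.U
  U_mem i i' := by
    rw [Matrix.blockDiagonal_apply]; split_ifs; exacts [l.U_mem _ _ _, zero_mem _]
  U_l := by
    rw [bd_star, ← Matrix.blockDiagonal_mul]; simp only [l.U_l]; exact Matrix.blockDiagonal_one
  U_r := by
    rw [bd_star, ← Matrix.blockDiagonal_mul]; simp only [l.U_r]; exact Matrix.blockDiagonal_one
  U' := Matrix.blockDiagonal l.U'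
  U'_mem i i' := by
    rw [Matrix.blockDiagonal_apply]; split_ifs; exacts [l.U'_mem _ _ _, zero_mem _]
  U'_l := by
    rw [bd_star, ← Matrix.blockDiagonal_mul]; simp only [l.U'_l]; exact Matrix.blockDiagonal_one
  U'_r := by
    rw [bd_star, ← Matrix.blockDiagonal_mul]; simp only [l.U'_r]; exact Matrix.blockDiagonal_one
  p := l.p / Fintype.card ι
  p_pos := div_pos l.p_pos card_pos
  p_le := (div_le_self l.p_pos.le (by exact_mod_cast Fintype.card_pos)).trans l.p_le
  u h k := if k.2 = h then l.u k.1 else 0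
  g h k := if k.2 = h then l.g k.1 else 0
  u_uv := uv_ext l.u_uv
  g_uv := uv_ext l.g_uv
  slot h i := by
    simp only [Fintype.sum_prod_type, apply_ite conj, map_zero, ite_mul, zero_mul,
      Finset.sum_ite_eq', Finset.mem_univ, if_true]
    split_ifs
    · simp only [mul_left_comm _ (cc ι : ℂ), ← Finset.mul_sum, l.slot]
      rw [Real.sqrt_div l.p_pos.le, cc]; push_cast; ring
    · simp

theorem Z_eq (l : PreLeg M ζ ι) (i : l.I) (a : ι) (j : l.J) (b : ι) :
    (leg l).Z ((i, a), (j, b)) = if a = b then (cc ι : ℂ) • (l.leg a).Z (i, j) else 0 := by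
  have e : ∑ k' : (l.I × ι) × (l.J × ι), (leg l).ω k' •
      ((star (leg l).U') (j, b) k'.2 * (star (leg l).U) (i, a) k'.1) ζ =
      ∑ c, ∑ k : l.I × l.J, ((cc ι : ℂ) * l.ω k) •
        ((if b = c then (star (l.U' b)) j k.2 else 0) *
          (if a = c then (star (l.U a)) i k.1 else 0)) ζ := by
    rw [sum4 _ fun i a j b h => by simp [leg, h]]
    refine Finset.sum_congr rfl fun c _ => Finset.sum_congr rfl fun k _ => ?_
    simp only [leg, if_true]
    erw [bd_star, bd_star, Matrix.blockDiagonal_apply, Matrix.blockDiagonal_apply]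
  unfold Leg.Z
  erw [e]
  rw [Finset.sum_eq_single a (fun c _ hc => by simp [Ne.symm hc]) (by simp)]
  by_cases h : a = b
  · subst h
    simp only [leg, PreLeg.leg, if_true, smul_sub, Finset.smul_sum, smul_smul]
    rfl
  · simp [leg, h, Ne.symm h]

end SUMx

open SUMx in
theorem jobSUM : JobSUM.{u} := by
  intro H _ _ _ M ζ ι _ _ l
  classical
  have hc : (Fintype.card ι : ℝ) * cc ι ^ 2 = 1 := by rw [cc_sq]; exact mul_inv_cancel₀ card_pos.ne'
  refine ⟨leg l, rfl, fun h => ?_, fun c hd => ?_, fun c hs => ?_⟩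
  · change ∑ i : l.I × ι, ∑ i' : l.I × ι, (conj (if i.2 = h then l.u i.1 else 0) *
      if i'.2 = h then l.u i'.1 else 0) • Matrix.blockDiagonal l.U i i' =
      ∑ i, ∑ i', (conj (l.u i) * l.u i') • l.U h i i'
    simp only [Fintype.sum_prod_type, apply_ite conj, map_zero, ite_mul, zero_mul, mul_ite, mul_zero,
      ite_smul, zero_smul, Finset.sum_ite_eq', Finset.mem_univ, if_true]
    refine Finset.sum_congr rfl fun i _ => ?_
    rw [Finset.sum_comm]
    simp [Matrix.blockDiagonal_apply]
  · unfold Leg.d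
    erw [sum4 _ fun i a j b h => by simp [leg, h]]
    have e : ∀ a, ∑ k : l.I × l.J, conj ((leg l).ω ((k.1, a), (k.2, a))) •
        (leg l).Z ((k.1, a), (k.2, a)) =
        ((cc ι ^ 2 : ℝ) : ℂ) • ∑ k, conj ((l.leg a).ω k) • (l.leg a).Z k := fun a => by
      rw [Finset.smul_sum]
      refine Finset.sum_congr rfl fun k _ => ?_
      rw [Z_eq, if_pos rfl, smul_smul, smul_smul]
      congr 1
      simp only [leg, PreLeg.leg, if_true, map_mul, Complex.conj_ofReal]
      push_cast; ring
    erw [Finset.sum_congr rfl fun a _ => e a]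
    refine (norm_sum_le _ _).trans ((Finset.sum_le_sum (g := fun _ => cc ι ^ 2 * c) fun a _ => ?_).trans ?_)
    · rw [norm_smul, Complex.norm_real, Real.norm_of_nonneg (sq_nonneg _)]
      exact mul_le_mul_of_nonneg_left (hd a) (sq_nonneg _)
    · rw [Finset.sum_const, Finset.card_univ, nsmul_eq_mul, ← mul_assoc, hc, one_mul]
  · unfold Leg.s2
    erw [sum4 _ fun i a j b h => by erw [Z_eq]; simp [h]]
    refine (Finset.sum_le_sum (g := fun _ => cc ι ^ 2 * c) fun a _ => ?_).trans ?_
    · refine le_trans (le_of_eq ?_) (mul_le_mul_of_nonneg_left (hs a) (sq_nonneg _))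
      unfold Leg.s2
      rw [Finset.mul_sum]
      refine Finset.sum_congr rfl fun k _ => ?_
      erw [Z_eq]
      rw [if_pos rfl, norm_smul, mul_pow, Complex.norm_real, Real.norm_eq_abs, sq_abs]
      rfl
    · rw [Finset.sum_const, Finset.card_univ, nsmul_eq_mul, ← mul_assoc, hc, one_mul]

end Crest.Agent.KN
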