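import Crest.Agent.KN.Defs
import Crest.Agent.KK.L2

/-! Job TOW: towers exist. -/

set_option autoImplicit false
set_option linter.unusedSectionVars false
universe u

namespace Crest.Agent.KN

open scoped InnerProductSpace BigOperators ComplexConjugate
open Crest.Agent.KK

namespace TOW

section gen
variable {K : ℕ → Type} [∀ n, Fintype (K n)] [∀ n, DecidableEq (K n)]
variable (H : Type u) [NormedAddCommGroup H] [InnerProductSpace ℂ H] [CompleteSpace H]

/-- Swap two values of coordinate `n`. -/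
def sw (n : ℕ) (k k' : K n) : Equiv.Perm (∀ n, K n) :=
  Function.Involutive.toPerm (fun x => Function.update x n (Equiv.swap k k' (x n))) fun x => by
    simp

lemma sw_apply (n : ℕ) (k k' : K n) (x : ∀ n, K n) :
    sw n k k' x = Function.update x n (Equiv.swap k k' (x n)) := rfl

lemma sw_inv (n : ℕ) (k k' : K n) : (sw n k k')⁻¹ = sw n k k' := rfl

lemma bdd_ind (p : (∀ n, K n) → Prop) [DecidablePred p] :
    Bdd fun x => if p x then (1 : H →L[ℂ] H) else 0 :=
  ⟨‖(1 : H →L[ℂ] H)‖, fun x => by dsimp only; split_ifs <;> simp⟩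

/-- Matrix units of leg `n`. -/
noncomputable def mu (n : ℕ) (k k' : K n) : L2 (∀ n, K n) H →L[ℂ] L2 (∀ n, K n) H :=
  wp (sw n k k') fun x => if x n = k' then (1 : H →L[ℂ] H) else 0

lemma mu_sg (n : ℕ) (k k' : K n) (x : ∀ n, K n) (v : H) :
    mu H n k k' (sg x v) = if x n = k' then sg (Function.update x n k) v else 0 := by
  rw [mu, wp_sg _ (bdd_ind H _), sw_apply]
  split_ifs with h
  · rw [h, Equiv.swap_apply_right]; rfl
  · simp

lemma star_mu (n : ℕ) (k k' : K n) : star (mu H n k k') = mu H n k' k := by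
  refine ext_sg fun x v => ?_
  rw [mu_sg, mu, star_wp _ (bdd_ind H _),
    wp_sg _ ((bdd_ind H fun x => x n = k').star fun a => (sw n k k')⁻¹ a), sw_inv, sw_apply]
  simp only [Function.update_self]
  by_cases h : x n = k
  · rw [h, Equiv.swap_apply_left]; simp
  · have : Equiv.swap k k' (x n) ≠ k' := fun h' => h (by
      have := congrArg (Equiv.swap k k') h'
      rwa [Equiv.swap_apply_self, Equiv.swap_apply_right] at this)
    simp [h, this]

/-- The matrix system on leg `n`, as a function. -/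
noncomputable def rf (n : ℕ) (m : Matrix (K n) (K n) ℂ) : L2 (∀ n, K n) H →L[ℂ] L2 (∀ n, K n) H :=
  ∑ k, ∑ k', m k k' • mu H n k k'

lemma rf_sg (n : ℕ) (m : Matrix (K n) (K n) ℂ) (x : ∀ n, K n) (v : H) :
    rf H n m (sg x v) = ∑ k, m k (x n) • sg (Function.update x n k) v := by
  simp only [rf, sum_apply, smul_apply, mu_sg]
  refine Finset.sum_congr rfl fun k _ => ?_
  rw [Finset.sum_eq_single (x n)]
  · simp
  · intro b _ hb
    rw [if_neg (Ne.symm hb), smul_zero]
  · simp

lemma rf_one (n : ℕ) : rf H n (1 : Matrix (K n) (K n) ℂ) = 1 := by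
  refine ext_sg fun x v => ?_
  rw [rf_sg, Finset.sum_eq_single (x n)]
  · simp
  · intro b _ hb
    rw [Matrix.one_apply_ne hb, zero_smul]
  · simp

lemma rf_mul (n : ℕ) (m m' : Matrix (K n) (K n) ℂ) : rf H n (m * m') = rf H n m * rf H n m' := by
  refine ext_sg fun x v => ?_
  rw [mul_apply_eq_comp, rf_sg, rf_sg, map_sum]
  simp only [map_smul, rf_sg, Function.update_self, Function.update_idem, Finset.smul_sum,
    Matrix.mul_apply, Finset.sum_smul, smul_smul]
  rw [Finset.sum_comm]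
  refine Finset.sum_congr rfl fun k _ => Finset.sum_congr rfl fun k' _ => ?_
  rw [mul_comm]

lemma rf_add (n : ℕ) (m m' : Matrix (K n) (K n) ℂ) : rf H n (m + m') = rf H n m + rf H n m' := by
  simp only [rf, Matrix.add_apply, add_smul, Finset.sum_add_distrib]

lemma rf_smul (n : ℕ) (c : ℂ) (m : Matrix (K n) (K n) ℂ) : rf H n (c • m) = c • rf H n m := by
  simp only [rf, Matrix.smul_apply, smul_eq_mul, mul_smul, Finset.smul_sum]

lemma rf_star (n : ℕ) (m : Matrix (K n) (K n) ℂ) : rf H n (star m) = star (rf H n m) := by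
  simp only [rf, star_sum, star_smul, star_mu, Matrix.star_apply]
  rw [Finset.sum_comm]

/-- The matrix system on leg `n`. -/
noncomputable def r0 (n : ℕ) :
    Matrix (K n) (K n) ℂ →⋆ₐ[ℂ] (L2 (∀ n, K n) H →L[ℂ] L2 (∀ n, K n) H) where
  toFun := rf H n
  map_one' := rf_one H n
  map_mul' := rf_mul H n
  map_zero' := by simp [rf]
  map_add' := rf_add H n
  commutes' c := by
    rw [Algebra.algebraMap_eq_smul_one, Algebra.algebraMap_eq_smul_one, rf_smul, rf_one]
  map_star' := rf_star H n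

/-- Diagonal amplification. -/
noncomputable def am (α : Type) : (H →L[ℂ] H) →⋆ₐ[ℂ] (L2 α H →L[ℂ] L2 α H) where
  toFun T := dg fun _ => T
  map_one' := wp_one
  map_mul' S T := by rw [wp_mul _ _ (bdd_const _) (bdd_const _), mul_one]
  map_zero' := ext_sg fun x v => by rw [wp_sg _ (bdd_const _)]; simp
  map_add' S T := wp_add _ (bdd_const _) (bdd_const _)
  commutes' c := by
    rw [Algebra.algebraMap_eq_smul_one, Algebra.algebraMap_eq_smul_one]
    exact (wp_smul (d := fun _ => (1 : H →L[ℂ] H)) _ (bdd_const _) c).trans (by rw [wp_one])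
  map_star' T := by rw [star_wp _ (bdd_const _), inv_one]

lemma am_sg (α : Type) (T : H →L[ℂ] H) (x : α) (v : H) : am H α T (sg x v) = sg x (T v) :=
  wp_sg _ (bdd_const _) x v

lemma rf_am (n : ℕ) (m : Matrix (K n) (K n) ℂ) (T : H →L[ℂ] H) :
    Commute (rf H n m) (am H _ T) := by
  refine ext_sg fun x v => ?_
  rw [mul_apply_eq_comp, mul_apply_eq_comp, am_sg, rf_sg, rf_sg, map_sum]
  simp only [map_smul, am_sg]

lemma rf_rf {n n' : ℕ} (h : n ≠ n') (m : Matrix (K n) (K n) ℂ) (m' : Matrix (K n') (K n') ℂ) :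
    Commute (rf H n m) (rf H n' m') := by
  refine ext_sg fun x v => ?_
  rw [mul_apply_eq_comp, mul_apply_eq_comp, rf_sg, rf_sg, map_sum, map_sum]
  simp only [map_smul, rf_sg, Finset.smul_sum, smul_smul, Function.update_of_ne h,
    Function.update_of_ne h.symm]
  rw [Finset.sum_comm]
  refine Finset.sum_congr rfl fun k _ => Finset.sum_congr rfl fun k' _ => ?_
  rw [mul_comm, Function.update_comm h]

lemma rf_vac (n : ℕ) (x : ∀ n, K n) (v : H) :
    rf H n (Matrix.single (x n) (x n) 1) (sg x v) = sg x v := by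
  rw [rf_sg, Finset.sum_eq_single (x n)]
  · simp
  · intro b _ hb
    rw [Matrix.single_apply_of_row_ne (Ne.symm hb), zero_smul]
  · simp

end gen

/-- A unit vector can be rotated to a basis vector. -/
lemma exists_rot {K : Type} [Fintype K] [DecidableEq K] (ω : K → ℂ) (hω : UV ω) :
    ∃ (k₀ : K) (W : unitary (Matrix K K ℂ)),
      (W : Matrix K K ℂ) * kb ω ω * star (W : Matrix K K ℂ) = Matrix.single k₀ k₀ 1 := by
  have hne : Nonempty K := by
    by_contra h
    rw [not_nonempty_iff] at h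
    simp [UV] at hω
  obtain ⟨k₀⟩ := hne
  set w : EuclideanSpace ℂ K := WithLp.toLp 2 ω with hw
  have hn : ‖w‖ = 1 := by
    rw [EuclideanSpace.norm_eq]
    have : ∑ k, ‖w k‖ ^ 2 = 1 := hω
    rw [this, Real.sqrt_one]
  have ho : Orthonormal ℂ (({k₀} : Set K).domRestrict fun _ : K => w) := by
    refine ⟨fun _ => hn, fun i j hij => ?_⟩
    exact absurd (Subsingleton.elim i j) hij
  obtain ⟨b, hb⟩ := ho.exists_orthonormalBasis_extension_of_card_eq (by simp)
  have hb0 : b k₀ = w := hb k₀ rfl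
  let W : Matrix K K ℂ := Matrix.of fun k j => conj (b k j)
  have hin : ∀ k k', ∑ j, conj (b k j) * b k' j = if k = k' then 1 else 0 := fun k k' => by
    have := orthonormal_iff_ite.1 b.orthonormal k k'
    rw [PiLp.inner_apply] at this
    rw [← this]
    exact Finset.sum_congr rfl fun j _ => by rw [RCLike.inner_apply, mul_comm]
  have hWW : W * star W = 1 := by
    ext k k'
    rw [Matrix.mul_apply, Matrix.one_apply, ← hin]
    exact Finset.sum_congr rfl fun j _ => by simp [W, Matrix.star_apply]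
  have hω' : ∀ k, ∑ j, conj (b k j) * ω j = if k = k₀ then 1 else 0 := fun k => by
    rw [← hin k k₀, hb0]
  refine ⟨k₀, ⟨W, mul_eq_one_comm.1 hWW, hWW⟩, ?_⟩
  ext k k'
  have e : (W * kb ω ω * star W) k k' =
      (∑ j, conj (b k j) * ω j) * conj (∑ j, conj (b k' j) * ω j) := by
    simp only [Matrix.mul_apply, kb, Matrix.vecMulVec_apply, W, Matrix.of_apply, Matrix.star_apply,
      Pi.star_apply, map_sum, map_mul, Finset.sum_mul, Finset.mul_sum, RCLike.star_def]
    refine Finset.sum_congr rfl fun j _ => Finset.sum_congr rfl fun j' _ => ?_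
    ring
  change (W * kb ω ω * star W) k k' = _
  rw [e, hω', hω', Matrix.single_apply]
  by_cases h1 : k = k₀ <;> by_cases h2 : k' = k₀ <;> simp [h1, h2] <;> tauto

/-- Conjugation by a unitary matrix. -/
noncomputable def cj {K : Type} [Fintype K] [DecidableEq K] (W : unitary (Matrix K K ℂ)) :
    Matrix K K ℂ →⋆ₐ[ℂ] Matrix K K ℂ :=
  (Unitary.conjStarAlgAut ℂ (Matrix K K ℂ) W : Matrix K K ℂ →⋆ₐ[ℂ] Matrix K K ℂ)

lemma cj_apply {K : Type} [Fintype K] [DecidableEq K] (W : unitary (Matrix K K ℂ))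
    (m : Matrix K K ℂ) : cj W m = (W : Matrix K K ℂ) * m * star (W : Matrix K K ℂ) := rfl

lemma gen (K : ℕ → Type) [∀ n, Fintype (K n)] [∀ n, DecidableEq (K n)]
    (H : Type u) [NormedAddCommGroup H] [InnerProductSpace ℂ H] [CompleteSpace H]
    (ω : ∀ n, K n → ℂ) (hω : ∀ n, UV (ω n)) :
    ∃ (V : H →L[ℂ] L2 (∀ n, K n) H)
      (ρ : ∀ n, Matrix (K n) (K n) ℂ →⋆ₐ[ℂ] (L2 (∀ n, K n) H →L[ℂ] L2 (∀ n, K n) H)),
      (∀ ξ, ‖V ξ‖ = ‖ξ‖) ∧ (∀ T ξ, am H _ T (V ξ) = V (T ξ)) ∧
      (∀ n m T, Commute (ρ n m) (am H _ T)) ∧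
      (∀ n n', n ≠ n' → ∀ m m', Commute (ρ n m) (ρ n' m')) ∧
      ∀ n ξ, ρ n (kb (ω n) (ω n)) (V ξ) = V ξ := by
  choose k₀ W hW using fun n => exists_rot (ω n) (hω n)
  refine ⟨sg k₀, fun n => (r0 H n).comp (cj (W n)), fun ξ => norm_sg _ _,
    fun T ξ => am_sg H _ T _ ξ, fun n m T => rf_am H n (cj (W n) m) T,
    fun n n' h m m' => rf_rf H h (cj (W n) m) (cj (W n') m'), fun n ξ => ?_⟩
  have : ((r0 H n).comp (cj (W n))) (kb (ω n) (ω n)) = rf H n (cj (W n) (kb (ω n) (ω n))) := rfl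
  rw [this, cj_apply, hW n]
  exact rf_vac H n k₀ ξ

end TOW

open TOW in
theorem jobTOW : JobTOW.{u} := by
  intro H _ _ _ M ζ ι lg
  obtain ⟨V, ρ, h1, h2, h3, h4, h5⟩ :=
    gen (fun n => (lg n).I × (lg n).J) H (fun n => (lg n).ω) fun n => (lg n).ω_uv
  exact ⟨L2 (∀ n, (lg n).I × (lg n).J) H, inferInstance, inferInstance, inferInstance,
    ⟨{ am := am H _, V := V, norm_V := h1, am_V := h2, ρ := ρ, ρ_am := h3, ρ_ρ := h4, ρ_V := h5 }⟩⟩

end Crest.Agent.KN
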