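import Crest.Agent.KN.Defs2
import Crest.Agent.KS.Tomita

set_option autoImplicit false
universe u

namespace Crest.Agent.KN

open scoped InnerProductSpace ZeroAtInfty BoundedContinuousFunction
open Filter Topology Crest.Agent.KS Crest.OpAlg

/-- `C₀(ℝ) ⊆ C_b(ℝ)`. -/
noncomputable def c0b : C₀(ℝ, ℂ) →⋆ₙₐ[ℂ] (ℝ →ᵇ ℂ) where
  toFun φ := φ.toBCF
  map_smul' _ _ := rfl
  map_zero' := rfl
  map_add' _ _ := rfl
  map_mul' _ _ := rfl
  map_star' _ := rfl

theorem jobTT : JobTT.{u} := by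
  intro H _ _ _ M ζ h1 h2
  have hc : Dense (Set.range fun a : M => (a : H →L[ℂ] H) ζ) :=
    h1.mono (by rintro _ ⟨x, hx, rfl⟩; exact ⟨⟨x, hx⟩, rfl⟩)
  have hs : ∀ a ∈ M, a ζ = 0 → a = 0 := fun a ha h0 => by
    ext ξ
    refine closure_minimal (t := {ξ | a ξ = (0 : H →L[ℂ] H) ξ}) ?_
      (isClosed_eq (by fun_prop) (by fun_prop)) (h2 ξ)
    rintro _ ⟨x, hx, rfl⟩
    have := VonNeumannAlgebra.mem_commutant_iff.1 hx a ha
    change a (x ζ) = 0
    rw [← mul_apply_eq_comp, this, mul_apply_eq_comp, h0, map_zero]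
  obtain ⟨K, S⟩ := exists_std M ζ hc hs
  refine ⟨{
    D := K.D.wave
    J := K.J0
    Φ := (K.D.apply : (ℝ →ᵇ ℂ) →⋆ₙₐ[ℂ] (H →L[ℂ] H)).comp c0b
    D_zero := H0112.wave_zero _
    D_add := H0112.wave_add _
    D_star := H0112.star_wave _
    D_cont := H0112.continuous_wave _
    D_ζ := S.wave_vac
    D_mem := fun t x hx => S.flow_mem t hx
    J_J := K.J_J
    J_inner := K.inner_J_J
    J_ζ := S.J_vac
    J_D := K.J_wave
    J_mem := fun x hx => ⟨K.cJ x, S.cJ_mem' hx, fun _ => rfl⟩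
    Φ_D := fun t φ ψ h => ?_
    Φ_kms := fun φ ψ h x hx hsa => ?_
    Φ_nondeg := fun ξ h => ?_ }⟩
  · change K.D.apply _ * K.D.apply (c0b φ) = K.D.apply (c0b ψ)
    rw [← map_mul]
    congr 1
    ext ν
    change LineCalculus.character t ν * φ ν = ψ ν
    rw [h, H0112.character_apply]; push_cast; rw [mul_comm (t : ℂ)]
  · have := S.halfExp hx (c0b φ) (c0b ψ) fun ν => by
      change ψ ν = φ ν * _
      rw [h, mul_comm]; push_cast; rfl
    rw [hsa.star_eq] at this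
    exact this.symm
  · refine norm_le_zero_iff.1 (le_of_forall_pos_le_add fun ε hε => ?_)
    obtain ⟨f, hf, hx⟩ := K.D.window ξ ε hε
    have := h ⟨f.toContinuousMap, hf.is_zero_at_infty⟩
    change K.D.apply f ξ = 0 at this
    rw [this, zero_sub, norm_neg] at hx
    linarith

end Crest.Agent.KN
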