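import Crest.Agent.KN.AVG

set_option autoImplicit false
universe u v

namespace Crest.Agent.KN

open scoped InnerProductSpace BigOperators Kronecker ComplexConjugate
open Filter Topology

section amp
variable {H : Type u} [NormedAddCommGroup H] [InnerProductSpace ℂ H] [CompleteSpace H]
  {E : Type u} [NormedAddCommGroup E] [InnerProductSpace ℂ E] [CompleteSpace E]
  {K : Type} [Fintype K] [DecidableEq K]
  (am : (H →L[ℂ] H) →⋆ₐ[ℂ] (E →L[ℂ] E)) (ρ : Matrix K K ℂ →⋆ₐ[ℂ] (E →L[ℂ] E))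

/-- Amplification of an operator matrix. -/
noncomputable def amp (X : Matrix K K (H →L[ℂ] H)) : E →L[ℂ] E :=
  ∑ i, ∑ i', am (X i i') * ρ (Matrix.single i i' 1)

variable {am ρ}

theorem amp_mul (h : ∀ m T, Commute (ρ m) (am T)) (X Y : Matrix K K (H →L[ℂ] H)) :
    amp am ρ X * amp am ρ Y = amp am ρ (X * Y) := by
  unfold amp
  simp only [Finset.sum_mul, Finset.mul_sum, Matrix.mul_apply, map_sum, map_mul]
  have e : ∀ i i' j j' : K, am (X i i') * ρ (Matrix.single i i' 1) *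
      (am (Y j j') * ρ (Matrix.single j j' 1)) =
      if j = i' then am (X i i') * am (Y j j') * ρ (Matrix.single i j' 1) else 0 := by
    intro i i' j j'
    rw [mul_assoc, ← mul_assoc (ρ _), (h _ _).eq, mul_assoc, ← map_mul ρ, ← mul_assoc]
    split_ifs with hj
    · subst hj; rw [Matrix.single_mul_single_same, one_mul]
    · rw [Matrix.single_mul_single_of_ne _ _ _ _ (Ne.symm hj), map_zero, mul_zero]
  simp only [e]
  rw [Finset.sum_comm]
  conv_lhs => enter [2, a]; rw [Finset.sum_comm]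
  rw [Finset.sum_comm]
  refine Finset.sum_congr rfl fun i _ => ?_
  refine Finset.sum_congr rfl fun j' _ => ?_
  rw [Finset.sum_comm]
  simp

theorem amp_star (h : ∀ m T, Commute (ρ m) (am T)) (X : Matrix K K (H →L[ℂ] H)) :
    star (amp am ρ X) = amp am ρ (star X) := by
  unfold amp
  simp only [star_sum, star_mul, ← map_star, Matrix.star_apply]
  rw [Finset.sum_comm]
  refine Finset.sum_congr rfl fun i _ => Finset.sum_congr rfl fun j _ => ?_
  rw [(h _ _).eq, Matrix.star_eq_conjTranspose, Matrix.conjTranspose_single, star_one]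

theorem amp_one : amp am ρ 1 = 1 := by
  unfold amp
  simp only [Matrix.one_apply, apply_ite am, map_one, map_zero, ite_mul, one_mul, zero_mul,
    Finset.sum_ite_eq, Finset.mem_univ, if_true]
  rw [← map_sum, Matrix.sum_single_one, map_one]

theorem amp_unit (h : ∀ m T, Commute (ρ m) (am T)) {X : Matrix K K (H →L[ℂ] H)}
    (h1 : star X * X = 1) (h2 : X * star X = 1) : amp am ρ X ∈ unitary (E →L[ℂ] E) := by
  rw [Unitary.mem_iff, amp_star h, amp_mul h, amp_mul h, h1, h2, amp_one]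
  exact ⟨rfl, rfl⟩

theorem amp_comm {X : Matrix K K (H →L[ℂ] H)} {z : E →L[ℂ] E} (h1 : ∀ i j, Commute (am (X i j)) z)
    (h2 : ∀ m, Commute (ρ m) z) : Commute (amp am ρ X) z :=
  Commute.sum_left _ _ _ fun i _ => Commute.sum_left _ _ _ fun j _ => (h1 i j).mul_left (h2 _)

end amp

section mat
variable {I J : Type} [Fintype I] [Fintype J] [DecidableEq I] [DecidableEq J]

theorem lHom_apply (m : Matrix I I ℂ) : lHom I J m = m ⊗ₖ (1 : Matrix J J ℂ) := rfl
theorem rHom_apply (m : Matrix J J ℂ) : rHom I J m = (1 : Matrix I I ℂ) ⊗ₖ m := rfl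

theorem lHom_mul_rHom (a : Matrix I I ℂ) (b : Matrix J J ℂ) : lHom I J a * rHom I J b = a ⊗ₖ b := by
  rw [lHom_apply, rHom_apply, ← Matrix.mul_kronecker_mul, mul_one, one_mul]

theorem rHom_mul_lHom (a : Matrix I I ℂ) (b : Matrix J J ℂ) : rHom I J b * lHom I J a = a ⊗ₖ b := by
  rw [lHom_apply, rHom_apply, ← Matrix.mul_kronecker_mul, mul_one, one_mul]

theorem uv_tensor {u : I → ℂ} {g : J → ℂ} (hu : UV u) (hg : UV g) :
    UV fun k : I × J => u k.1 * g k.2 := by
  unfold UV at *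
  simp only [Fintype.sum_prod_type, norm_mul, mul_pow]
  simp only [← Finset.mul_sum, hg, mul_one, hu]

theorem kb_lHom_kb (u : I → ℂ) {g : J → ℂ} (hg : UV g) (a b : I × J → ℂ) (i i' : I) :
    kb a (fun k => u k.1 * g k.2) * lHom I J (Matrix.single i i' 1) *
      kb (fun k => u k.1 * g k.2) b = (conj (u i) * u i') • kb a b := by
  have e : kb a (fun k => u k.1 * g k.2) * lHom I J (Matrix.single i i' 1) =
      conj (u i) • kb a (fun k => Pi.single (M := fun _ => ℂ) i' 1 k.1 * g k.2) := by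
    ext x y
    simp only [Matrix.mul_apply, kb_apply, lHom_apply, Matrix.kroneckerMap_apply, Matrix.one_apply,
      Matrix.single_apply, Fintype.sum_prod_type, Matrix.smul_apply, smul_eq_mul, Pi.single_apply]
    by_cases hy : y.1 = i'
    · simp [hy, ite_and, mul_left_comm, mul_comm]
    · simp [hy, Ne.symm hy]
  rw [e, smul_mul_assoc, kb_mul, smul_smul]
  congr 2
  simp only [Fintype.sum_prod_type, Pi.single_apply, map_mul, apply_ite conj, map_one, map_zero,
    ite_mul, one_mul, zero_mul]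
  rw [Finset.sum_comm]
  simp only [Finset.sum_ite_eq', Finset.mem_univ, if_true, mul_left_comm _ (u i')]
  rw [← Finset.mul_sum, hg.ip, mul_one]

theorem rHom_kb (g : J → ℂ) (ω b : I × J → ℂ) (c : ℂ) (u : I → ℂ)
    (h : ∀ i, ∑ j, conj (g j) * ω (i, j) = c * u i) :
    rHom I J (kb g g) * kb ω b = c • kb (fun k => u k.1 * g k.2) b := by
  ext x y
  simp only [Matrix.mul_apply, kb_apply, rHom_apply, Matrix.kroneckerMap_apply, Matrix.one_apply,
    Fintype.sum_prod_type, Matrix.smul_apply, smul_eq_mul, ite_mul, one_mul, zero_mul]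
  rw [Finset.sum_comm]
  simp only [Finset.sum_ite_eq, Finset.mem_univ, if_true]
  have : ∀ j, g x.2 * conj (g j) * (ω (x.1, j) * conj (b y)) =
      g x.2 * conj (b y) * (conj (g j) * ω (x.1, j)) := fun j => by ring
  simp only [this]
  rw [← Finset.mul_sum, h]; ring

end mat

namespace Tw
variable {H : Type u} [NormedAddCommGroup H] [InnerProductSpace ℂ H] [CompleteSpace H]
  {M : VonNeumannAlgebra H} {ζ : H} {ι : Type} {lg : ℕ → Leg M ζ ι} {E : Type u}
  [NormedAddCommGroup E] [InnerProductSpace ℂ E] [CompleteSpace E] (τ : Tw lg E)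

theorem U_eq (n : ℕ) : τ.U n = amp τ.am ((τ.ρ n).comp (lHom _ _)) (lg n).U := rfl
theorem U'_eq (n : ℕ) : τ.U' n = amp τ.am (τ.σ n) (lg n).U' := rfl
theorem σ_apply (n : ℕ) (a : Matrix (lg n).J (lg n).J ℂ) : τ.σ n a = τ.ρ n (rHom _ _ a) := rfl

theorem am_comm {x y : H →L[ℂ] H} (hx : x ∈ M) (hy : y ∈ M.commutant) :
    Commute (τ.am x) (τ.am y) := by
  have := VonNeumannAlgebra.mem_commutant_iff.1 hy x hx
  unfold Commute SemiconjBy
  rw [← map_mul, this, map_mul]

theorem l_σ (n m : ℕ) (a : Matrix (lg n).I (lg n).I ℂ) (b : Matrix (lg m).J (lg m).J ℂ) :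
    Commute (τ.ρ n (lHom _ _ a)) (τ.σ m b) := by
  by_cases h : n = m
  · subst h
    unfold Commute SemiconjBy
    rw [σ_apply, ← map_mul, ← map_mul, lHom_mul_rHom, rHom_mul_lHom]
  · exact τ.ρ_ρ n m h _ _

theorem l_am (n : ℕ) (m : Matrix (lg n).I (lg n).I ℂ) (T : H →L[ℂ] H) :
    Commute (((τ.ρ n).comp (lHom _ _)) m) (τ.am T) := τ.ρ_am n (lHom _ _ m) T

theorem σ_am (n : ℕ) (m : Matrix (lg n).J (lg n).J ℂ) (T : H →L[ℂ] H) :
    Commute (τ.σ n m) (τ.am T) := τ.ρ_am n (rHom _ _ m) T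

theorem U_comm (n : ℕ) {z : E →L[ℂ] E} (h1 : ∀ i j, Commute (τ.am ((lg n).U i j)) z)
    (h2 : ∀ m, Commute (τ.ρ n (lHom _ _ m)) z) : Commute (τ.U n) z := by
  rw [U_eq]; exact amp_comm h1 h2

theorem U'_comm (n : ℕ) {z : E →L[ℂ] E} (h1 : ∀ i j, Commute (τ.am ((lg n).U' i j)) z)
    (h2 : ∀ m, Commute (τ.σ n m) z) : Commute (τ.U' n) z := by
  rw [U'_eq]; exact amp_comm h1 h2

theorem U_Cσ (n m : ℕ) : τ.Cσ m (τ.U n) := fun b =>
  τ.U_comm n (fun _ _ => (τ.σ_am m _ _).symm) fun a => τ.l_σ n m a b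

theorem U_Ca (n : ℕ) : τ.Ca M (τ.U n) := fun _ hy =>
  τ.U_comm n (fun i j => τ.am_comm ((lg n).U_mem i j) hy) fun _ => τ.ρ_am n _ _

theorem U_unit (n : ℕ) : τ.U n ∈ unitary (E →L[ℂ] E) := by
  rw [U_eq]; exact amp_unit (τ.l_am n) (lg n).U_l (lg n).U_r

theorem U'_unit (n : ℕ) : τ.U' n ∈ unitary (E →L[ℂ] E) := by
  rw [U'_eq]; exact amp_unit (τ.σ_am n) (lg n).U'_l (lg n).U'_r

theorem U_Cρ (n m : ℕ) (h : m ≠ n) : τ.Cρ m (τ.U n) := fun _ =>
  τ.U_comm n (fun _ _ => (τ.ρ_am m _ _).symm) fun _ => τ.ρ_ρ n m h.symm _ _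

theorem U'_Cρ (n m : ℕ) (h : m ≠ n) : τ.Cρ m (τ.U' n) := fun _ =>
  τ.U'_comm n (fun _ _ => (τ.ρ_am m _ _).symm) fun a => τ.ρ_ρ n m h.symm (rHom _ _ a) _

theorem U_U' (n n' : ℕ) : Commute (τ.U n) (τ.U' n') :=
  (τ.U'_comm n' (fun i j => (τ.U_Ca n _ ((lg n').U'_mem i j)).symm)
    fun b => (τ.U_Cσ n n' b).symm).symm

theorem defect (n : ℕ) : (star (τ.U' n) * star (τ.U n) - 1) (τ.V ζ) =
    ∑ k, τ.ρ n (kb (Pi.single k 1) (lg n).ω) (τ.V ((lg n).Z k)) := by
  have h1 : ∀ k k', τ.ρ n (Matrix.single k k' 1) (τ.V ζ) =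
      (lg n).ω k' • τ.ρ n (kb (Pi.single k 1) (lg n).ω) (τ.V ζ) := fun k k' => by
    conv_lhs => rw [← τ.ρ_V n ζ, ← mul_apply_eq_comp, ← map_mul, ← kb_single, kb_single_mul_kb,
      map_smul, smul_apply]
  have h2 : ∀ m T, τ.am T (τ.ρ n m (τ.V ζ)) = τ.ρ n m (τ.V (T ζ)) := fun m T => by
    rw [← mul_apply_eq_comp, ← (τ.ρ_am n m T).eq, mul_apply_eq_comp, τ.am_V]
  have h3 : star (τ.U' n) * star (τ.U n) = ∑ k : (lg n).I × (lg n).J, ∑ k' : (lg n).I × (lg n).J,
      τ.am ((star (lg n).U') k.2 k'.2 * (star (lg n).U) k.1 k'.1) * τ.ρ n (Matrix.single k k' 1) := by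
    rw [U_eq, U'_eq, amp_star (τ.σ_am n), amp_star (τ.l_am n)]
    unfold amp
    simp only [Finset.sum_mul, Finset.mul_sum, Fintype.sum_prod_type]
    refine Finset.sum_congr rfl fun i _ => ?_
    rw [Finset.sum_comm]
    refine Finset.sum_congr rfl fun j _ => Finset.sum_congr rfl fun i' _ =>
      Finset.sum_congr rfl fun j' _ => ?_
    rw [σ_apply, StarAlgHom.comp_apply, mul_assoc, ← mul_assoc (τ.ρ n _), (τ.ρ_am n _ _).eq,
      mul_assoc, ← map_mul (τ.ρ n), rHom_mul_lHom, Matrix.single_kronecker_single, one_mul,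
      map_mul, mul_assoc]
  rw [sub_apply, one_apply_eq_self, h3]
  simp only [Leg.Z, map_sub, map_sum, map_smul, Finset.sum_sub_distrib, sum_apply]
  congr 1
  · refine Finset.sum_congr rfl fun k _ => Finset.sum_congr rfl fun k' _ => ?_
    rw [mul_apply_eq_comp, h1, map_smul, h2]
  · conv_lhs => rw [← τ.ρ_V n ζ, kb_expand_left, map_sum, sum_apply]
    simp only [map_smul, smul_apply]

theorem G_of_le {n n' : ℕ} (h : n' ≤ n) : τ.G n n' = 1 := by
  cases n' with
  | zero => rfl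
  | succ n' => rw [G, if_neg (by omega)]

theorem G_step {n n' : ℕ} (h : n ≤ n') : τ.G n (n' + 1) = τ.U n' * τ.G n n' := by
  rw [G, if_pos h]

theorem G_ind (S : Submonoid (E →L[ℂ] E)) (n n' : ℕ) (h : ∀ m, n ≤ m → m < n' → τ.U m ∈ S) :
    τ.G n n' ∈ S := by
  induction n' with
  | zero => exact S.one_mem
  | succ n' ih =>
    rw [G]
    split_ifs with h1
    · exact S.mul_mem (h n' h1 (by omega)) (ih fun m a b => h m a (by omega))
    · exact S.one_mem

theorem G_comm (z : E →L[ℂ] E) (n n' : ℕ) (h : ∀ m, n ≤ m → m < n' → Commute (τ.U m) z) :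
    Commute (τ.G n n') z := by
  have := τ.G_ind (Submonoid.centralizer {z}) n n' fun m a b => by
    rw [Submonoid.mem_centralizer_iff]; rintro _ rfl; exact (h m a b).symm.eq
  exact (show Commute z _ from Submonoid.mem_centralizer_iff.1 this z rfl).symm

theorem Gp_ind (S : Submonoid (E →L[ℂ] E)) (n : ℕ) (h : ∀ m, m < n → τ.U' m ∈ S) : τ.Gp n ∈ S := by
  induction n with
  | zero => exact S.one_mem
  | succ n ih => exact S.mul_mem (h n (by omega)) (ih fun m a => h m (by omega))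

theorem Gp_comm (z : E →L[ℂ] E) (n : ℕ) (h : ∀ m, m < n → Commute (τ.U' m) z) :
    Commute (τ.Gp n) z := by
  have := τ.Gp_ind (Submonoid.centralizer {z}) n fun m a => by
    rw [Submonoid.mem_centralizer_iff]; rintro _ rfl; exact (h m a).symm.eq
  exact (show Commute z _ from Submonoid.mem_centralizer_iff.1 this z rfl).symm

theorem G_mul (n n' n'' : ℕ) (h1 : n ≤ n') (h2 : n' ≤ n'') : τ.G n n'' = τ.G n' n'' * τ.G n n' := by
  induction n'', h2 using Nat.le_induction with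
  | base => rw [τ.G_of_le le_rfl, one_mul]
  | succ m hm ih => rw [τ.G_step (h1.trans hm), τ.G_step hm, ih, mul_assoc]

theorem Gp_mem (n : ℕ) : τ.Gp n ∈ τ.Pur n :=
  τ.Gp_ind (τ.Pur n).toSubsemiring.toSubmonoid n fun m hm => by
    change τ.U' m ∈ τ.Pur n
    exact sum_mem fun j _ => sum_mem fun j' _ => mul_mem
      (Algebra.subset_adjoin (Or.inl ⟨_, (lg m).U'_mem j j', rfl⟩))
      (Algebra.subset_adjoin (Or.inr ⟨m, hm, _, rfl⟩))

theorem slice (n : ℕ) (h : ι) : avg (τ.ρ n) ((lg n).ϑ h) (τ.U n) = τ.am ((lg n).sl h) := by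
  have e : ∀ k i i', τ.ρ n (kb (Pi.single k 1) ((lg n).ϑ h)) *
      (τ.am ((lg n).U i i') * τ.ρ n (lHom _ _ (Matrix.single i i' 1))) *
      τ.ρ n (kb ((lg n).ϑ h) (Pi.single k 1)) = (conj ((lg n).u h i) * (lg n).u h i') •
        (τ.am ((lg n).U i i') * τ.ρ n (kb (Pi.single k 1) (Pi.single k 1))) := fun k i i' => by
    rw [← mul_assoc, (τ.ρ_am n _ _).eq, mul_assoc, mul_assoc, ← map_mul, ← map_mul, ← mul_assoc]
    erw [kb_lHom_kb _ ((lg n).g_uv h)]
    rw [map_smul, mul_smul_comm]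
  unfold avg U Leg.sl
  simp only [Finset.mul_sum, Finset.sum_mul, e, map_sum, map_smul]
  rw [Finset.sum_comm]
  refine Finset.sum_congr rfl fun i _ => ?_
  rw [Finset.sum_comm]
  refine Finset.sum_congr rfl fun i' _ => ?_
  rw [← Finset.smul_sum, ← Finset.mul_sum, ← map_sum, kb_sum_one, map_one, mul_one]

theorem σ_π (n : ℕ) (h : ι) : τ.σ n (kb ((lg n).g h) ((lg n).g h)) * τ.ρ n (kb (lg n).ω (lg n).ω) =
    ((√(lg n).p : ℝ) : ℂ) • τ.ρ n (kb ((lg n).ϑ h) (lg n).ω) := by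
  rw [σ_apply, ← map_mul, rHom_kb _ _ _ _ _ ((lg n).slot h), map_smul]; rfl

theorem ip_ω_ϑ (n : ℕ) (h : ι) :
    ∑ k, conj ((lg n).ω k) * (lg n).ϑ h k = ((√(lg n).p : ℝ) : ℂ) := by
  have e : ∀ i, ∑ j, conj ((lg n).ω (i, j)) * (lg n).ϑ h (i, j) =
      ((√(lg n).p : ℝ) : ℂ) * (conj ((lg n).u h i) * (lg n).u h i) := fun i => by
    have := congrArg conj ((lg n).slot h i)
    simp only [map_sum, map_mul, Complex.conj_conj, Complex.conj_ofReal] at this
    rw [← mul_assoc, ← this, Finset.sum_mul]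
    exact Finset.sum_congr rfl fun j _ => by unfold Leg.ϑ; ring
  rw [Fintype.sum_prod_type]
  simp only [e]
  rw [← Finset.mul_sum, ((lg n).u_uv h).ip, mul_one]

theorem π_norm (n : ℕ) : ‖τ.ρ n (kb (lg n).ω (lg n).ω)‖ ≤ 1 :=
  IsStarProjection.norm_le _ ⟨by
    unfold IsIdempotentElem; rw [← map_mul, (lg n).ω_uv.kb_mul], by
    unfold IsSelfAdjoint; rw [← map_star, kb_star]⟩

theorem cE_of_le {n n' : ℕ} (h : n' ≤ n) (T : E →L[ℂ] E) : τ.cE n n' T = T := by
  cases n' with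
  | zero => rfl
  | succ n' => rw [cE, if_neg (by omega)]

theorem cE_step {n n' : ℕ} (h : n ≤ n') (T : E →L[ℂ] E) :
    τ.cE n (n' + 1) T = τ.cE n n' (avg (τ.ρ n') (lg n').ω T) := by
  rw [cE, if_pos h]

theorem api (n : ℕ) : AvgAPI (τ.ρ n) (lg n).ω := avgAPI _ (lg n).ω_uv

theorem cE_keep (n n' : ℕ) (z T : E →L[ℂ] E) (hz : ∀ m, n ≤ m → m < n' → τ.Cρ m z)
    (hT : Commute T z) : Commute (τ.cE n n' T) z := by
  induction n' generalizing T with
  | zero => exact hT
  | succ n' ih =>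
    rw [cE]
    split_ifs with h
    · exact ih _ (fun m a b => hz m a (by omega)) ((τ.api n').keep z T (hz n' h (by omega)) hT)
    · exact hT

theorem twAPI : TwAPI τ where
  ϑ_uv n h := uv_tensor ((lg n).u_uv h) ((lg n).g_uv h)
  U_unit := τ.U_unit
  U'_unit := τ.U'_unit
  U_U' := τ.U_U'
  U_Cρ := τ.U_Cρ
  U'_Cρ := τ.U'_Cρ
  defect := τ.defect
  G_unit n n' := τ.G_ind (unitary _) n n' fun m _ _ => τ.U_unit m
  G_self n := τ.G_of_le le_rfl
  G_mul := τ.G_mul
  G_succ n := by rw [τ.G_step le_rfl, τ.G_of_le le_rfl, mul_one]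
  G_Cρ n n' m h a := τ.G_comm _ n n' fun k h1 h2 => τ.U_Cρ k m (by omega) a
  G_Cσ n n' m a := τ.G_comm _ n n' fun k _ _ => τ.U_Cσ k m a
  G_Ca n n' y hy := τ.G_comm _ n n' fun k _ _ => τ.U_Ca k y hy
  Gp_unit n := τ.Gp_ind (unitary _) n fun m _ => τ.U'_unit m
  Gp_mem := τ.Gp_mem
  Gp_Cρ n m h a := τ.Gp_comm _ n fun k h1 => τ.U'_Cρ k m (by omega) a
  Cρ_Cσ m T h a := h _
  σ_Cρ m n h a b := τ.ρ_ρ m n h _ _
  slice := τ.slice
  label n h ξ := by
    conv_rhs => rw [← τ.ρ_V n ξ, ← mul_apply_eq_comp, σ_π, smul_apply]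
  label_vac n h := by
    rw [mul_assoc, σ_π, mul_smul_comm, ← map_mul, kb_mul, ip_ω_ϑ, map_smul, smul_smul,
      ← Complex.ofReal_mul, Real.mul_self_sqrt (lg n).p_pos.le]
  cE_self n T := τ.cE_of_le le_rfl T
  cE_succ n T := by rw [τ.cE_step le_rfl, τ.cE_of_le le_rfl]
  cE_cE n n' n'' T h1 h2 := by
    induction n'', h2 using Nat.le_induction generalizing T with
    | base => rw [τ.cE_of_le le_rfl]
    | succ m hm ih => rw [τ.cE_step (h1.trans hm), τ.cE_step hm, ih]
  cE_norm n n' T := by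
    induction n' generalizing T with
    | zero => exact le_rfl
    | succ n' ih =>
      rw [cE]
      split_ifs
      · exact (ih _).trans ((τ.api n').norm_le T)
      · exact le_rfl
  cE_add n n' S T := by
    induction n' generalizing S T with
    | zero => rfl
    | succ n' ih =>
      simp only [cE]
      split_ifs
      · rw [(τ.api n').add, ih]
      · rfl
  cE_smul n n' c T := by
    induction n' generalizing T with
    | zero => rfl
    | succ n' ih =>
      simp only [cE]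
      split_ifs
      · rw [(τ.api n').smul, ih]
      · rfl
  cE_Cρ n n' m T h1 h2 := by
    induction n' generalizing T with
    | zero => omega
    | succ n' ih =>
      rw [τ.cE_step (by omega)]
      rcases (Nat.lt_succ_iff.1 h2).eq_or_lt with rfl | h3
      · exact fun a => τ.cE_keep n m _ _ (fun k _ hk b => τ.ρ_ρ m k (by omega) _ _)
          ((τ.api m).comm T a)
      · exact ih _ h3
  cE_left n n' S T hS := by
    induction n' generalizing T with
    | zero => rfl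
    | succ n' ih =>
      simp only [cE]
      split_ifs with h
      · rw [(τ.api n').mul_left S T (hS n' h (by omega)), ih _ fun m a b => hS m a (by omega)]
      · rfl
  cE_keep := τ.cE_keep
  cE_wlim n n' 𝓕 T S h := by
    induction n' generalizing T S with
    | zero => exact h
    | succ n' ih =>
      simp only [cE]
      split_ifs
      · exact ih _ _ ((τ.api n').wlim 𝓕 T S h)
      · exact h
  cE_vac n n' := by
    induction n' with
    | zero => exact ⟨1, ContinuousLinearMap.norm_id_le, fun m _ a => Commute.one_left _,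
        fun T θ _ => rfl⟩
    | succ n' ih =>
      by_cases h : n ≤ n'
      · obtain ⟨P, h1, h2, h3⟩ := ih
        refine ⟨P * τ.ρ n' (kb (lg n').ω (lg n').ω),
          (norm_mul_le _ _).trans (mul_le_one₀ h1 (norm_nonneg _) (τ.π_norm n')),
          fun m hm a => (h2 m hm a).mul_left (τ.ρ_ρ n' m (by omega) _ _), fun T θ hθ => ?_⟩
        rw [τ.cE_step h, h3 _ θ fun m a b => hθ m a (by omega), mul_apply_eq_comp]
        congr 1
        have := hθ n' h (by omega)
        conv_lhs => rw [← this, ← mul_apply_eq_comp, (τ.api n').vac _ (lg n').ω_uv,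
          mul_apply_eq_comp, mul_apply_eq_comp, this]
      · exact ⟨1, ContinuousLinearMap.norm_id_le, fun m _ a => Commute.one_left _,
          fun T θ _ => by rw [τ.cE_of_le (by omega)]; rfl⟩

end Tw

theorem twa : JobTWA.{u} := fun _ _ _ _ _ _ _ _ _ _ _ _ _ τ => τ.twAPI

theorem jobTWA (_h : JobAVG.{u}) : JobTWA.{u} := twa

end Crest.Agent.KN
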