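import Crest.Agent.KN.Defs

/-! Row 78 (S0103): job VV. -/

set_option autoImplicit false
universe u

namespace Crest.Agent.KN

open scoped InnerProductSpace BigOperators
open Filter Topology

namespace VVx

variable {E : Type u} [NormedAddCommGroup E] [InnerProductSpace ℂ E] [CompleteSpace E]

theorem star_le {q : E →L[ℂ] E} (h : ‖q‖ ≤ 1) (θ : E) : ‖star q θ‖ ≤ ‖θ‖ := by
  simpa using (star q).le_of_opNorm_le ((norm_star q).trans_le h) θ

theorem kraus {q : E →L[ℂ] E} (h : ‖q‖ ≤ 1) (θ : E) :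
    ‖q θ‖ ^ 2 + ‖(1 - star q * q) θ‖ ^ 2 ≤ ‖θ‖ ^ 2 := by
  have e : (1 - star q * q) θ = θ - star q (q θ) := rfl
  have e2 : ⟪θ, star q (q θ)⟫_ℂ = ⟪q θ, q θ⟫_ℂ := by
    rw [ContinuousLinearMap.star_eq_adjoint, ContinuousLinearMap.adjoint_inner_right]
  rw [e, @norm_sub_sq ℂ, e2, inner_self_eq_norm_sq]
  nlinarith [pow_le_pow_left₀ (norm_nonneg _) (star_le h (q θ)) 2]

theorem column (𝒰 : Ultrafilter ℕ) (q : ℕ → E →L[ℂ] E) (θ : ℕ → E) (a : ℝ)
    (𝒜 : StarSubalgebra ℂ (E →L[ℂ] E)) (hq : ∀ n, ‖q n‖ ≤ 1) (hA : ∀ n, q n ∈ 𝒜)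
    (h0 : ∀ n, Tendsto (fun k => q k (θ n)) (𝒰 : Filter ℕ) (𝓝 0))
    (hb : ∀ᶠ n in (𝒰 : Filter ℕ), a < ‖q n (θ n)‖) (m : ℕ) :
    ∃ (n : Fin m → ℕ) (r : Fin m → E →L[ℂ] E), Col r 1 ∧ ∀ i, r i ∈ 𝒜 ∧ a < ‖r i (θ (n i))‖ := by
  induction m with
  | zero => exact ⟨Fin.elim0, Fin.elim0, fun ξ => by simp, fun i => i.elim0⟩
  | succ m ih =>
    obtain ⟨n, r, hc, hr⟩ := ih
    have ev : ∀ i, ∀ᶠ k in (𝒰 : Filter ℕ), a < ‖(r i * (1 - star (q k) * q k)) (θ (n i))‖ := by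
      intro i
      have t1 : Tendsto (fun k => star (q k) (q k (θ (n i)))) (𝒰 : Filter ℕ) (𝓝 0) :=
        squeeze_zero_norm (fun k => star_le (hq k) _) (tendsto_zero_iff_norm_tendsto_zero.1 (h0 _))
      have t2 := (((r i).continuous.tendsto _).comp
        ((tendsto_const_nhds (x := θ (n i))).sub t1)).norm
      rw [sub_zero] at t2
      exact t2.eventually (lt_mem_nhds (hr i).2)
    obtain ⟨k, hk, hk'⟩ := (hb.and (eventually_all.2 ev)).exists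
    refine ⟨Fin.cons k n, Fin.cons (q k) fun i => r i * (1 - star (q k) * q k), fun ξ => ?_,
      Fin.cases ⟨hA k, hk⟩ fun i => ⟨mul_mem (hr i).1 (sub_mem (one_mem _)
        (mul_mem (star_mem (hA k)) (hA k))), hk' i⟩⟩
    have := hc ((1 - star (q k) * q k) ξ)
    have := kraus (hq k) ξ
    simp only [Fin.sum_univ_succ, Fin.cons_zero, Fin.cons_succ, mul_apply_eq_comp] at *
    linarith

end VVx

open VVx in
theorem vv {C : ℝ} (hC : 1 ≤ C) (h : LIFT.{u} C) (_h2 : JobTWA.{u}) : VV.{u} C := by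
  intro H _ _ _ M ζ ι _ lg E _ _ _ τ N δ hδ hN 𝒰 q z R c hc hq h0 hz η hη
  by_contra hb
  rw [← Ultrafilter.eventually_not] at hb
  simp only [not_le] at hb
  have ap : ∀ {S T : E →L[ℂ] E}, Commute S T → ∀ v, S (T v) = T (S v) := fun h v =>
    congrArg (fun R : E →L[ℂ] E => R v) h.eq
  -- the vectors `w (V ξ)`, `w ∈ Pur n`, are killed asymptotically
  let W : Submodule ℂ E := Submodule.span ℂ {θ | ∃ (s : E →L[ℂ] E) (ξ : H),
    (∀ k, Commute (q k) s) ∧ (∀ T, Commute s (τ.am T)) ∧ θ = s (τ.V ξ)}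
  have W0 : ∀ θ ∈ W, Tendsto (fun k => q k θ) (𝒰 : Filter ℕ) (𝓝 0) := by
    intro θ hθ
    induction hθ using Submodule.span_induction with
    | mem θ hθ =>
      obtain ⟨s, ξ, a, -, rfl⟩ := hθ
      simpa only [ap (a _), map_zero, Function.comp_def] using (s.continuous.tendsto 0).comp (h0 ξ)
    | zero => simp
    | add x y _ _ a b => simpa using a.add b
    | smul t x _ a => simpa using a.const_smul t
  have W1 : ∀ n, ∀ w ∈ τ.Pur n, ∀ θ ∈ W, w θ ∈ W := by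
    intro n w hw
    induction hw using Algebra.adjoin_induction with
    | mem w hw =>
      refine fun θ hθ => (Submodule.span_le (p := W.comap (w : E →ₗ[ℂ] E))).2 ?_ hθ
      rintro _ ⟨s, ξ, a, b, rfl⟩
      rcases hw with ⟨y, -, rfl⟩ | ⟨m, -, x, rfl⟩
      · exact Submodule.subset_span ⟨s, y ξ, a, b, by rw [← τ.am_V, ap (b y)]; rfl⟩
      · exact Submodule.subset_span ⟨τ.σ m x * s, ξ, fun k => ((hq k).2.2 m x).mul_right (a k),
          fun T => (τ.ρ_am m _ T).mul_left (b T), rfl⟩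
    | algebraMap t => exact fun θ hθ => W.smul_mem t hθ
    | add x y _ _ a b => exact fun θ hθ => W.add_mem (a θ hθ) (b θ hθ)
    | mul x y _ _ a b => exact fun θ hθ => a _ (b θ hθ)
  let 𝒮 : Set (E →L[ℂ] E) := {T | (∃ y ∈ N.commutant, T = τ.am y) ∨ ∃ m a, T = τ.σ m a}
  have hA : ∀ n, q n ∈ StarSubalgebra.centralizer ℂ 𝒮 := fun n => by
    rw [StarSubalgebra.mem_centralizer_iff]
    rintro _ (⟨y, hy, rfl⟩ | ⟨m, a, rfl⟩)
    · exact ⟨((hq n).2.1 y hy).symm, by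
        rw [← map_star]; exact ((hq n).2.1 _ (star_mem hy)).symm⟩
    · exact ⟨((hq n).2.2 m a).symm, by rw [← map_star]; exact ((hq n).2.2 m _).symm⟩
  obtain ⟨m, hm⟩ := exists_nat_gt (R ^ 2 * (2 * (1 + (C * δ) ^ 2) * ‖τ.V ζ‖ ^ 2) / η ^ 2)
  obtain ⟨n, r, hc', hr⟩ := column 𝒰 q (fun n => z n (τ.V ζ)) _ _ (fun n => (hq n).1) hA
    (fun n => W0 _ (W1 n _ (hz n).1 _ (Submodule.subset_span ⟨1, ζ, fun _ => Commute.one_right _,
      fun _ => Commute.one_left _, rfl⟩))) hb m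
  have cm : ∀ i, ∀ T ∈ 𝒮, Commute (r i) T := fun i T hT =>
    (((StarSubalgebra.mem_centralizer_iff ℂ).1 (hr i).1 T hT).1).symm
  obtain ⟨r', c1, c2⟩ := h H M ζ ι lg E τ M N δ hδ hN ∅ (Finset.range (Finset.univ.sup n))
    (Finset.disjoint_empty_left _) m r 1 zero_le_one hc' fun i =>
      ⟨fun y hy => cm i _ (.inl ⟨y, hy, rfl⟩), fun _ a => absurd a (Finset.notMem_empty _),
        fun k _ a => cm i _ (.inr ⟨k, a, rfl⟩)⟩
  have Cδ : 0 ≤ C * δ := mul_nonneg (zero_le_one.trans hC) hδ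
  have key : ∀ i, η ^ 2 ≤ R ^ 2 * (2 * ‖r i (τ.V ζ)‖ ^ 2 + 2 * ‖(r i - r' i) (τ.V ζ)‖ ^ 2) := by
    intro i
    have cz : Commute (r' i) (z (n i)) :=
      Algebra.commute_of_mem_adjoin_of_forall_mem_commute (hz _).1 (by
        rintro _ (⟨y, hy, rfl⟩ | ⟨k, hk, a, rfl⟩)
        · exact (c2 i).1 y hy
        · exact (c2 i).2.2 k (Finset.mem_range.2
            (hk.trans_le (Finset.le_sup (f := n) (Finset.mem_univ i)))) a)
    have e1 : ‖(r i - r' i) (z (n i) (τ.V ζ))‖ ≤ C * δ * c := by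
      refine le_trans ?_ (mul_le_mul_of_nonneg_left (hz (n i)).2.2 Cδ)
      refine (pow_le_pow_iff_left₀ (norm_nonneg _) (by positivity) two_ne_zero).1 ?_
      have := (Finset.single_le_sum (f := fun j => ‖(r j - r' j) (z (n i) (τ.V ζ))‖ ^ 2)
        (fun j _ => sq_nonneg _) (Finset.mem_univ i)).trans (c1 _)
      rwa [mul_one, ← mul_pow] at this
    have e2 : ‖r' i (z (n i) (τ.V ζ))‖ ≤ R * ‖r' i (τ.V ζ)‖ := by
      rw [ap cz]; exact (z _).le_of_opNorm_le (hz _).2.1 _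
    have e3 := norm_add_le ((r i - r' i) (z (n i) (τ.V ζ))) (r' i (z (n i) (τ.V ζ)))
    rw [sub_apply, sub_add_cancel, ← sub_apply] at e3
    have e4 := norm_sub_le (r i (τ.V ζ)) ((r i - r' i) (τ.V ζ))
    rw [sub_apply, sub_sub_cancel, ← sub_apply] at e4
    have e5 : η ≤ R * ‖r' i (τ.V ζ)‖ := by linarith [(hr i).2]
    refine (pow_le_pow_left₀ hη.le e5 2).trans ?_
    rw [mul_pow]
    refine mul_le_mul_of_nonneg_left ((pow_le_pow_left₀ (norm_nonneg _) e4 2).trans ?_)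
      (sq_nonneg _)
    nlinarith [sq_nonneg (‖r i (τ.V ζ)‖ - ‖(r i - r' i) (τ.V ζ)‖)]
  have := Finset.sum_le_sum fun i (_ : i ∈ Finset.univ) => key i
  rw [← Finset.mul_sum, Finset.sum_add_distrib, ← Finset.mul_sum, ← Finset.mul_sum,
    Finset.sum_const, Finset.card_univ, Fintype.card_fin, nsmul_eq_mul] at this
  rw [div_lt_iff₀ (by positivity)] at hm
  have a1 := hc' (τ.V ζ)
  have a2 := c1 (τ.V ζ)
  have : (m : ℝ) * η ^ 2 ≤ R ^ 2 * (2 * (1 + (C * δ) ^ 2) * ‖τ.V ζ‖ ^ 2) :=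
    this.trans (mul_le_mul_of_nonneg_left (by nlinarith) (sq_nonneg _))
  linarith

end Crest.Agent.KN
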