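import Crest.Agent.KN.Defs

/-! Row 78 (S0103): job WL (weak ultralimits). -/

set_option autoImplicit false
universe u v

namespace Crest.Agent.KN

open scoped InnerProductSpace ComplexConjugate
open Filter Topology

theorem jobWL : JobWL.{u,v} := by
  intro H _ _ _ α 𝒰 T c hT
  have hc : 0 ≤ c := by
    obtain ⟨a, ha⟩ := hT.exists
    exact (norm_nonneg _).trans ha
  have hb : ∀ η ξ : H, ∀ᶠ a in (𝒰 : Filter α), ‖⟪η, T a ξ⟫_ℂ‖ ≤ c * ‖η‖ * ‖ξ‖ := fun η ξ =>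
    hT.mono fun a ha => by
      calc ‖⟪η, T a ξ⟫_ℂ‖ ≤ ‖η‖ * ‖T a ξ‖ := norm_inner_le_norm _ _
        _ ≤ ‖η‖ * (‖T a‖ * ‖ξ‖) := by gcongr; exact (T a).le_opNorm ξ
        _ ≤ ‖η‖ * (c * ‖ξ‖) := by gcongr
        _ = _ := by ring
  have hex : ∀ η ξ : H, ∃ z : ℂ, Tendsto (fun a => ⟪η, T a ξ⟫_ℂ) (𝒰 : Filter α) (𝓝 z) := by
    intro η ξ
    obtain ⟨z, -, hz⟩ := (isCompact_closedBall (0 : ℂ) (c * ‖η‖ * ‖ξ‖)).ultrafilter_le_nhds
      (𝒰.map fun a => ⟪η, T a ξ⟫_ℂ) (by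
        rw [Ultrafilter.coe_map, le_principal_iff, mem_map]
        exact (hb η ξ).mono fun a ha => by simpa using ha)
    exact ⟨z, hz⟩
  choose B hB using hex
  have hBle : ∀ η ξ, ‖B η ξ‖ ≤ c * ‖η‖ * ‖ξ‖ := fun η ξ => le_of_tendsto (hB η ξ).norm (hb η ξ)
  -- `B` as a sesquilinear form, conjugate linear in `ξ`
  let β : H →ₗ⋆[ℂ] H →ₗ[ℂ] ℂ := LinearMap.mk₂'ₛₗ (starRingEnd ℂ) (RingHom.id ℂ) B
    (fun η η' ξ => tendsto_nhds_unique (hB _ _) (by
      simpa only [inner_add_left] using (hB η ξ).add (hB η' ξ)))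
    (fun s η ξ => tendsto_nhds_unique (hB _ _) (by
      simpa only [inner_smul_left, smul_eq_mul] using (hB η ξ).const_mul (conj s)))
    (fun η ξ ξ' => tendsto_nhds_unique (hB _ _) (by
      simpa only [map_add, inner_add_right] using (hB η ξ).add (hB η ξ')))
    (fun s η ξ => tendsto_nhds_unique (hB _ _) (by
      simpa only [map_smul, inner_smul_right, smul_eq_mul, RingHom.id_apply] using
        (hB η ξ).const_mul s))
  let β' : H →L⋆[ℂ] H →L[ℂ] ℂ := β.mkContinuous₂ c hBle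
  let R : H →L[ℂ] H := InnerProductSpace.continuousLinearMapOfBilin β'
  have hR : ∀ η ξ, ⟪R η, ξ⟫_ℂ = B η ξ := fun η ξ =>
    InnerProductSpace.continuousLinearMapOfBilin_apply β' η ξ
  have hS : ∀ η ξ, ⟪η, (ContinuousLinearMap.adjoint R) ξ⟫_ℂ = B η ξ := fun η ξ => by
    rw [ContinuousLinearMap.adjoint_inner_right, hR]
  refine ⟨ContinuousLinearMap.adjoint R, ?_, fun η ξ => by rw [hS]; exact hB η ξ⟩
  refine ContinuousLinearMap.opNorm_le_bound _ hc fun ξ => ?_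
  have := hBle (ContinuousLinearMap.adjoint R ξ) ξ
  rw [← hS, inner_self_eq_norm_sq_to_K, norm_pow, RCLike.norm_ofReal, abs_norm, sq] at this
  rcases (norm_nonneg (ContinuousLinearMap.adjoint R ξ)).eq_or_lt with h0 | h0
  · rw [← h0]; positivity
  · refine le_of_mul_le_mul_left ?_ h0
    linarith

end Crest.Agent.KN
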